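import Vale.Agent.P088.R2.H404.INF.Cut
import Vale.Agent.P088.R2.H509.EP.Lit
import Vale.Agent.P088.R2.H31.EP.PackL
import Vale.Agent.P088.R2.H475.INF.LevR

/-!
# P088, stage 3, EST': what is known on the supports of the leaves, zone INF and near tree

`InfC q`: the conditions on the constants (`evInf : EvC InfC`). For `h : PkOk q d`:
`near_supp`: on the support of every leaf of the near tree: `|x - y| ≤ (3/4) κ₁ R`, the levels are
below `12/5`, `|w| ≥ 2/25` at both points; `W_near`: there `d.W = WW` and `P = id`, `Θ = 0` nearby.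
`far_supp` (iF), `deep_supp` (iS), `high_supp` (iH).
-/

open Set Filter
open scoped ContDiff Topology

noncomputable section

namespace Vale.Agent.P088.R2.H404.INF

open Vale.Agent.P088.LR Vale.Agent.P088.HY Vale.Agent.P088.R2.H475 Vale.Agent.P088.R2.H31.EP
open Vale.Agent.P088.R2.H867.EP

variable {n : ℕ}

/-- The conditions on the constants. -/
structure InfC (q : Cst) : Prop where
  κ0 : 0 < q.κ₁
  κ1 : q.κ₁ ≤ 1 / 50
  σ0 : 0 < q.σ
  σ1 : q.σ ≤ 1 / 5000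
  R1 : 1 ≤ q.R
  η0 : 0 < q.η
  η1 : q.η ≤ 1 / 200
  C1 : 1 ≤ q.Ck

theorem evInf : EvC InfC := by
  have h1 : EvC fun q => q.κ₁ ≤ 1 / 50 :=
    EvC.at_κ₁ (fun _ t => t ≤ 1 / 50) fun _ => sml_le (by norm_num)
  have h2 : EvC fun q => q.σ ≤ 1 / 5000 :=
    EvC.at_σ (fun _ t => t ≤ 1 / 5000) fun _ => sml_le (by norm_num)
  have h3 : EvC fun q => q.η ≤ 1 / 200 :=
    EvC.at_η (fun _ t => t ≤ 1 / 200) fun _ => sml_le (by norm_num)
  refine ((EvC.pos.and h1).and (h2.and h3)).mono ?_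
  rintro q ⟨⟨⟨-, ⟨b1, b2, -⟩, -, -, -, c1, c2, c3⟩, a1⟩, a2, a3⟩
  exact ⟨b1, a1, b2, a2, c3, c1, a3, c2⟩

theorem InfC.R0 {q : Cst} (h : InfC q) : 0 < q.R := by linarith [h.R1]

variable {q : Cst} {d : Pk n} {z : VV n}

theorem l₀_eq (d : Pk n) (q : Cst) : d.l₀ q = lam0 q.R d.kap d.Gs := rfl

theorem l₀_nonneg (hq : InfC q) (h : PkOk q d) : 0 ≤ d.l₀ q := by
  have hR := hq.R0
  have h1 : q.R ≤ d.kap := by
    refine le_trans ?_ h.kC
    calc q.R = q.R ^ (1 : ℝ) := (Real.rpow_one _).symm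
      _ ≤ q.R ^ q.Ck := Real.rpow_le_rpow_of_exponent_le hq.R1 hq.C1
  have h2 : 1 ≤ d.kap / q.R := by rw [le_div_iff₀ hR]; linarith
  have h3 := Real.log_nonneg h2
  have h4 : 0 ≤ -(q.R * d.Gs) := by
    have := mul_nonneg hR.le (neg_nonneg.2 h.G0)
    linarith
  unfold Pk.l₀
  linarith

theorem l₀_le (hq : InfC q) (h : PkOk q d) : d.l₀ q ≤ 2 * q.η * q.R := by
  have hR := hq.R0
  have h1 : Real.log (d.kap / q.R) ≤ q.η * q.R := by
    have hk : 0 < d.kap := by linarith [h.k1]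
    rw [Real.log_div hk.ne' hR.ne']
    have h2 : Real.log d.kap ≤ q.η * q.R := by
      rw [Real.log_le_iff_le_exp hk]; exact h.kη
    linarith [Real.log_nonneg hq.R1]
  have h2 : -(q.R * d.Gs) ≤ q.η * q.R := by
    have := mul_le_mul_of_nonneg_left h.G1 hR.le
    linarith
  unfold Pk.l₀
  linarith

/-- The global level of the package. -/
theorem lvG (hq : InfC q) (h : PkOk q d) :
    LvG q.σ q.R (d.l₀ q) (H475.gg n q.σ) d.l where
  g := glv_gg hq.σ0 hq.σ1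
  eq x := by rw [h.lev.lit, levG_eq]; rfl
  σ0 := hq.σ0
  σ1 := hq.σ1
  R0 := hq.R0
  l0 := l₀_nonneg hq h
  l1 := by
    have h1 := l₀_le hq h
    have h2 := hq.η1
    have hR := hq.R0
    nlinarith

theorem tinf_eq (d : Pk n) (q : Cst) : d.tinf q = tinf q.κ₁ q.σ q.R (d.l₀ q) d.l := by
  ext z
  unfold Pk.tinf tinf Pk.u0 qq
  congr 3
  ring

theorem thi_eq (d : Pk n) (q : Cst) : d.thi q = thi q.R (d.l₀ q) d.l := rfl

theorem tfs_eq (d : Pk n) (q : Cst) : d.tfs q = tfs q.σ q.R d.l := rfl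

theorem cv_inf (d : Pk n) (q : Cst) : d.cv q .inf = tinf q.κ₁ q.σ q.R (d.l₀ q) d.l := by
  rw [← tinf_eq]; rfl

theorem cv_hi (d : Pk n) (q : Cst) : d.cv q .hi = thi q.R (d.l₀ q) d.l := rfl

theorem cv_fs (d : Pk n) (q : Cst) : d.cv q .fs = tfs q.σ q.R d.l := rfl

theorem inf_path (k : Zo) : Cut.inf ∈ path k := by cases k <;> decide

/-- The sides of the cut `inf` where a leaf is alive. -/
theorem alive_inf {k : Zo} (hk : d.ch q k z ≠ 0) :
    (sd k .inf = true → 0 < tinf q.κ₁ q.σ q.R (d.l₀ q) d.l z) ∧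
      (sd k .inf = false → tinf q.κ₁ q.σ q.R (d.l₀ q) d.l z < 1) := by
  have h := pr_side (F := Fl) Fl_pair (b := sd k) (τ := d.cv q) hk (inf_path k)
  rwa [cv_inf] at h

theorem alive_hi {k : Zo} (hk : d.ch q k z ≠ 0) (hi : Cut.hi ∈ path k) :
    (sd k .hi = true → 0 < thi q.R (d.l₀ q) d.l z) ∧
      (sd k .hi = false → thi q.R (d.l₀ q) d.l z < 1) :=
  pr_side (F := Fl) Fl_pair (b := sd k) (τ := d.cv q) hk hi

theorem alive_fs {k : Zo} (hk : d.ch q k z ≠ 0) (hi : Cut.fs ∈ path k) :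
    (sd k .fs = true → 0 < tfs q.σ q.R d.l z) ∧ (sd k .fs = false → tfs q.σ q.R d.l z < 1) :=
  pr_side (F := Fl) Fl_pair (b := sd k) (τ := d.cv q) hk hi

/-- **The near tree.** -/
theorem near_supp (hq : InfC q) (h : PkOk q d) {k : Zo} (hk : sd k .inf = false)
    (hz : z ∈ tsupport (d.ch q k)) :
    NearOk q.κ₁ q.σ q.R (d.l₀ q) (H475.gg n q.σ) d.l z := by
  have hL := lvG hq h
  refine closure_minimal (fun w hw => ?_) (closed_near hL) hz
  exact near_alive hL hq.κ0 hq.κ1 ((alive_inf (Function.mem_support.1 hw)).2 hk)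

/-- **The leaf iF.** -/
theorem far_supp (hq : InfC q) (h : PkOk q d) (hz : z ∈ tsupport (d.ch q .iF)) :
    FarOk q.κ₁ q.σ q.R (d.l₀ q) (H475.gg n q.σ) d.l z := by
  have hL := lvG hq h
  refine closure_minimal (fun w hw => ?_) (closed_far hL) hz
  have hw' := Function.mem_support.1 hw
  exact far_alive hL hq.κ0 hq.κ1 ((alive_inf hw').1 (by decide)) ((alive_hi hw' (by decide)).2
    (by decide)) ((alive_fs hw' (by decide)).1 (by decide))

/-- **The leaf iS.** -/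
theorem deep_supp (hq : InfC q) (h : PkOk q d) (hz : z ∈ tsupport (d.ch q .iS)) :
    DeepOk q.σ q.R (H475.gg n q.σ) d.l z := by
  have hL := lvG hq h
  refine closure_minimal (fun w hw => ?_) (closed_deep hL) hz
  have hw' := Function.mem_support.1 hw
  exact deep_alive hL ((alive_hi hw' (by decide)).2
    (by decide)) ((alive_fs hw' (by decide)).2 (by decide))

/-- **The leaf iH.** -/
theorem high_supp (hq : InfC q) (h : PkOk q d) (hz : z ∈ tsupport (d.ch q .iH)) :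
    2 * d.l₀ q + 91 / 20 * q.R ≤ d.l z.1 + d.l z.2 ∨ d.l₀ q + 29 / 10 * q.R ≤ d.l z.1 ∨
      d.l₀ q + 29 / 10 * q.R ≤ d.l z.2 := by
  have hL := lvG hq h
  have hl := hL.cl
  have hc : IsClosed ({z : VV n | 2 * d.l₀ q + 91 / 20 * q.R ≤ d.l z.1 + d.l z.2} ∪
      ({z | d.l₀ q + 29 / 10 * q.R ≤ d.l z.1} ∪ {z | d.l₀ q + 29 / 10 * q.R ≤ d.l z.2})) :=
    (isClosed_le continuous_const ((hl.comp continuous_fst).add (hl.comp continuous_snd))).union
      ((isClosed_le continuous_const (hl.comp continuous_fst)).union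
        (isClosed_le continuous_const (hl.comp continuous_snd)))
  have := closure_minimal (s := Function.support (d.ch q .iH)) (fun w hw => ?_) hc hz
  · exact this
  · have hw' := Function.mem_support.1 hw
    rcases thi_pos hq.R0 ((alive_hi hw' (by decide)).1 (by decide)) with c | c | c
    · exact Or.inl c.le
    · exact Or.inr (Or.inl c.le)
    · exact Or.inr (Or.inr c.le)

/-! ### The level -/

theorem gl_le (hq : InfC q) (h : PkOk q d) {x : V n} {a : ℝ} :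
    H475.gg n q.σ (q.R⁻¹ • x) ≤ a ↔ d.l x ≤ d.l₀ q + a * q.R := (lvG hq h).l12 x

/-- The gradient of the level. -/
theorem grad_near (hq : InfC q) (h : PkOk q d) {x : V n}
    (h1 : H475.gg n q.σ (q.R⁻¹ • x) ≤ 3) (h2 : 2 / 25 ≤ √(HY.sq (wv n q.σ (q.R⁻¹ • x)))) :
    (24 / 25) ^ 2 ≤ ∑ i, pd i d.l x ^ 2 ∧ ∑ i, pd i d.l x ^ 2 ≤ 1 + 10 * q.σ := by
  have hl := h.lev.lit
  have h3 := (gl_le hq h).1 h1
  rw [hl] at h3 ⊢
  refine ⟨grad_levG_ge hq.σ0 hq.σ1 hq.R0 h2, grad_levG_le' hq.σ0 hq.σ1 hq.R0 ?_⟩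
  have hR := hq.R0
  rw [l₀_eq] at h3
  linarith

/-! ### The weight -/

/-- Where both levels are below `l₀ + 3 R` the retraction is not seen. -/
theorem W_ret (h : PkOk q d) (h1 : d.l z.1 < d.l₀ q + 3 * q.R)
    (h2 : d.l z.2 < d.l₀ q + 3 * q.R) : ∀ᶠ w in 𝓝 z, d.P w.1 = w.1 ∧ d.P w.2 = w.2 ∧
      d.W q w = WW (d.F q) d.l (gi d.s₁) w + (d.Θ (d.l w.1) + d.Θ (d.l w.2)) := by
  have hl : Continuous d.l := h.lev.sm.continuous
  filter_upwards [(isOpen_lt (hl.comp continuous_fst) continuous_const).mem_nhds h1,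
    (isOpen_lt (hl.comp continuous_snd) continuous_const).mem_nhds h2] with w a1 a2
  have e1 := h.ret.id w.1 (le_of_lt a1)
  have e2 := h.ret.id w.2 (le_of_lt a2)
  refine ⟨e1, e2, ?_⟩
  unfold Pk.W WT
  rw [e1, e2]

/-- Where both levels are below `l₀ + 2.6 R` the weight is `WW`. -/
theorem W_near (hR : 0 < q.R) (h : PkOk q d) (h1 : d.l z.1 < d.l₀ q + 26 / 10 * q.R)
    (h2 : d.l z.2 < d.l₀ q + 26 / 10 * q.R) : ∀ᶠ w in 𝓝 z, d.P w.1 = w.1 ∧ d.P w.2 = w.2 ∧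
      d.Θ (d.l w.1) = 0 ∧ d.Θ (d.l w.2) = 0 ∧ d.W q w = WW (d.F q) d.l (gi d.s₁) w := by
  have hl : Continuous d.l := h.lev.sm.continuous
  filter_upwards [(isOpen_lt (hl.comp continuous_fst) continuous_const).mem_nhds h1,
    (isOpen_lt (hl.comp continuous_snd) continuous_const).mem_nhds h2,
    W_ret h (z := z) (by linarith) (by linarith)] with w a1 a2 a3
  have e1 : d.Θ (d.l w.1) = 0 := h.Θ0 _ (le_of_lt a1)
  have e2 : d.Θ (d.l w.2) = 0 := h.Θ0 _ (le_of_lt a2)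
  refine ⟨a3.1, a3.2.1, e1, e2, ?_⟩
  rw [a3.2.2, e1, e2]
  ring

theorem W_near' (hq : InfC q) (h : PkOk q d) {k : Zo} (hk : sd k .inf = false)
    (hz : z ∈ tsupport (d.ch q k)) : ∀ᶠ w in 𝓝 z, d.P w.1 = w.1 ∧ d.P w.2 = w.2 ∧
      d.Θ (d.l w.1) = 0 ∧ d.Θ (d.l w.2) = 0 ∧ d.W q w = WW (d.F q) d.l (gi d.s₁) w := by
  have hn := near_supp hq h hk hz
  have hR := hq.R0
  have a1 := (gl_le hq h).1 hn.g1
  have a2 := (gl_le hq h).1 hn.g2
  exact W_near hR h (by linarith) (by linarith)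

/-- `P = id` near the supports of `iF`, `iS`. -/
theorem W_far (hq : InfC q) (h : PkOk q d) {k : Zo} (hk : k = .iF ∨ k = .iS)
    (hz : z ∈ tsupport (d.ch q k)) : ∀ᶠ w in 𝓝 z, d.P w.1 = w.1 ∧ d.P w.2 = w.2 ∧
      d.W q w = WW (d.F q) d.l (gi d.s₁) w + (d.Θ (d.l w.1) + d.Θ (d.l w.2)) := by
  have hR := hq.R0
  rcases hk with rfl | rfl
  · have hn := far_supp hq h hz
    have a1 := (gl_le hq h).1 hn.g1
    have a2 := (gl_le hq h).1 hn.g2
    exact W_ret h (by linarith) (by linarith)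
  · have hn := deep_supp hq h hz
    have a1 := (gl_le hq h).1 hn.g1
    have a2 := (gl_le hq h).1 hn.g2
    exact W_ret h (by linarith) (by linarith)

end Vale.Agent.P088.R2.H404.INF
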