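import Vale.Agent.P088.R2.H404.INF.Geo
import Vale.Agent.P088.R2.H464.EP.Rq

/-!
# P088, zone INF: the cut variables `tinf`, `thi`, `tfs` and what is known where a leaf is alive

`l x = l₀ + R gg(x / R)` is the level in rate units. With `u₀ = l(x) + l(y)`, `q = x - y`:
`tinf = 0` iff `|q| ≤ κ₁ R / 2`, `u₀ ≥ -(3/2) R / σ` and `u₀ ≤ 2 l₀ + 4.6 R`;
`thi`: `u₀ - 2 l₀` from `4.55 R` to `4.6 R`, the levels from `2.9 R` to `2.95 R`;
`tfs`: `(σ / R) (u₀ + (4/5) √(R² + |q|²))` from `-.009` to `-.006`.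
-/

open Set Filter
open scoped ContDiff Topology

noncomputable section

namespace Vale.Agent.P088.R2.H404.INF

open Vale.Agent.P088.LR Vale.Agent.P088.HY Vale.Agent.P088.R2.H475

variable {n : ℕ}

/-- The sum of the levels. -/
def u0 (l : V n → ℝ) (z : VV n) : ℝ := l z.1 + l z.2

/-- The cut variable of zone INF. -/
def tinf (κ₁ σ R l₀ : ℝ) (l : V n → ℝ) (z : VV n) : ℝ :=
  Real.smoothTransition (4 * HY.sq (z.1 - z.2) / (κ₁ * R) ^ 2 - 1) +
  Real.smoothTransition (10 * (-(σ / R) * (l z.1 + l z.2) - 3 / 2)) +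
  Real.smoothTransition (20 * (l z.1 + l z.2 - 2 * l₀) / R - 92)

/-- The cut variable of the high zone. -/
def thi (R l₀ : ℝ) (l : V n → ℝ) (z : VV n) : ℝ :=
  Real.smoothTransition (20 * (l z.1 + l z.2 - 2 * l₀) / R - 91) +
  Real.smoothTransition (20 * ((l z.1 - l₀) / R) - 58) +
  Real.smoothTransition (20 * ((l z.2 - l₀) / R) - 58)

/-- The cut variable which separates far pairs from deep pairs. -/
def tfs (σ R : ℝ) (l : V n → ℝ) (z : VV n) : ℝ :=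
  ((σ / R) * (l z.1 + l z.2 + 4 / 5 * √(R ^ 2 + HY.sq (z.1 - z.2))) + 9 / 1000) / (3 / 1000)

/-! ### Smoothness -/

theorem sm_q : ContDiff ℝ ∞ fun z : VV n => HY.sq (z.1 - z.2) :=
  contDiff_sq.comp (contDiff_fst.sub contDiff_snd)

theorem tinf_sm {κ₁ σ R l₀ : ℝ} {l : V n → ℝ} (hl : ContDiff ℝ ∞ l) :
    ContDiff ℝ ∞ (tinf κ₁ σ R l₀ l) := by
  have h1 : ContDiff ℝ ∞ fun z : VV n => l z.1 := hl.comp contDiff_fst
  have h2 : ContDiff ℝ ∞ fun z : VV n => l z.2 := hl.comp contDiff_snd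
  have hs : ContDiff ℝ ∞ Real.smoothTransition := Real.smoothTransition.contDiff (n := (⊤ : ℕ∞))
  unfold tinf
  refine ((hs.comp ?_).add (hs.comp ?_)).add (hs.comp ?_)
  · exact ((contDiff_const.mul sm_q).div_const _).sub contDiff_const
  · exact contDiff_const.mul ((contDiff_const.mul (h1.add h2)).sub contDiff_const)
  · exact ((contDiff_const.mul ((h1.add h2).sub contDiff_const)).div_const _).sub contDiff_const

theorem thi_sm {R l₀ : ℝ} {l : V n → ℝ} (hl : ContDiff ℝ ∞ l) : ContDiff ℝ ∞ (thi R l₀ l) := by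
  have h1 : ContDiff ℝ ∞ fun z : VV n => l z.1 := hl.comp contDiff_fst
  have h2 : ContDiff ℝ ∞ fun z : VV n => l z.2 := hl.comp contDiff_snd
  have hs : ContDiff ℝ ∞ Real.smoothTransition := Real.smoothTransition.contDiff (n := (⊤ : ℕ∞))
  unfold thi
  refine ((hs.comp ?_).add (hs.comp ?_)).add (hs.comp ?_)
  · exact ((contDiff_const.mul ((h1.add h2).sub contDiff_const)).div_const _).sub contDiff_const
  · exact (contDiff_const.mul ((h1.sub contDiff_const).div_const _)).sub contDiff_const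
  · exact (contDiff_const.mul ((h2.sub contDiff_const).div_const _)).sub contDiff_const

theorem sm_rt {R : ℝ} (hR : 0 < R) :
    ContDiff ℝ ∞ fun z : VV n => √(R ^ 2 + HY.sq (z.1 - z.2)) := by
  refine (contDiff_const.add sm_q).sqrt fun z => ?_
  have := sq0 (z.1 - z.2)
  positivity

theorem tfs_sm {σ R : ℝ} (hR : 0 < R) {l : V n → ℝ} (hl : ContDiff ℝ ∞ l) :
    ContDiff ℝ ∞ (tfs σ R l) := by
  have h1 : ContDiff ℝ ∞ fun z : VV n => l z.1 := hl.comp contDiff_fst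
  have h2 : ContDiff ℝ ∞ fun z : VV n => l z.2 := hl.comp contDiff_snd
  unfold tfs
  exact ((contDiff_const.mul ((h1.add h2).add (contDiff_const.mul (sm_rt hR)))).add
    contDiff_const).div_const _

/-! ### Sides -/

theorem st_lt {t : ℝ} (h : Real.smoothTransition t < 1) : t < 1 := by
  by_contra hc
  rw [Real.smoothTransition.one_of_one_le (not_lt.1 hc)] at h
  exact lt_irrefl _ h

theorem st_pos {t : ℝ} (h : 0 < Real.smoothTransition t) : 0 < t := by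
  by_contra hc
  rw [Real.smoothTransition.zero_of_nonpos (not_lt.1 hc)] at h
  exact lt_irrefl _ h

section sides

variable {κ₁ σ R l₀ : ℝ} {l : V n → ℝ} {z : VV n}

theorem tinf_lt (hk : 0 < κ₁) (h0 : 0 < σ) (hR : 0 < R) (h : tinf κ₁ σ R l₀ l z < 1) :
    HY.sq (z.1 - z.2) < (κ₁ * R) ^ 2 / 2 ∧ -(8 / 5) * (R / σ) < l z.1 + l z.2 ∧
      l z.1 + l z.2 < 2 * l₀ + 93 / 20 * R := by
  unfold tinf at h
  have a1 := Real.smoothTransition.nonneg (4 * HY.sq (z.1 - z.2) / (κ₁ * R) ^ 2 - 1)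
  have a2 := Real.smoothTransition.nonneg (10 * (-(σ / R) * (l z.1 + l z.2) - 3 / 2))
  have a3 := Real.smoothTransition.nonneg (20 * (l z.1 + l z.2 - 2 * l₀) / R - 92)
  have b1 := st_lt (lt_of_le_of_lt (by linarith) h :
    Real.smoothTransition (4 * HY.sq (z.1 - z.2) / (κ₁ * R) ^ 2 - 1) < 1)
  have b2 := st_lt (lt_of_le_of_lt (by linarith) h :
    Real.smoothTransition (10 * (-(σ / R) * (l z.1 + l z.2) - 3 / 2)) < 1)
  have b3 := st_lt (lt_of_le_of_lt (by linarith) h :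
    Real.smoothTransition (20 * (l z.1 + l z.2 - 2 * l₀) / R - 92) < 1)
  refine ⟨?_, ?_, ?_⟩
  · have h1 : 4 * HY.sq (z.1 - z.2) / (κ₁ * R) ^ 2 < 2 := by linarith
    rw [div_lt_iff₀ (by positivity)] at h1
    linarith
  · have h1 : -(σ / R) * (l z.1 + l z.2) < 8 / 5 := by linarith
    have h2 : (σ / R) * (R / σ) = 1 := by field_simp
    have h3 : 0 < R / σ := by positivity
    have h4 := mul_lt_mul_of_pos_right h1 h3
    have h5 : -(σ / R) * (l z.1 + l z.2) * (R / σ) = -(l z.1 + l z.2) := by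
      calc _ = -((σ / R) * (R / σ)) * (l z.1 + l z.2) := by ring
        _ = _ := by rw [h2]; ring
    rw [h5] at h4
    linarith
  · have h1 : 20 * (l z.1 + l z.2 - 2 * l₀) / R < 93 := by linarith
    rw [div_lt_iff₀ hR] at h1
    linarith

theorem tinf_pos (hk : 0 < κ₁) (h0 : 0 < σ) (hR : 0 < R) (h : 0 < tinf κ₁ σ R l₀ l z) :
    (κ₁ * R) ^ 2 / 4 < HY.sq (z.1 - z.2) ∨ l z.1 + l z.2 < -(3 / 2) * (R / σ) ∨
      2 * l₀ + 23 / 5 * R < l z.1 + l z.2 := by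
  by_contra hc
  push Not at hc
  obtain ⟨c1, c2, c3⟩ := hc
  unfold tinf at h
  rw [Real.smoothTransition.zero_of_nonpos, Real.smoothTransition.zero_of_nonpos,
    Real.smoothTransition.zero_of_nonpos] at h
  · simp at h
  · have h1 : 20 * (l z.1 + l z.2 - 2 * l₀) / R ≤ 92 := by
      rw [div_le_iff₀ hR]
      linarith
    linarith
  · have h2 : (σ / R) * (R / σ) = 1 := by field_simp
    have h3 : 0 < σ / R := by positivity
    nlinarith
  · have h1 : 4 * HY.sq (z.1 - z.2) / (κ₁ * R) ^ 2 ≤ 1 := by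
      rw [div_le_iff₀ (by positivity)]
      linarith
    linarith

theorem thi_lt (hR : 0 < R) (h : thi R l₀ l z < 1) :
    l z.1 + l z.2 < 2 * l₀ + 23 / 5 * R ∧ l z.1 < l₀ + 59 / 20 * R ∧
      l z.2 < l₀ + 59 / 20 * R := by
  unfold thi at h
  have a1 := Real.smoothTransition.nonneg (20 * (l z.1 + l z.2 - 2 * l₀) / R - 91)
  have a2 := Real.smoothTransition.nonneg (20 * ((l z.1 - l₀) / R) - 58)
  have a3 := Real.smoothTransition.nonneg (20 * ((l z.2 - l₀) / R) - 58)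
  have b1 := st_lt (lt_of_le_of_lt (by linarith) h :
    Real.smoothTransition (20 * (l z.1 + l z.2 - 2 * l₀) / R - 91) < 1)
  have b2 := st_lt (lt_of_le_of_lt (by linarith) h :
    Real.smoothTransition (20 * ((l z.1 - l₀) / R) - 58) < 1)
  have b3 := st_lt (lt_of_le_of_lt (by linarith) h :
    Real.smoothTransition (20 * ((l z.2 - l₀) / R) - 58) < 1)
  refine ⟨?_, ?_, ?_⟩
  · have h1 : 20 * (l z.1 + l z.2 - 2 * l₀) / R < 92 := by linarith
    rw [div_lt_iff₀ hR] at h1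
    linarith
  · have h1 : (l z.1 - l₀) / R < 59 / 20 := by linarith
    rw [div_lt_iff₀ hR] at h1
    linarith
  · have h1 : (l z.2 - l₀) / R < 59 / 20 := by linarith
    rw [div_lt_iff₀ hR] at h1
    linarith

theorem thi_pos (hR : 0 < R) (h : 0 < thi R l₀ l z) :
    2 * l₀ + 91 / 20 * R < l z.1 + l z.2 ∨ l₀ + 29 / 10 * R < l z.1 ∨
      l₀ + 29 / 10 * R < l z.2 := by
  by_contra hc
  push Not at hc
  obtain ⟨c1, c2, c3⟩ := hc
  unfold thi at h
  rw [Real.smoothTransition.zero_of_nonpos, Real.smoothTransition.zero_of_nonpos,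
    Real.smoothTransition.zero_of_nonpos] at h
  · simp at h
  · have h1 : (l z.2 - l₀) / R ≤ 29 / 10 := by
      rw [div_le_iff₀ hR]
      linarith
    linarith
  · have h1 : (l z.1 - l₀) / R ≤ 29 / 10 := by
      rw [div_le_iff₀ hR]
      linarith
    linarith
  · have h1 : 20 * (l z.1 + l z.2 - 2 * l₀) / R ≤ 91 := by
      rw [div_le_iff₀ hR]
      linarith
    linarith

theorem tfs_lt (h : tfs σ R l z < 1) :
    (σ / R) * (l z.1 + l z.2 + 4 / 5 * √(R ^ 2 + HY.sq (z.1 - z.2))) < -(6 / 1000) := by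
  unfold tfs at h
  rw [div_lt_iff₀ (by norm_num)] at h
  linarith

theorem tfs_pos (h : 0 < tfs σ R l z) :
    -(9 / 1000) < (σ / R) * (l z.1 + l z.2 + 4 / 5 * √(R ^ 2 + HY.sq (z.1 - z.2))) := by
  unfold tfs at h
  rw [lt_div_iff₀ (by norm_num)] at h
  linarith

end sides

/-! ### Alive facts -/

/-- The data of the global level in rate units. -/
structure LvG (σ R l₀ : ℝ) (gg : V n → ℝ) (l : V n → ℝ) : Prop where
  g : Glv σ gg
  eq : ∀ x, l x = l₀ + R * gg (R⁻¹ • x)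
  σ0 : 0 < σ
  σ1 : σ ≤ 1 / 5000
  R0 : 0 < R
  l0 : 0 ≤ l₀
  l1 : l₀ ≤ 1 / 100 * R

section alive

variable {κ₁ σ R l₀ : ℝ} {l gg : V n → ℝ} {z : VV n}

theorem LvG.gl (h : LvG σ R l₀ gg l) (x : V n) : gg (R⁻¹ • x) = (l x - l₀) / R := by
  have := h.R0
  rw [h.eq x]
  field_simp
  ring

/-- The distance in the unit chart. -/
theorem en_div (hR : 0 < R) (x y : V n) :
    √(HY.sq (R⁻¹ • x - R⁻¹ • y)) = √(HY.sq (x - y)) / R := by
  rw [← smul_sub, en_smul, abs_of_pos (inv_pos.2 hR)]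
  field_simp

/-- Levels at near pairs: the larger one is at most `12/5`. -/
theorem LvG.near_up (h : LvG σ R l₀ gg l) {x y : V n} (hq : √(HY.sq (x - y)) ≤ 1 / 50 * R)
    (hu : l x + l y < 2 * l₀ + 93 / 20 * R) : gg (R⁻¹ • x) ≤ 12 / 5 := by
  have hR := h.R0
  have h0 := h.σ0
  have h1 := h.σ1
  by_contra hc
  have hc' := not_le.1 hc
  have e1 := h.eq x
  have e2 := h.eq y
  have hs : gg (R⁻¹ • x) + gg (R⁻¹ • y) < 93 / 20 := by
    have : R * (gg (R⁻¹ • x) + gg (R⁻¹ • y)) < R * (93 / 20) := by linarith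
    exact lt_of_mul_lt_mul_left this hR.le
  have hy : gg (R⁻¹ • y) ≤ 9 / 4 := by linarith
  have ht := h.g.t_le h0 (by norm_num) hy
  have hd := abs_t_sub (n := n) h0 (R⁻¹ • x) (R⁻¹ • y)
  rw [en_div hR] at hd
  have hd2 : √(HY.sq (x - y)) / R ≤ 1 / 50 := by
    rw [div_le_iff₀ hR]; exact hq
  have hd3 := (abs_le.1 hd).2
  have ht2 : √(HY.sq (wv n σ (R⁻¹ • x))) ≤ 1 + σ * (227 / 100) := by
    have := mul_le_mul_of_nonneg_left hd2 h0.le
    linarith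
  by_cases hw : 1 ≤ HY.sq (wv n σ (R⁻¹ • x))
  · have h3 := h.g.le_of_t h0 (a := 227 / 100) (by nlinarith) ht2 hw
    linarith
  · have h4 : HY.sq (wv n σ (R⁻¹ • x)) ≤ 1 := (not_le.1 hw).le
    have h5 : √(HY.sq (wv n σ (R⁻¹ • x))) ≤ 101 / 100 := by
      rw [Real.sqrt_le_left (by norm_num)]
      linarith
    have h6 : √(HY.sq (wv n σ (R⁻¹ • y))) ≤ 101 / 100 := by
      have : σ * (9 / 4) ≤ 1 / 100 := by linarith
      linarith
    have h7 := (abs_le.1 (h.g.lip _ _ h5 h6)).2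
    rw [en_div hR] at h7
    have h8 : 101 / 100 * (√(HY.sq (x - y)) / R) ≤ 101 / 100 * (1 / 50) := by gcongr
    linarith

theorem sq_swap (x y : V n) : HY.sq (y - x) = HY.sq (x - y) := by
  unfold HY.sq
  refine Finset.sum_congr rfl fun i _ => ?_
  simp only [Pi.sub_apply]
  ring

/-- What is known where the near tree is alive (`tinf < 1`), a closed condition. -/
structure NearOk (κ₁ σ R l₀ : ℝ) (gg l : V n → ℝ) (z : VV n) : Prop where
  q : √(HY.sq (z.1 - z.2)) ≤ 3 / 4 * (κ₁ * R)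
  g1 : gg (R⁻¹ • z.1) ≤ 12 / 5
  g2 : gg (R⁻¹ • z.2) ≤ 12 / 5
  dg : |gg (R⁻¹ • z.1) - gg (R⁻¹ • z.2)| ≤ κ₁
  w1 : 2 / 25 ≤ √(HY.sq (wv n σ (R⁻¹ • z.1)))
  w2 : 2 / 25 ≤ √(HY.sq (wv n σ (R⁻¹ • z.2)))
  lo : -(8 / 5) * (R / σ) ≤ l z.1 + l z.2
  up : l z.1 + l z.2 ≤ 2 * l₀ + 93 / 20 * R

theorem LvG.l12 (h : LvG σ R l₀ gg l) (x : V n) {a : ℝ} :
    gg (R⁻¹ • x) ≤ a ↔ l x ≤ l₀ + a * R := by
  rw [h.gl, div_le_iff₀ h.R0]
  constructor <;> intro <;> linarith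

theorem near_alive (h : LvG σ R l₀ gg l) (hk : 0 < κ₁) (hk1 : κ₁ ≤ 1 / 50)
    (ht : tinf κ₁ σ R l₀ l z < 1) : NearOk κ₁ σ R l₀ gg l z := by
  have hR := h.R0
  have h0 := h.σ0
  have h1 := h.σ1
  obtain ⟨c1, c2, c3⟩ := tinf_lt hk h0 hR ht
  have hq : √(HY.sq (z.1 - z.2)) ≤ 3 / 4 * (κ₁ * R) := by
    rw [Real.sqrt_le_left (by positivity)]
    nlinarith [sq_nonneg (κ₁ * R)]
  have hq' : √(HY.sq (z.1 - z.2)) ≤ 1 / 50 * R := by nlinarith
  have hg1 := h.near_up hq' c3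
  have hg2 : gg (R⁻¹ • z.2) ≤ 12 / 5 := by
    refine h.near_up (x := z.2) (y := z.1) ?_ (by linarith)
    rw [sq_swap]; exact hq'
  have ht1 := h.g.t_le h0 (by norm_num) hg1
  have ht2 := h.g.t_le h0 (by norm_num) hg2
  have hd : |gg (R⁻¹ • z.1) - gg (R⁻¹ • z.2)| ≤ κ₁ := by
    refine (h.g.lip _ _ (by linarith) (by linarith)).trans ?_
    rw [en_div hR]
    have : √(HY.sq (z.1 - z.2)) / R ≤ 3 / 4 * κ₁ := by
      rw [div_le_iff₀ hR]; linarith
    linarith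
  obtain ⟨d1, d2⟩ := abs_le.1 hd
  have e1 := h.eq z.1
  have e2 := h.eq z.2
  have hs : -(8 / 5) * σ⁻¹ - 1 / 50 < gg (R⁻¹ • z.1) + gg (R⁻¹ • z.2) := by
    have h3 : R * (-(8 / 5) * σ⁻¹ - 1 / 50) < R * (gg (R⁻¹ • z.1) + gg (R⁻¹ • z.2)) := by
      have h4 : R * (-(8 / 5) * σ⁻¹) = -(8 / 5) * (R / σ) := by ring
      have := h.l1
      nlinarith
    exact lt_of_mul_lt_mul_left h3 hR.le
  have hi : 5000 ≤ σ⁻¹ := by
    rw [le_inv_comm₀ (by norm_num) h0]; linarith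
  refine ⟨hq, hg1, hg2, hd, ?_, ?_, c2.le, c3.le⟩
  · by_contra hc
    have := h.g.deep _ (not_le.1 hc).le
    linarith
  · by_contra hc
    have := h.g.deep _ (not_le.1 hc).le
    linarith

/-- What is known where the zone of far pairs is alive, a closed condition. -/
structure FarOk (κ₁ σ R l₀ : ℝ) (gg l : V n → ℝ) (z : VV n) : Prop where
  q : κ₁ * R / 2 ≤ √(HY.sq (z.1 - z.2))
  q' : √(HY.sq (z.1 - z.2)) ≤ (2 * σ⁻¹ + 6) * R
  g1 : gg (R⁻¹ • z.1) ≤ 59 / 20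
  g2 : gg (R⁻¹ • z.2) ≤ 59 / 20
  w1 : 2 / 25 ≤ √(HY.sq (wv n σ (R⁻¹ • z.1)))
  w2 : 2 / 25 ≤ √(HY.sq (wv n σ (R⁻¹ • z.2)))
  /-- `l(x) + l(y) + (4/5) √(R² + |q|²) ≥ -(9/1000) R / σ` -/
  f : -(9 / 1000) * (R / σ) ≤ l z.1 + l z.2 + 4 / 5 * √(R ^ 2 + HY.sq (z.1 - z.2))
  up : l z.1 + l z.2 ≤ 2 * l₀ + 23 / 5 * R

theorem mul_back {σ R a : ℝ} {c : ℝ} (h0 : 0 < σ) (hR : 0 < R) (h : c < (σ / R) * a) :
    c * (R / σ) < a := by
  have h2 : (σ / R) * (R / σ) = 1 := by field_simp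
  have h3 : 0 < R / σ := by positivity
  have h4 := mul_lt_mul_of_pos_right h h3
  calc c * (R / σ) < (σ / R) * a * (R / σ) := h4
    _ = ((σ / R) * (R / σ)) * a := by ring
    _ = a := by rw [h2, one_mul]

theorem mul_back' {σ R a : ℝ} {c : ℝ} (h0 : 0 < σ) (hR : 0 < R) (h : (σ / R) * a < c) :
    a < c * (R / σ) := by
  have h2 : (σ / R) * (R / σ) = 1 := by field_simp
  have h3 : 0 < R / σ := by positivity
  have h4 := mul_lt_mul_of_pos_right h h3
  calc a = ((σ / R) * (R / σ)) * a := by rw [h2, one_mul]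
    _ = (σ / R) * a * (R / σ) := by ring
    _ < _ := h4

/-- The distance of two points which are not high. -/
theorem LvG.q_le (h : LvG σ R l₀ gg l) {x y : V n} {a b : ℝ} 
    (hx : √(HY.sq (wv n σ (R⁻¹ • x))) ≤ a) (hy : √(HY.sq (wv n σ (R⁻¹ • y))) ≤ b) :
    √(HY.sq (x - y)) ≤ (a + b) * σ⁻¹ * R := by
  have hR := h.R0
  have h0 := h.σ0
  have h2 := en_sub_le (n := n) h0 (R⁻¹ • x) (R⁻¹ • y)
  rw [en_div hR] at h2
  have h3 : σ * (√(HY.sq (x - y)) / R) ≤ a + b := by linarith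
  have h4 : √(HY.sq (x - y)) = σ * (√(HY.sq (x - y)) / R) * (σ⁻¹ * R) := by
    field_simp
  rw [h4]
  have h5 : 0 ≤ σ⁻¹ * R := by positivity
  calc _ ≤ (a + b) * (σ⁻¹ * R) := mul_le_mul_of_nonneg_right h3 h5
    _ = _ := by ring

theorem rt_le (hR : 0 < R) (x : ℝ) (hx : 0 ≤ x) : √(R ^ 2 + x) ≤ R + √x := by
  rw [Real.sqrt_le_left (by positivity)]
  nlinarith [Real.sq_sqrt hx, Real.sqrt_nonneg x]

theorem le_rt (x : ℝ) : √x ≤ √(R ^ 2 + x) := Real.sqrt_le_sqrt (by nlinarith [sq_nonneg R])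

/-- A deep point and a point which is not high: `f` is very negative. -/
theorem LvG.deep_f (h : LvG σ R l₀ gg l) {x y : V n}
    (hx : √(HY.sq (wv n σ (R⁻¹ • x))) ≤ 2 / 25) (hy : gg (R⁻¹ • y) ≤ 59 / 20) :
    l x + l y + 4 / 5 * √(R ^ 2 + HY.sq (x - y)) ≤ -(9 / 1000) * (R / σ) := by
  have hR := h.R0
  have h0 := h.σ0
  have h1 := h.σ1
  have hi : 5000 ≤ σ⁻¹ := by
    rw [le_inv_comm₀ (by norm_num) h0]; linarith
  have hd := h.g.deep _ hx
  have hty := h.g.t_le h0 (by norm_num) hy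
  have hq := h.q_le hx hty
  have hr := rt_le hR (HY.sq (x - y)) (sq0 _)
  have e1 := h.eq x
  have e2 := h.eq y
  have h5 : (2 / 25 + (1 + σ * (59 / 20))) * σ⁻¹ * R = (27 / 25 * σ⁻¹ + 59 / 20) * R := by
    have : σ * σ⁻¹ = 1 := mul_inv_cancel₀ h0.ne'
    calc _ = (27 / 25 * σ⁻¹ + 59 / 20 * (σ * σ⁻¹)) * R := by ring
      _ = _ := by rw [this]; ring
  rw [h5] at hq
  have h6 : R * gg (R⁻¹ • x) ≤ R * (-(9 / 10) * σ⁻¹) := mul_le_mul_of_nonneg_left hd hR.le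
  have h7 : R * gg (R⁻¹ • y) ≤ R * (59 / 20) := mul_le_mul_of_nonneg_left hy hR.le
  have h8 := h.l1
  have h9 : -(9 / 1000) * (R / σ) = -(9 / 1000) * (R * σ⁻¹) := by ring
  have h10 : 5000 * R ≤ R * σ⁻¹ := by nlinarith
  rw [h9, e1, e2]
  nlinarith

theorem far_alive (h : LvG σ R l₀ gg l) (hk : 0 < κ₁) (hk1 : κ₁ ≤ 1 / 50)
    (ht : 0 < tinf κ₁ σ R l₀ l z) (hh : thi R l₀ l z < 1) (hf : 0 < tfs σ R l z) :
    FarOk κ₁ σ R l₀ gg l z := by
  have hR := h.R0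
  have h0 := h.σ0
  have h1 := h.σ1
  obtain ⟨c1, c2, c3⟩ := thi_lt hR hh
  have cf := mul_back h0 hR (tfs_pos hf)
  have hi : 5000 ≤ σ⁻¹ := by
    rw [le_inv_comm₀ (by norm_num) h0]; linarith
  have hg1 : gg (R⁻¹ • z.1) ≤ 59 / 20 := (h.l12 _).2 (by linarith)
  have hg2 : gg (R⁻¹ • z.2) ≤ 59 / 20 := (h.l12 _).2 (by linarith)
  have ht1 := h.g.t_le h0 (by norm_num) hg1
  have ht2 := h.g.t_le h0 (by norm_num) hg2
  have hs := Real.sq_sqrt (sq0 (z.1 - z.2))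
  have hn := Real.sqrt_nonneg (HY.sq (z.1 - z.2))
  refine ⟨?_, ?_, hg1, hg2, ?_, ?_, cf.le, c1.le⟩
  · have hp : 0 < κ₁ * R := by positivity
    rcases tinf_pos hk h0 hR ht with c | c | c
    · by_contra hc
      have hc' := not_le.1 hc
      nlinarith
    · have hr := rt_le hR (HY.sq (z.1 - z.2)) (sq0 _)
      have h9 : R / σ = R * σ⁻¹ := by ring
      have h10 : 5000 * R ≤ R * σ⁻¹ := by nlinarith
      rw [h9] at c cf
      nlinarith
    · linarith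
  · have hq := h.q_le ht1 ht2
    refine hq.trans ?_
    have : σ * σ⁻¹ = 1 := mul_inv_cancel₀ h0.ne'
    calc (1 + σ * (59 / 20) + (1 + σ * (59 / 20))) * σ⁻¹ * R
        = (2 * σ⁻¹ + 59 / 10 * (σ * σ⁻¹)) * R := by ring
      _ = (2 * σ⁻¹ + 59 / 10) * R := by rw [this]; ring
      _ ≤ _ := by gcongr; norm_num
  · by_contra hc
    have := h.deep_f (not_le.1 hc).le hg2
    linarith
  · by_contra hc
    have := h.deep_f (x := z.2) (y := z.1) (not_le.1 hc).le hg1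
    rw [sq_swap] at this
    linarith

/-- What is known where the deep zone is alive, a closed condition. -/
structure DeepOk (σ R : ℝ) (gg l : V n → ℝ) (z : VV n) : Prop where
  q : √(HY.sq (z.1 - z.2)) ≤ (2 * σ⁻¹ + 6) * R
  g1 : gg (R⁻¹ • z.1) ≤ 59 / 20
  g2 : gg (R⁻¹ • z.2) ≤ 59 / 20
  f : l z.1 + l z.2 + 4 / 5 * √(R ^ 2 + HY.sq (z.1 - z.2)) ≤ -(6 / 1000) * (R / σ)

theorem deep_alive (h : LvG σ R l₀ gg l) (hh : thi R l₀ l z < 1) (hf : tfs σ R l z < 1) :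
    DeepOk σ R gg l z := by
  have hR := h.R0
  have h0 := h.σ0
  have h1 := h.σ1
  obtain ⟨c1, c2, c3⟩ := thi_lt hR hh
  have cf := mul_back' h0 hR (tfs_lt hf)
  have hg1 : gg (R⁻¹ • z.1) ≤ 59 / 20 := (h.l12 _).2 (by linarith)
  have hg2 : gg (R⁻¹ • z.2) ≤ 59 / 20 := (h.l12 _).2 (by linarith)
  refine ⟨?_, hg1, hg2, cf.le⟩
  have hq := h.q_le (h.g.t_le h0 (by norm_num) hg1) (h.g.t_le h0 (by norm_num) hg2)
  refine hq.trans ?_
  have : σ * σ⁻¹ = 1 := mul_inv_cancel₀ h0.ne'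
  calc (1 + σ * (59 / 20) + (1 + σ * (59 / 20))) * σ⁻¹ * R
      = (2 * σ⁻¹ + 59 / 10 * (σ * σ⁻¹)) * R := by ring
    _ = (2 * σ⁻¹ + 59 / 10) * R := by rw [this]; ring
    _ ≤ _ := by gcongr; norm_num

/-- What is known where the high zone is alive. -/
theorem high_alive (hR : 0 < R) (hh : 0 < thi R l₀ l z) :
    2 * l₀ + 91 / 20 * R < l z.1 + l z.2 ∨ l₀ + 29 / 10 * R < l z.1 ∨
      l₀ + 29 / 10 * R < l z.2 := thi_pos hR hh

/-- Where the near tree and the high zone are alive, `u₀` is high and both levels are below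
`12/5`. -/
theorem near_high (h : LvG σ R l₀ gg l) (hk : 0 < κ₁) (hk1 : κ₁ ≤ 1 / 50)
    (ht : tinf κ₁ σ R l₀ l z < 1) (hh : 0 < thi R l₀ l z) :
    2 * l₀ + 91 / 20 * R < l z.1 + l z.2 := by
  have hn := near_alive h hk hk1 ht
  have hR := h.R0
  have a1 := (h.l12 z.1).1 hn.g1
  have a2 := (h.l12 z.2).1 hn.g2
  rcases thi_pos hR hh with c | c | c
  · exact c
  · linarith
  · linarith

/-- Where the near tree and the inf-side (not high) are alive, `|q|` is comparable with `κ₁ R` or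
the pair is deep. -/
theorem near_inf (h : LvG σ R l₀ gg l) (hk : 0 < κ₁)
    (ht : 0 < tinf κ₁ σ R l₀ l z) (hh : thi R l₀ l z < 1) :
    κ₁ * R / 2 ≤ √(HY.sq (z.1 - z.2)) ∨ l z.1 + l z.2 < -(3 / 2) * (R / σ) := by
  have hR := h.R0
  obtain ⟨c1, -, -⟩ := thi_lt hR hh
  rcases tinf_pos hk h.σ0 hR ht with c | c | c
  · left
    have hp : 0 < κ₁ * R := by positivity
    have hs := Real.sq_sqrt (sq0 (z.1 - z.2))
    have hn := Real.sqrt_nonneg (HY.sq (z.1 - z.2))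
    by_contra hc
    have hc' := not_le.1 hc
    nlinarith
  · exact Or.inr c
  · linarith

/-! ### Closed conditions -/

theorem LvG.cl (h : LvG σ R l₀ gg l) : Continuous l := by
  have e : l = fun x => l₀ + R * gg (R⁻¹ • x) := funext h.eq
  rw [e]
  exact continuous_const.add (continuous_const.mul (h.g.sm.continuous.comp
    (continuous_const_smul R⁻¹)))

theorem ct_en : Continuous fun z : VV n => √(HY.sq (z.1 - z.2)) := sm_q.continuous.sqrt

theorem ct_w (σ R : ℝ) : Continuous fun x : V n => √(HY.sq (wv n σ (R⁻¹ • x))) :=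
  ((contDiff_sqw σ).continuous.comp (continuous_const_smul R⁻¹)).sqrt

theorem closed_near (h : LvG σ R l₀ gg l) : IsClosed {z : VV n | NearOk κ₁ σ R l₀ gg l z} := by
  have hl := h.cl
  have hg : Continuous fun x : V n => gg (R⁻¹ • x) :=
    h.g.sm.continuous.comp (continuous_const_smul R⁻¹)
  have e : {z : VV n | NearOk κ₁ σ R l₀ gg l z} =
      {z | √(HY.sq (z.1 - z.2)) ≤ 3 / 4 * (κ₁ * R)} ∩ {z | gg (R⁻¹ • z.1) ≤ 12 / 5} ∩
      {z | gg (R⁻¹ • z.2) ≤ 12 / 5} ∩ {z | |gg (R⁻¹ • z.1) - gg (R⁻¹ • z.2)| ≤ κ₁} ∩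
      {z | 2 / 25 ≤ √(HY.sq (wv n σ (R⁻¹ • z.1)))} ∩
      {z | 2 / 25 ≤ √(HY.sq (wv n σ (R⁻¹ • z.2)))} ∩
      {z | -(8 / 5) * (R / σ) ≤ l z.1 + l z.2} ∩ {z | l z.1 + l z.2 ≤ 2 * l₀ + 93 / 20 * R} := by
    ext z
    constructor
    · rintro ⟨a1, a2, a3, a4, a5, a6, a7, a8⟩
      exact ⟨⟨⟨⟨⟨⟨⟨a1, a2⟩, a3⟩, a4⟩, a5⟩, a6⟩, a7⟩, a8⟩
    · rintro ⟨⟨⟨⟨⟨⟨⟨a1, a2⟩, a3⟩, a4⟩, a5⟩, a6⟩, a7⟩, a8⟩
      exact ⟨a1, a2, a3, a4, a5, a6, a7, a8⟩
  rw [e]
  have g1 : Continuous fun z : VV n => gg (R⁻¹ • z.1) := hg.comp continuous_fst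
  have g2 : Continuous fun z : VV n => gg (R⁻¹ • z.2) := hg.comp continuous_snd
  have l1 : Continuous fun z : VV n => l z.1 := hl.comp continuous_fst
  have l2 : Continuous fun z : VV n => l z.2 := hl.comp continuous_snd
  have w1 : Continuous fun z : VV n => √(HY.sq (wv n σ (R⁻¹ • z.1))) :=
    (ct_w σ R).comp continuous_fst
  have w2 : Continuous fun z : VV n => √(HY.sq (wv n σ (R⁻¹ • z.2))) :=
    (ct_w σ R).comp continuous_snd
  exact (((((((isClosed_le ct_en continuous_const).inter (isClosed_le g1 continuous_const)).inter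
    (isClosed_le g2 continuous_const)).inter (isClosed_le (g1.sub g2).abs continuous_const)).inter
    (isClosed_le continuous_const w1)).inter (isClosed_le continuous_const w2)).inter
    (isClosed_le continuous_const (l1.add l2))).inter (isClosed_le (l1.add l2) continuous_const)

theorem ct_rt : Continuous fun z : VV n => √(R ^ 2 + HY.sq (z.1 - z.2)) :=
  (continuous_const.add sm_q.continuous).sqrt

theorem closed_far (h : LvG σ R l₀ gg l) : IsClosed {z : VV n | FarOk κ₁ σ R l₀ gg l z} := by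
  have hl := h.cl
  have hg : Continuous fun x : V n => gg (R⁻¹ • x) :=
    h.g.sm.continuous.comp (continuous_const_smul R⁻¹)
  have e : {z : VV n | FarOk κ₁ σ R l₀ gg l z} =
      {z | κ₁ * R / 2 ≤ √(HY.sq (z.1 - z.2))} ∩ {z | √(HY.sq (z.1 - z.2)) ≤ (2 * σ⁻¹ + 6) * R} ∩
      {z | gg (R⁻¹ • z.1) ≤ 59 / 20} ∩ {z | gg (R⁻¹ • z.2) ≤ 59 / 20} ∩
      {z | 2 / 25 ≤ √(HY.sq (wv n σ (R⁻¹ • z.1)))} ∩
      {z | 2 / 25 ≤ √(HY.sq (wv n σ (R⁻¹ • z.2)))} ∩
      {z | -(9 / 1000) * (R / σ) ≤ l z.1 + l z.2 + 4 / 5 * √(R ^ 2 + HY.sq (z.1 - z.2))} ∩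
      {z | l z.1 + l z.2 ≤ 2 * l₀ + 23 / 5 * R} := by
    ext z
    constructor
    · rintro ⟨a1, a2, a3, a4, a5, a6, a7, a8⟩
      exact ⟨⟨⟨⟨⟨⟨⟨a1, a2⟩, a3⟩, a4⟩, a5⟩, a6⟩, a7⟩, a8⟩
    · rintro ⟨⟨⟨⟨⟨⟨⟨a1, a2⟩, a3⟩, a4⟩, a5⟩, a6⟩, a7⟩, a8⟩
      exact ⟨a1, a2, a3, a4, a5, a6, a7, a8⟩
  rw [e]
  have g1 : Continuous fun z : VV n => gg (R⁻¹ • z.1) := hg.comp continuous_fst
  have g2 : Continuous fun z : VV n => gg (R⁻¹ • z.2) := hg.comp continuous_snd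
  have l1 : Continuous fun z : VV n => l z.1 := hl.comp continuous_fst
  have l2 : Continuous fun z : VV n => l z.2 := hl.comp continuous_snd
  have w1 : Continuous fun z : VV n => √(HY.sq (wv n σ (R⁻¹ • z.1))) :=
    (ct_w σ R).comp continuous_fst
  have w2 : Continuous fun z : VV n => √(HY.sq (wv n σ (R⁻¹ • z.2))) :=
    (ct_w σ R).comp continuous_snd
  exact (((((((isClosed_le continuous_const ct_en).inter (isClosed_le ct_en
    continuous_const)).inter (isClosed_le g1 continuous_const)).inter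
    (isClosed_le g2 continuous_const)).inter
    (isClosed_le continuous_const w1)).inter (isClosed_le continuous_const w2)).inter
    (isClosed_le continuous_const ((l1.add l2).add (continuous_const.mul ct_rt)))).inter
    (isClosed_le (l1.add l2) continuous_const)

theorem closed_deep (h : LvG σ R l₀ gg l) : IsClosed {z : VV n | DeepOk σ R gg l z} := by
  have hl := h.cl
  have hg : Continuous fun x : V n => gg (R⁻¹ • x) :=
    h.g.sm.continuous.comp (continuous_const_smul R⁻¹)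
  have e : {z : VV n | DeepOk σ R gg l z} =
      {z | √(HY.sq (z.1 - z.2)) ≤ (2 * σ⁻¹ + 6) * R} ∩
      {z | gg (R⁻¹ • z.1) ≤ 59 / 20} ∩ {z | gg (R⁻¹ • z.2) ≤ 59 / 20} ∩
      {z | l z.1 + l z.2 + 4 / 5 * √(R ^ 2 + HY.sq (z.1 - z.2)) ≤ -(6 / 1000) * (R / σ)} := by
    ext z
    constructor
    · rintro ⟨a1, a2, a3, a4⟩
      exact ⟨⟨⟨a1, a2⟩, a3⟩, a4⟩
    · rintro ⟨⟨⟨a1, a2⟩, a3⟩, a4⟩
      exact ⟨a1, a2, a3, a4⟩
  rw [e]
  have g1 : Continuous fun z : VV n => gg (R⁻¹ • z.1) := hg.comp continuous_fst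
  have g2 : Continuous fun z : VV n => gg (R⁻¹ • z.2) := hg.comp continuous_snd
  have l1 : Continuous fun z : VV n => l z.1 := hl.comp continuous_fst
  have l2 : Continuous fun z : VV n => l z.2 := hl.comp continuous_snd
  exact (((isClosed_le ct_en continuous_const).inter (isClosed_le g1 continuous_const)).inter
    (isClosed_le g2 continuous_const)).inter
    (isClosed_le ((l1.add l2).add (continuous_const.mul ct_rt)) continuous_const)

end alive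

end Vale.Agent.P088.R2.H404.INF
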