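import Vale.Agent.P088.R2.H303.F.Spec
import Vale.Agent.P088.R2.H606.EP.Ten
import Vale.Agent.P088.R2.H464.EP.Lfun
import Vale.Agent.P088.R2.H475.INF.LevR

/-!
# P088, stage 3, zone INF: the convexity of the levels in the slots (row L of leaf iF)
-/

open Set Filter
open scoped ContDiff Topology Matrix

noncomputable section

namespace Vale.Agent.P088.R2.H404.INF

open Vale.Agent.P088.LR Vale.Agent.P088.HY Vale.Agent.P088.R2.H475 Vale.Agent.P088.R2.H31.EP
open Vale.Agent.P088.R2.H961.GW Vale.Agent.P088.R2.H644.Ch Vale.Agent.P088.R2.H747.SW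
open Vale.Agent.P088.R2.H464.Cu

variable {n : ℕ}

/-! ### Functions of one point -/

section one

variable {l : V n → ℝ} (hl : ContDiff ℝ ∞ l)
include hl

theorem df_one (x : V n) : DifferentiableAt ℝ l x := (hl.differentiable (by simp)) x

theorem sm_fdU (U : V n) : ContDiff ℝ ∞ fun x => fderiv ℝ l x U :=
  (hl.fderiv_right (m := ∞) le_rfl).clm_apply contDiff_const

theorem dx_one (z : VV n) (k : Fin n) : dx k (fun z : VV n => l z.1) z = pd k l z.1 := by
  show fderiv ℝ (fun z : VV n => l z.1) z (Pi.single k 1, 0) = _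
  rw [fd_fst (df_one hl z.1)]
  rfl

theorem dy_one (z : VV n) (k : Fin n) : dy k (fun z : VV n => l z.1) z = 0 := by
  show fderiv ℝ (fun z : VV n => l z.1) z (0, Pi.single k 1) = _
  rw [fd_fst (df_one hl z.1), map_zero]

theorem dx_two (z : VV n) (k : Fin n) : dx k (fun z : VV n => l z.2) z = 0 := by
  show fderiv ℝ (fun z : VV n => l z.2) z (Pi.single k 1, 0) = _
  rw [fd_snd (df_one hl z.2), map_zero]

theorem dy_two (z : VV n) (k : Fin n) : dy k (fun z : VV n => l z.2) z = pd k l z.2 := by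
  show fderiv ℝ (fun z : VV n => l z.2) z (0, Pi.single k 1) = _
  rw [fd_snd (df_one hl z.2)]
  rfl

theorem dd_one (z : VV n) (X Y : V n) :
    fderiv ℝ (fun z' => fderiv ℝ (fun z : VV n => l z.1) z' (X, Y)) z (X, Y) =
      fderiv ℝ (fun x => fderiv ℝ l x X) z.1 X := by
  have e1 : (fun z' => fderiv ℝ (fun z : VV n => l z.1) z' (X, Y)) =
      fun z' : VV n => fderiv ℝ l z'.1 X := funext fun w => fd_fst (df_one hl w.1) X Y
  rw [e1, fd_fst (df_one (sm_fdU hl X) z.1)]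

theorem dd_two (z : VV n) (X Y : V n) :
    fderiv ℝ (fun z' => fderiv ℝ (fun z : VV n => l z.2) z' (X, Y)) z (X, Y) =
      fderiv ℝ (fun x => fderiv ℝ l x Y) z.2 Y := by
  have e1 : (fun z' => fderiv ℝ (fun z : VV n => l z.2) z' (X, Y)) =
      fun z' : VV n => fderiv ℝ l z'.2 Y := funext fun w => fd_snd (df_one hl w.2) X Y
  rw [e1, fd_snd (df_one (sm_fdU hl Y) z.2)]

/-- The second derivative by coordinates. -/
theorem dd_sum (x U : V n) : fderiv ℝ (fun x => fderiv ℝ l x U) x U =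
    ∑ i, ∑ j, U i * U j * pd j (pd i l) x := by
  have e1 : (fun x => fderiv ℝ l x U) = fun x => ∑ i, U i * pd i l x :=
    funext fun y => fd_pd l y U
  have hp : ∀ i, ContDiff ℝ ∞ (pd i l) := fun i => sm_fdU hl _
  rw [fd_pd]
  have e2 : ∀ j, pd j (fun x => fderiv ℝ l x U) x = ∑ i, U i * pd j (pd i l) x := by
    intro j
    rw [e1]
    show fderiv ℝ (fun x => ∑ i, U i * pd i l x) x (Pi.single j 1) = _
    rw [fderiv_fun_sum fun i _ => (df_one (hp i) x).const_mul _]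
    simp only [_root_.sum_apply]
    refine Finset.sum_congr rfl fun i _ => ?_
    rw [fderiv_const_mul (df_one (hp i) x)]
    rfl
  simp only [e2, Finset.mul_sum]
  rw [Finset.sum_comm]
  refine Finset.sum_congr rfl fun i _ => Finset.sum_congr rfl fun j _ => by ring

end one

section th

variable {l : V n → ℝ} {s₁ s₂ : MF n} {ε ε' δ₁ δ₂ δ₁' δ₂' : ℝ}

theorem TH_one (hl : ContDiff ℝ ∞ l) (n₁ : Nr univ ε δ₁ δ₂ s₁) (n₂ : Nr univ ε' δ₁' δ₂' s₂)
    (z : VV n) (A B : V n) :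
    TH (H464.Cu.sx s₁) (H464.Cu.sy s₂) (fun z => l z.1) z A B =
      (∑ i, ∑ j, up (s₁ z.1) A i * up (s₁ z.1) A j * pd j (pd i l) z.1) +
        ∑ k, pd k l z.1 * nv s₁ z.1 A k := by
  have hW : Sm univ (fun z : VV n => l z.1) := (hl.comp contDiff_fst).contDiffOn
  rw [TH_eq isOpen_univ hW (mem_univ z) n₁.sy n₂.sy
    (fun i j => (contDiffOn_univ.1 (n₁.sm i j)).differentiable (by simp) _)
    (fun i j => (contDiffOn_univ.1 (n₂.sm i j)).differentiable (by simp) _),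
    dd_one hl, dd_sum hl]
  simp only [dx_one hl, dy_one hl, zero_mul, Finset.sum_const_zero, add_zero]

theorem TH_two (hl : ContDiff ℝ ∞ l) (n₁ : Nr univ ε δ₁ δ₂ s₁) (n₂ : Nr univ ε' δ₁' δ₂' s₂)
    (z : VV n) (A B : V n) :
    TH (H464.Cu.sx s₁) (H464.Cu.sy s₂) (fun z => l z.2) z A B =
      (∑ i, ∑ j, up (s₂ z.2) B i * up (s₂ z.2) B j * pd j (pd i l) z.2) +
        ∑ k, pd k l z.2 * nv s₂ z.2 B k := by
  have hW : Sm univ (fun z : VV n => l z.2) := (hl.comp contDiff_snd).contDiffOn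
  rw [TH_eq isOpen_univ hW (mem_univ z) n₁.sy n₂.sy
    (fun i j => (contDiffOn_univ.1 (n₁.sm i j)).differentiable (by simp) _)
    (fun i j => (contDiffOn_univ.1 (n₂.sm i j)).differentiable (by simp) _),
    dd_two hl, dd_sum hl]
  simp only [dx_two hl, dy_two hl, zero_mul, Finset.sum_const_zero, add_zero]

end th

/-! ### The quadratic forms -/

theorem nrm_sq (A : V n) : ‖A‖ ^ 2 ≤ HY.sq A := by
  by_cases hn : n = 0
  · subst hn
    have : A = 0 := Subsingleton.elim _ _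
    subst this
    simp [HY.sq]
  · have h : ‖A‖ ≤ √(HY.sq A) := by
      rw [pi_norm_le_iff_of_nonneg (Real.sqrt_nonneg _)]
      intro i
      rw [Real.norm_eq_abs]
      refine Real.abs_le_sqrt ?_
      exact Finset.single_le_sum (f := fun i => A i ^ 2) (fun i _ => sq_nonneg _)
        (Finset.mem_univ i)
    calc ‖A‖ ^ 2 ≤ √(HY.sq A) ^ 2 := by gcongr
      _ = HY.sq A := Real.sq_sqrt (sq0 A)

theorem q_dev {S : Matrix (Fin n) (Fin n) ℝ} {ε : ℝ}
    (h : ∀ i j, |S i j - (1 : Matrix (Fin n) (Fin n) ℝ) i j| ≤ ε) (A : V n) :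
    |(∑ i, ∑ j, S i j * A i * A j) - HY.sq A| ≤ n ^ 2 * (ε * HY.sq A) := by
  have e : (∑ i, ∑ j, S i j * A i * A j) - HY.sq A =
      ∑ i, ∑ j, (S i j - (1 : Matrix (Fin n) (Fin n) ℝ) i j) * A i * A j := by
    have e1 : HY.sq A = ∑ i, ∑ j, (1 : Matrix (Fin n) (Fin n) ℝ) i j * A i * A j := by
      unfold HY.sq
      refine Finset.sum_congr rfl fun i _ => ?_
      simp [Matrix.one_apply, pow_two]
    rw [e1, ← Finset.sum_sub_distrib]
    refine Finset.sum_congr rfl fun i _ => ?_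
    rw [← Finset.sum_sub_distrib]
    exact Finset.sum_congr rfl fun j _ => by ring
  rw [e]
  refine sum_le2 fun i j => ?_
  rw [abs_mul, abs_mul]
  have h1 : |A i| * |A j| ≤ HY.sq A := by
    have a1 := cmp_le A i
    have a2 := cmp_le A j
    have a3 := nrm_sq A
    nlinarith [abs_nonneg (A i), abs_nonneg (A j), norm_nonneg A,
      mul_le_mul a1 a2 (abs_nonneg _) (norm_nonneg _)]
  have h2 := h i j
  have h3 := sq0 A
  rw [mul_assoc]
  exact mul_le_mul h2 h1 (by positivity) ((abs_nonneg _).trans h2)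

theorem up_lo {S : Matrix (Fin n) (Fin n) ℝ} {ε : ℝ}
    (h : ∀ i j, |S i j - (1 : Matrix (Fin n) (Fin n) ℝ) i j| ≤ ε) (A : V n) :
    (1 - 2 * n ^ 2 * ε) * HY.sq A ≤ HY.sq (up S A) := by
  have e : ∀ j, up S A j = A j + up (S - 1) A j := by
    intro j
    simp only [up, Matrix.sub_apply, sub_mul, Finset.sum_sub_distrib]
    have : ∑ i, (1 : Matrix (Fin n) (Fin n) ℝ) i j * A i = A j := by
      simp [Matrix.one_apply]
    rw [this]; ring
  have e2 : HY.sq (up S A) = HY.sq A + 2 * (∑ j, A j * up (S - 1) A j) + HY.sq (up (S - 1) A) := by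
    unfold HY.sq
    rw [Finset.mul_sum, ← Finset.sum_add_distrib, ← Finset.sum_add_distrib]
    refine Finset.sum_congr rfl fun j _ => ?_
    rw [e j]; ring
  have e3 : |∑ j, A j * up (S - 1) A j| ≤ n ^ 2 * (ε * HY.sq A) := by
    have e4 : ∑ j, A j * up (S - 1) A j = ∑ i, ∑ j, (S i j -
        (1 : Matrix (Fin n) (Fin n) ℝ) i j) * A i * A j := by
      simp only [up, Finset.mul_sum, Matrix.sub_apply]
      rw [Finset.sum_comm]
      exact Finset.sum_congr rfl fun i _ => Finset.sum_congr rfl fun j _ => by ring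
    rw [e4]
    refine sum_le2 fun i j => ?_
    rw [abs_mul, abs_mul]
    have h1 : |A i| * |A j| ≤ HY.sq A := by
      have a1 := cmp_le A i
      have a2 := cmp_le A j
      have a3 := nrm_sq A
      nlinarith [abs_nonneg (A i), abs_nonneg (A j), norm_nonneg A,
        mul_le_mul a1 a2 (abs_nonneg _) (norm_nonneg _)]
    have h2 := h i j
    have h3 := sq0 A
    rw [mul_assoc]
    exact mul_le_mul h2 h1 (by positivity) ((abs_nonneg _).trans h2)
  have h5 := sq0 (up (S - 1) A)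
  have h6 := (abs_le.1 e3).1
  rw [e2]
  linarith

/-- The constant. -/
def cL (n : ℕ) : ℝ := 100 * (n + 1) ^ 4

/-- **Lower bound for one slot**, with the metric near `1`. -/
theorem low_one {σ R kap Gs ε δ₁ δ₂ : ℝ} {s : MF n} (h0 : 0 < σ) (h1 : σ ≤ 1 / 5000) (hR : 0 < R)
    (ns : Nr univ ε δ₁ δ₂ s) (hε0 : 0 ≤ ε) (hδ : δ₁ ≤ ε / R) (hc : cL n * ε ≤ σ / 100)
    {x : V n} (hx : levG n σ R kap Gs x ≤ lam0 R kap Gs + 5 * R) (A : V n) :
    1 / 50 * (σ / R) * (∑ i, ∑ j, s x i j * A i * A j) ≤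
      (∑ i, ∑ j, up (s x) A i * up (s x) A j * pd j (pd i (levG n σ R kap Gs)) x) +
        ∑ k, pd k (levG n σ R kap Gs) x * nv s x A k := by
  have hn : (0 : ℝ) ≤ n := Nat.cast_nonneg n
  have hA := sq0 A
  have hσR : 0 < σ / R := by positivity
  have c1 : (1 : ℝ) ≤ ((n : ℝ) + 1) ^ 4 := one_le_pow₀ (by linarith)
  have c2 : (n : ℝ) ^ 2 ≤ ((n : ℝ) + 1) ^ 4 :=
    (pow_le_pow_left₀ hn (by linarith) 2).trans (pow_le_pow_right₀ (by linarith) (by norm_num))
  have c4 : (n : ℝ) ^ 4 ≤ ((n : ℝ) + 1) ^ 4 := pow_le_pow_left₀ hn (by linarith) 4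
  have k0 : ((n : ℝ) + 1) ^ 4 * ε ≤ σ / 10000 := by
    have : cL n * ε = 100 * (((n : ℝ) + 1) ^ 4 * ε) := by unfold cL; ring
    linarith
  have k1 : ε ≤ 1 := by
    have := mul_le_mul_of_nonneg_right c1 hε0
    linarith
  have k2 : (n : ℝ) ^ 2 * ε ≤ 1 / 1000 := by
    have := mul_le_mul_of_nonneg_right c2 hε0
    linarith
  have k4 : (n : ℝ) ^ 4 * ε ≤ σ / 10000 := by
    have := mul_le_mul_of_nonneg_right c4 hε0
    linarith
  -- the form
  have b1 := (abs_le.1 (q_dev (fun i j => ns.b0 x (mem_univ x) i j) A)).2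
  have b1' : ∑ i, ∑ j, s x i j * A i * A j ≤ 1001 / 1000 * HY.sq A := by
    have := mul_le_mul_of_nonneg_right k2 hA
    linarith
  -- the Hessian
  have b2 := (hess_levG (kap := kap) (Gs := Gs) h0 h1 hR x (up (s x) A)).1
  have b3 := up_lo (fun i j => ns.b0 x (mem_univ x) i j) A
  have b3' : 998 / 1000 * HY.sq A ≤ HY.sq (up (s x) A) := by
    have := mul_le_mul_of_nonneg_right k2 hA
    linarith
  -- the Christoffel part
  have g1 : ∀ k, |pd k (levG n σ R kap Gs) x| ≤ 2 := by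
    intro k
    have h2 := grad_levG_le' (n := n) (kap := kap) (Gs := Gs) h0 h1 hR hx
    have h3 : pd k (levG n σ R kap Gs) x ^ 2 ≤ ∑ i, pd i (levG n σ R kap Gs) x ^ 2 :=
      Finset.single_le_sum (f := fun i => pd i (levG n σ R kap Gs) x ^ 2)
        (fun i _ => sq_nonneg _) (Finset.mem_univ k)
    refine abs_le_of_sq_le_sq ?_ (by norm_num)
    linarith
  have b4 : |∑ k, pd k (levG n σ R kap Gs) x * nv s x A k| ≤ n * (2 * (n ^ 3 * (3 * (ε / R) *
      ‖A‖ ^ 2))) := by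
    refine sum_le1 fun k => ?_
    rw [abs_mul]
    have h5 := nv_le ns k1 (mem_univ x) A k
    have h6 : (n : ℝ) ^ 3 * (3 * δ₁ * ‖A‖ ^ 2) ≤ n ^ 3 * (3 * (ε / R) * ‖A‖ ^ 2) := by gcongr
    exact mul_le_mul (g1 k) (h5.trans h6) (abs_nonneg _) (by norm_num)
  have b4' : |∑ k, pd k (levG n σ R kap Gs) x * nv s x A k| ≤ 1 / 1000 * (σ / R) * HY.sq A := by
    refine b4.trans ?_
    have h7 := nrm_sq A
    calc (n : ℝ) * (2 * (n ^ 3 * (3 * (ε / R) * ‖A‖ ^ 2))) = 6 * (n ^ 4 * ε) * (‖A‖ ^ 2 / R) := by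
          ring
      _ ≤ 6 * (σ / 10000) * (HY.sq A / R) := by gcongr
      _ ≤ 1 / 1000 * (σ / R) * HY.sq A := by
          have : 0 ≤ σ / R * HY.sq A := by positivity
          have e : 6 * (σ / 10000) * (HY.sq A / R) = 6 / 10000 * (σ / R * HY.sq A) := by ring
          rw [e]
          linarith
  have b5 := (abs_le.1 b4').1
  have f1 : 1 / 50 * (σ / R) * (∑ i, ∑ j, s x i j * A i * A j) ≤
      1 / 50 * (σ / R) * (1001 / 1000 * HY.sq A) := mul_le_mul_of_nonneg_left b1' (by positivity)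
  have f2 : 3 / 100 * (σ / R) * (998 / 1000 * HY.sq A) ≤ 3 / 100 * (σ / R) * HY.sq (up (s x) A) :=
    mul_le_mul_of_nonneg_left b3' (by positivity)
  have f3 : 0 ≤ σ / R * HY.sq A := by positivity
  linarith

/-- The condition on `ε`. -/
structure EpsC (n : ℕ) (q : Cst) : Prop where
  ε0 : 0 < q.ε
  ε1 : cL n * q.ε ≤ q.σ / 100

theorem evEps (n : ℕ) : EvC (EpsC n) := by
  have h1 : EvC fun q => 0 < q.σ → cL n * q.ε ≤ q.σ / 100 := by
    refine EvC.at_ε (fun q t => 0 < q.σ → cL n * t ≤ q.σ / 100) fun q => ?_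
    by_cases h : 0 < q.σ
    · have hc : 0 < cL n := by unfold cL; positivity
      filter_upwards [sml_le (a := q.σ / 100 / cL n) (by positivity)] with t ht _
      rw [le_div_iff₀ hc] at ht
      linarith
    · exact Eventually.of_forall fun t h' => absurd h' h
  have h2 : EvC fun q => 0 < q.ε := EvC.at_ε (fun _ t => 0 < t) fun _ => sml_pos
  exact ((evInf.and h1).and h2).mono fun q h => ⟨h.2, h.1.2 h.1.1.σ0⟩

variable {q : Cst} {d : Pk n}

theorem nr1 (h : PkOk q d) : Nr univ q.ε (q.ε * q.R⁻¹) (q.ε * q.R⁻¹ ^ 2) d.s₁ :=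
  H606.EP.nr_of h.rg.sm₁ h.rg.sy₁ fun i j m hm x => h.rg.cl₁ i j m (hm.trans (by norm_num)) x

theorem nr2 (h : PkOk q d) : Nr univ q.ε (q.ε * q.R⁻¹) (q.ε * q.R⁻¹ ^ 2) d.s₂ :=
  H606.EP.nr_of h.rg.sm₂ h.rg.sy₂ fun i j m hm x => h.rg.cl₂ i j m (hm.trans (by norm_num)) x

/-- **The convexity of `l(x)` in the slots**, levels below `l₀ + 5 R`. -/
theorem lev_lo (hq : InfC q) (he : EpsC n q) (h : PkOk q d) {z : VV n} (A B : Fin n → ℝ) :
    (d.l z.1 ≤ d.l₀ q + 5 * q.R →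
      1 / 50 * (q.σ / q.R) * ss d.sx A z ≤ TH d.sx d.sy (fun z : VV n => d.l z.1) z A B) ∧
    (d.l z.2 ≤ d.l₀ q + 5 * q.R →
      1 / 50 * (q.σ / q.R) * ss d.sy B z ≤ TH d.sx d.sy (fun z : VV n => d.l z.2) z A B) := by
  have hs := h.lev.sm
  have hl := h.lev.lit
  have e0 : d.l₀ q = lam0 q.R d.kap d.Gs := rfl
  have hd : q.ε * q.R⁻¹ ≤ q.ε / q.R := le_of_eq (div_eq_mul_inv _ _).symm
  constructor
  · intro hx
    rw [e0, hl] at hx
    have := low_one hq.σ0 hq.σ1 hq.R0 (nr1 h) he.ε0.le hd he.ε1 hx A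
    rw [← hl] at this
    refine le_trans this (le_of_eq ?_)
    exact (TH_one hs (nr1 h) (nr2 h) z A B).symm
  · intro hx
    rw [e0, hl] at hx
    have := low_one hq.σ0 hq.σ1 hq.R0 (nr2 h) he.ε0.le hd he.ε1 hx B
    rw [← hl] at this
    refine le_trans this (le_of_eq ?_)
    exact (TH_two hs (nr1 h) (nr2 h) z A B).symm

/-- **Row L.** -/
theorem rowL (n : ℕ) : H303.F.RowL n := by
  refine (evInf.and (evEps n)).mono fun q hq d h z hz A B => ?_
  have hR := hq.1.R0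
  obtain ⟨a1, a2, a3⟩ := hz
  have a1' : d.l z.1 < d.l₀ q + 3 * q.R := a1
  have a2' : d.l z.2 < d.l₀ q + 3 * q.R := a2
  exact ⟨(lev_lo hq.1 hq.2 h A B).1 (by linarith), (lev_lo hq.1 hq.2 h A B).2 (by linarith)⟩

end Vale.Agent.P088.R2.H404.INF
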