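import Vale.Agent.P088.R2.H404.INF.LtH
import Vale.Agent.P088.R2.H338.C.Lad

/-!
# P088, stage 3, zone INF: the leaf iH from its three pieces
-/

open Set Filter MeasureTheory
open scoped ContDiff Topology Matrix

noncomputable section

namespace Vale.Agent.P088.R2.H404.INF

open Vale.Agent.P088.LR Vale.Agent.P088.HY Vale.Agent.P088.R2.H31.EP Vale.Agent.P088.R2.H961.GW
open Vale.Agent.P088.R2.H168.INF Vale.Agent.P088.R2.H960.W Vale.Agent.P088.R2.H551.E

variable {n : ℕ} {q : Cst} {d : Pk n} {z : VV n}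

/-- The error of the splitting, first slot. -/
def exX (q : Cst) (d : Pk n) (z : VV n) : ℝ :=
  kT q d z.1 ^ 2 * (4 * lmH q d z * d.sx.Γ (fun z => d.l z.1) (fun z => d.l z.1) z +
    32 * HH d.sx (d.W q) z (fun i => d.sx.D i (fun z => d.l z.1) z)) +
  16 * (kT q d z.1 * |d.sx.Γ (fun z => d.l z.1) (d.sx.Λ (d.W q)) z|)

/-- The error of the splitting, second slot. -/
def exY (q : Cst) (d : Pk n) (z : VV n) : ℝ :=
  kT q d z.2 ^ 2 * (4 * muH q d z * d.sy.Γ (fun z => d.l z.2) (fun z => d.l z.2) z +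
    32 * HH d.sy (d.W q) z (fun i => d.sy.D i (fun z => d.l z.2) z)) +
  16 * (kT q d z.2 * |d.sy.Γ (fun z => d.l z.2) (d.sy.Λ (d.W q)) z|)

/-- The pointwise conditions at a point of the support. -/
structure GH (q : Cst) (d : Pk n) (e₁ r₁ e₂ r₂ e₃ r₃ : VV n → ℝ) (z : VV n) : Prop where
  l0 : 0 ≤ lmH q d z
  m0 : 0 ≤ muH q d z
  s0 : ∀ A : Fin n → ℝ, 0 ≤ ss d.sx A z
  t0 : ∀ A : Fin n → ℝ, 0 ≤ ss d.sy A z
  hx : ∀ A : Fin n → ℝ, 0 ≤ HH d.sx (d.W q) z A
  hy : ∀ A : Fin n → ℝ, 0 ≤ HH d.sy (d.W q) z A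
  x1 : k1 q d z ≠ 0 → (MiH q d).w₁ z + exX q d z ≤ lmH q d z * d.sx.F (d.W q) z +
    2 * (lmH q d z * d.sx.Λ (d.W q) z + d.sx.Γ (lmH q d) (d.W q) z) - e₁ z
  y1 : k1 q d z ≠ 0 → (MiH q d).w₂ z + exY q d z ≤ muH q d z * d.sy.F (d.W q) z +
    2 * (muH q d z * d.sy.Λ (d.W q) z + d.sy.Γ (muH q d) (d.W q) z) - r₁ z
  x2 : k2 q d z ≠ 0 → (MiH q d).w₁ z + exX q d z ≤ lmH q d z * d.sx.F (d.W q) z / 2 +
    2 / 3 * (lmH q d z * d.sx.Λ (d.W q) z + d.sx.Γ (lmH q d) (d.W q) z) - 3 * e₂ z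
  y2 : k2 q d z ≠ 0 → (MiH q d).w₂ z + exY q d z ≤ muH q d z * d.sy.F (d.W q) z / 2 +
    2 / 3 * (muH q d z * d.sy.Λ (d.W q) z + d.sy.Γ (muH q d) (d.W q) z) - 3 * r₂ z
  x3 : k3 q d z ≠ 0 → (MiH q d).w₁ z + exX q d z ≤ lmH q d z * d.sx.F (d.W q) z / 2 +
    2 / 3 * (lmH q d z * d.sx.Λ (d.W q) z + d.sx.Γ (lmH q d) (d.W q) z) - 3 * e₃ z
  y3 : k3 q d z ≠ 0 → (MiH q d).w₂ z + exY q d z ≤ muH q d z * d.sy.F (d.W q) z / 2 +
    2 / 3 * (muH q d z * d.sy.Λ (d.W q) z + d.sy.Γ (muH q d) (d.W q) z) - 3 * r₃ z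

theorem G_qM (o : Sl (VV n) (Fin n)) (f : VV n → ℝ) (z : VV n) :
    o.Γ f f z = qM (fun i j => o.s i j z) (fun i => o.D i f z) := rfl

theorem HH_qM (o : Sl (VV n) (Fin n)) (W : VV n → ℝ) (z : VV n) (A : Fin n → ℝ) :
    HH o W z A = qM (fun i j => o.Hc W i j z) A := rfl

theorem G_lM (o : Sl (VV n) (Fin n)) (f g : VV n → ℝ) (z : VV n) :
    o.Γ f g z = lM (fun i => ∑ j, o.s i j z * o.D j g z) (fun i => o.D i f z) := by
  unfold Sl.Γ lM
  refine Finset.sum_congr rfl fun i _ => ?_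
  rw [Finset.sum_mul]
  exact Finset.sum_congr rfl fun j _ => by ring

/-- **The sum of the costs, first slot.** -/
theorem costX (h : PkOk q d) {χ : VV n → ℝ} (hχ : ContDiff ℝ ∞ χ) (hR : 0 < q.R) (z : VV n) :
    cH d.sx (d.W q) (fun z => χ z * k1 q d z) (lmH q d) z +
      cH d.sx (d.W q) (fun z => χ z * k2 q d z) (lmH q d) z +
      cH d.sx (d.W q) (fun z => χ z * k3 q d z) (lmH q d) z ≤
    cH d.sx (d.W q) χ (lmH q d) z + χ z ^ 2 * exX q d z := by
  have a1 := x_qM h hχ z (fun i j => d.sx.s i j z)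
  have a2 := x_qM h hχ z (fun i j => d.sx.Hc (d.W q) i j z)
  have a3 := x_lM h hχ hR z (fun i => ∑ j, d.sx.s i j z * d.sx.D j (d.sx.Λ (d.W q)) z)
  unfold cH exX
  simp only [G_qM, HH_qM, G_lM]
  have e1 := congrArg (fun t => 4 * lmH q d z * t) a1
  have e2 := congrArg (fun t => 32 * t) a2
  beta_reduce at e1 e2
  linarith

/-- **The sum of the costs, second slot.** -/
theorem costY (h : PkOk q d) {χ : VV n → ℝ} (hχ : ContDiff ℝ ∞ χ) (hR : 0 < q.R) (z : VV n)
    (m0 : 0 ≤ χ z ^ 2 * muH q d z *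
      d.sy.Γ (fun z => d.l z.2) (fun z => d.l z.2) z)
    (h0 : 0 ≤ χ z ^ 2 * HH d.sy (d.W q) z (fun i => d.sy.D i (fun z => d.l z.2) z)) :
    cH d.sy (d.W q) (fun z => χ z * k1 q d z) (muH q d) z +
      cH d.sy (d.W q) (fun z => χ z * k2 q d z) (muH q d) z +
      cH d.sy (d.W q) (fun z => χ z * k3 q d z) (muH q d) z ≤
    cH d.sy (d.W q) χ (muH q d) z + χ z ^ 2 * exY q d z := by
  have a1 := y_qM h hχ z (fun i j => d.sy.s i j z)
  have a2 := y_qM h hχ z (fun i j => d.sy.Hc (d.W q) i j z)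
  have a3 := y_lM h hχ hR z (fun i => ∑ j, d.sy.s i j z * d.sy.D j (d.sy.Λ (d.W q)) z)
  have c1 := zc_mem ((d.l z.1 - d.l₀ q) / q.R)
  have c2 : cl zc q d Prod.fst z ^ 2 ≤ 1 := pow_le_one₀ c1.1 c1.2
  have c3 : (χ z * cl zc q d Prod.fst z * kT q d z.2) ^ 2 =
      cl zc q d Prod.fst z ^ 2 * (χ z * kT q d z.2) ^ 2 := by ring
  unfold cH exY
  simp only [G_qM, HH_qM, G_lM] at m0 h0 ⊢
  rw [c3] at a1 a2
  have e1 := congrArg (fun t => 4 * muH q d z * t) a1
  have e2 := congrArg (fun t => 32 * t) a2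
  beta_reduce at e1 e2
  set G := qM (fun i j => d.sy.s i j z) (fun i => d.sy.D i (fun z => d.l z.2) z)
  set H := qM (fun i j => d.sy.Hc (d.W q) i j z) (fun i => d.sy.D i (fun z => d.l z.2) z)
  have k0 : 0 ≤ kT q d z.2 ^ 2 := sq_nonneg _
  have f1 : cl zc q d Prod.fst z ^ 2 * (kT q d z.2 ^ 2 * (χ z ^ 2 * muH q d z * G)) ≤
      kT q d z.2 ^ 2 * (χ z ^ 2 * muH q d z * G) :=
    mul_le_of_le_one_left (mul_nonneg k0 m0) c2
  have f2 : cl zc q d Prod.fst z ^ 2 * (kT q d z.2 ^ 2 * (χ z ^ 2 * H)) ≤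
      kT q d z.2 ^ 2 * (χ z ^ 2 * H) := mul_le_of_le_one_left (mul_nonneg k0 h0) c2
  linarith

theorem cH_off (o : Sl (VV n) (Fin n)) {S : Set (VV n)} {W χ lam : VV n → ℝ} (hS : IsClosed S)
    (h0 : ∀ z, z ∉ S → χ z = 0) (hz : z ∉ S) : cH o W χ lam z = 0 := by
  have h1 : ∀ i, o.D i χ z = 0 := D_off o hS h0 hz
  unfold cH HH
  rw [G_off o hS h0 hz, G_off o hS h0 hz]
  simp [h1]

section zone

variable {S : Set (VV n)} {χ e₁ r₁ e₂ r₂ e₃ r₃ : VV n → ℝ}

theorem cT_w (o o' : Sl (VV n) (Fin n)) (χ lam mu : VV n → ℝ) (z : VV n) :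
    (cT o o' χ lam mu).w₁ z = 4 * lam z * o.Γ χ χ z ∧
    (cT o o' χ lam mu).w₂ z = 4 * mu z * o'.Γ χ χ z := ⟨rfl, rfl⟩

/-- **The leaf iH from its three pieces.** -/
theorem glue_iH (h : PkOk q d) (hR : 0 < q.R) (okx : d.sx.Ok univ (fun _ => 1))
    (oky : d.sy.Ok univ (fun _ => 1)) (hW : ContDiff ℝ ∞ (d.W q)) (hχ : ContDiff ℝ ∞ χ)
    (hS : IsClosed S) (h0 : ∀ z, z ∉ S → χ z = 0) (nl : ContDiff ℝ ∞ (nPx q d))
    (nm : ContDiff ℝ ∞ (nPy q d)) (ce₁ : Continuous e₁) (cr₁ : Continuous r₁)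
    (ce₂ : Continuous e₂) (cr₂ : Continuous r₂) (ce₃ : Continuous e₃) (cr₃ : Continuous r₃)
    (Z1 : Zone d.sx d.sy univ (fun _ => 1) (fun _ => 0) (fun _ => 0) (d.W q)
      (fun z => χ z * k1 q d z)
      (mT d.sx d.sy (d.W q) (fun z => χ z * k1 q d z) (lmH q d) (muH q d) e₁ r₁)
      (cT d.sx d.sy (fun z => χ z * k1 q d z) (lmH q d) (muH q d)))
    (Z2 : Zone d.sx d.sy univ (fun _ => 1) (fun _ => 0) (fun _ => 0) (d.W q)
      (fun z => χ z * k2 q d z)
      (mS d.sx d.sy (d.W q) (fun z => χ z * k2 q d z) (lmH q d) (muH q d) e₂ r₂)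
      (cS d.sx d.sy (d.W q) (fun z => χ z * k2 q d z) (lmH q d) (muH q d)))
    (Z3 : Zone d.sx d.sy univ (fun _ => 1) (fun _ => 0) (fun _ => 0) (d.W q)
      (fun z => χ z * k3 q d z)
      (mS d.sx d.sy (d.W q) (fun z => χ z * k3 q d z) (lmH q d) (muH q d) e₃ r₃)
      (cS d.sx d.sy (d.W q) (fun z => χ z * k3 q d z) (lmH q d) (muH q d)))
    (pt : ∀ z ∈ S, GH q d e₁ r₁ e₂ r₂ e₃ r₃ z) :
    Zone d.sx d.sy univ (fun _ => 1) (fun _ => 0) (fun _ => 0) (d.W q) χ
      ((MiH q d).sm fun z => χ z ^ 2) (CiH χ q d) := by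
  have W' : Sm univ (d.W q) := hW.contDiffOn
  have χ' : Sm univ χ := hχ.contDiffOn
  have s1 : ContDiff ℝ ∞ fun z => χ z * k1 q d z := hχ.mul (k1_sm h)
  have s2 : ContDiff ℝ ∞ fun z => χ z * k2 q d z := hχ.mul (k2_sm h)
  have s3 : ContDiff ℝ ∞ fun z => χ z * k3 q d z := hχ.mul (k3_sm h)
  have Fx := okx.sF W'
  have Fy := oky.sF W'
  have Lx := okx.sL W'
  have Ly := oky.sL W'
  have ll : Sm univ (lmH q d) := (contDiff_const.mul nl).contDiffOn
  have mm : Sm univ (muH q d) := (contDiff_const.mul nm).contDiffOn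
  have q2 : ContinuousOn (fun z => χ z ^ 2) univ := (χ'.pow 2).continuousOn
  -- continuity of the letters
  have cMT : ∀ {ψ e r : VV n → ℝ}, ContDiff ℝ ∞ ψ → Continuous e → Continuous r →
      (mT d.sx d.sy (d.W q) ψ (lmH q d) (muH q d) e r).Ct univ := by
    intro ψ e r hψ he hr
    have p2 : ContinuousOn (fun z => ψ z ^ 2) univ := (hψ.continuous.pow 2).continuousOn
    exact ⟨p2, p2.mul ll.continuousOn, p2.mul mm.continuousOn, continuousOn_const,
      p2.mul (((ll.mul Fx).continuousOn.add (continuousOn_const.mul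
        ((ll.mul Lx).add (okx.sG ll W')).continuousOn)).sub he.continuousOn),
      p2.mul (((mm.mul Fy).continuousOn.add (continuousOn_const.mul
        ((mm.mul Ly).add (oky.sG mm W')).continuousOn)).sub hr.continuousOn),
      continuousOn_const, continuousOn_const⟩
  have cMS : ∀ {ψ e r : VV n → ℝ}, ContDiff ℝ ∞ ψ → Continuous e → Continuous r →
      (mS d.sx d.sy (d.W q) ψ (lmH q d) (muH q d) e r).Ct univ := by
    intro ψ e r hψ he hr
    have p2 : ContinuousOn (fun z => ψ z ^ 2) univ := (hψ.continuous.pow 2).continuousOn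
    exact ⟨p2, p2.mul (ll.continuousOn.div_const 6), p2.mul (mm.continuousOn.div_const 6),
      continuousOn_const,
      p2.mul ((((ll.mul Fx).continuousOn.div_const 2).add (continuousOn_const.mul
        ((ll.mul Lx).add (okx.sG ll W')).continuousOn)).sub (continuousOn_const.mul
          he.continuousOn)),
      p2.mul ((((mm.mul Fy).continuousOn.div_const 2).add (continuousOn_const.mul
        ((mm.mul Ly).add (oky.sG mm W')).continuousOn)).sub (continuousOn_const.mul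
          hr.continuousOn)),
      continuousOn_const, continuousOn_const⟩
  have cCT : ∀ {ψ : VV n → ℝ}, ContDiff ℝ ∞ ψ →
      (cT d.sx d.sy ψ (lmH q d) (muH q d)).Ct univ := by
    intro ψ hψ
    have p : Sm univ ψ := hψ.contDiffOn
    exact ⟨continuousOn_const, continuousOn_const, continuousOn_const, continuousOn_const,
      (continuousOn_const.mul ll.continuousOn).mul (okx.sG p p).continuousOn,
      (continuousOn_const.mul mm.continuousOn).mul (oky.sG p p).continuousOn,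
      continuousOn_const, continuousOn_const⟩
  have cCS : ∀ {ψ : VV n → ℝ}, ContDiff ℝ ∞ ψ →
      (cS d.sx d.sy (d.W q) ψ (lmH q d) (muH q d)).Ct univ := by
    intro ψ hψ
    have p : Sm univ ψ := hψ.contDiffOn
    have H1 := sHH okx W' p
    have H2 := sHH oky W' p
    exact ⟨continuousOn_const, continuousOn_const, continuousOn_const, continuousOn_const,
      (((continuousOn_const.mul ll.continuousOn).mul (okx.sG p p).continuousOn).add
        (continuousOn_const.mul H1.continuousOn)).add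
        (continuousOn_const.mul (p.mul (okx.sG p Lx)).continuousOn.abs),
      (((continuousOn_const.mul mm.continuousOn).mul (oky.sG p p).continuousOn).add
        (continuousOn_const.mul H2.continuousOn)).add
        (continuousOn_const.mul (p.mul (oky.sG p Ly)).continuousOn.abs),
      continuousOn_const, continuousOn_const⟩
  have cM : ((MiH q d).sm fun z => χ z ^ 2).Ct univ :=
    ⟨q2.mul continuousOn_const, q2.mul (ll.continuousOn.div_const 6),
      q2.mul (mm.continuousOn.div_const 6), q2.mul continuousOn_const,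
      q2.mul (((ll.mul Fx).continuousOn.div_const 4).add
        (continuousOn_const.mul ((continuousOn_const.mul nl.continuous.continuousOn).pow 2))),
      q2.mul (((mm.mul Fy).continuousOn.div_const 4).add
        (continuousOn_const.mul ((continuousOn_const.mul nm.continuous.continuousOn).pow 2))),
      q2.mul continuousOn_const, q2.mul continuousOn_const⟩
  have cC : (CiH χ q d).Ct univ := by
    have H1 := sHH okx W' χ'
    have H2 := sHH oky W' χ'
    exact ⟨continuousOn_const, continuousOn_const, continuousOn_const, continuousOn_const,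
      (((continuousOn_const.mul ll.continuousOn).mul (okx.sG χ' χ').continuousOn).add
        (continuousOn_const.mul H1.continuousOn)).add
        (continuousOn_const.mul (χ'.mul (okx.sG χ' Lx)).continuousOn.abs),
      (((continuousOn_const.mul mm.continuousOn).mul (oky.sG χ' χ').continuousOn).add
        (continuousOn_const.mul H2.continuousOn)).add
        (continuousOn_const.mul (χ'.mul (oky.sG χ' Ly)).continuousOn.abs),
      continuousOn_const, continuousOn_const⟩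
  -- the pointwise comparison
  have le : ∀ z, (((MiH q d).sm fun z => χ z ^ 2) +
      (cT d.sx d.sy (fun z => χ z * k1 q d z) (lmH q d) (muH q d) +
        cS d.sx d.sy (d.W q) (fun z => χ z * k2 q d z) (lmH q d) (muH q d) +
        cS d.sx d.sy (d.W q) (fun z => χ z * k3 q d z) (lmH q d) (muH q d))).Le
      (mT d.sx d.sy (d.W q) (fun z => χ z * k1 q d z) (lmH q d) (muH q d) e₁ r₁ +
        mS d.sx d.sy (d.W q) (fun z => χ z * k2 q d z) (lmH q d) (muH q d) e₂ r₂ +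
        mS d.sx d.sy (d.W q) (fun z => χ z * k3 q d z) (lmH q d) (muH q d) e₃ r₃ +
        CiH χ q d) z := by
    intro z
    have ks := k_sum q d z
    have c0 := sq_nonneg (χ z)
    by_cases hz : z ∈ S
    · have G := pt z hz
      have l0 := G.l0
      have m0 := G.m0
      have kκ : χ z ^ 2 = (χ z * k1 q d z) ^ 2 + (χ z * k2 q d z) ^ 2 + (χ z * k3 q d z) ^ 2 := by
        calc χ z ^ 2 = χ z ^ 2 * (k1 q d z ^ 2 + k2 q d z ^ 2 + k3 q d z ^ 2) := by
              rw [ks, mul_one]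
          _ = _ := by ring
      -- the weights
      have wx : ∀ (w m1 m2 m3 : ℝ), (k1 q d z ≠ 0 → w ≤ m1) → (k2 q d z ≠ 0 → w ≤ m2) →
          (k3 q d z ≠ 0 → w ≤ m3) → χ z ^ 2 * w ≤ (χ z * k1 q d z) ^ 2 * m1 +
            (χ z * k2 q d z) ^ 2 * m2 + (χ z * k3 q d z) ^ 2 * m3 := by
        intro w m1 m2 m3 h1 h2 h3
        have g : ∀ k m : ℝ, (k ≠ 0 → w ≤ m) → (χ z * k) ^ 2 * w ≤ (χ z * k) ^ 2 * m := by
          intro k m hk
          by_cases hk0 : k = 0
          · rw [hk0]; simp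
          · exact mul_le_mul_of_nonneg_left (hk hk0) (sq_nonneg _)
        have g1 := g _ m1 h1
        have g2 := g _ m2 h2
        have g3 := g _ m3 h3
        rw [kκ]
        linarith
      have X := wx _ _ _ _ G.x1 G.x2 G.x3
      have Y := wx _ _ _ _ G.y1 G.y2 G.y3
      have CX := costX h hχ hR z
      have CY := costY h hχ hR z
        (by
          have := mul_nonneg m0 (G.t0 fun i => d.sy.D i (fun z => d.l z.2) z)
          have e : d.sy.Γ (fun z => d.l z.2) (fun z => d.l z.2) z =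
            ss d.sy (fun i => d.sy.D i (fun z => d.l z.2) z) z := rfl
          rw [e, mul_assoc]
          exact mul_nonneg c0 this)
        (mul_nonneg c0 (G.hy _))
      have HX := G.hx
      have HY := G.hy
      have sx0 : ∀ ψ : VV n → ℝ, 0 ≤ lmH q d z * d.sx.Γ ψ ψ z := fun ψ =>
        mul_nonneg l0 (G.s0 fun i => d.sx.D i ψ z)
      have sy0 : ∀ ψ : VV n → ℝ, 0 ≤ muH q d z * d.sy.Γ ψ ψ z := fun ψ =>
        mul_nonneg m0 (G.t0 fun i => d.sy.D i ψ z)
      have X1 : 4 * lmH q d z * d.sx.Γ (fun z => χ z * k1 q d z) (fun z => χ z * k1 q d z) z ≤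
          cH d.sx (d.W q) (fun z => χ z * k1 q d z) (lmH q d) z := by
        unfold cH
        have := HX fun i => d.sx.D i (fun z => χ z * k1 q d z) z
        have h3 := abs_nonneg (χ z * k1 q d z * d.sx.Γ (fun z => χ z * k1 q d z)
          (d.sx.Λ (d.W q)) z)
        beta_reduce
        linarith
      have Y1 : 4 * muH q d z * d.sy.Γ (fun z => χ z * k1 q d z) (fun z => χ z * k1 q d z) z ≤
          cH d.sy (d.W q) (fun z => χ z * k1 q d z) (muH q d) z := by
        unfold cH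
        have := HY fun i => d.sy.D i (fun z => χ z * k1 q d z) z
        have h3 := abs_nonneg (χ z * k1 q d z * d.sy.Γ (fun z => χ z * k1 q d z)
          (d.sy.Λ (d.W q)) z)
        beta_reduce
        linarith
      have X2 : ∀ ψ : VV n → ℝ, cw d.sx (d.W q) ψ (lmH q d) z ≤
          cH d.sx (d.W q) ψ (lmH q d) z := by
        intro ψ
        unfold cw cH
        have := sx0 ψ
        linarith
      have Y2 : ∀ ψ : VV n → ℝ, cw d.sy (d.W q) ψ (muH q d) z ≤
          cH d.sy (d.W q) ψ (muH q d) z := by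
        intro ψ
        unfold cw cH
        have := sy0 ψ
        linarith
      have X22 := X2 fun z => χ z * k2 q d z
      have X23 := X2 fun z => χ z * k3 q d z
      have Y22 := Y2 fun z => χ z * k2 q d z
      have Y23 := Y2 fun z => χ z * k3 q d z
      have a2 := sq_nonneg (χ z * k1 q d z)
      have a3 := mul_nonneg a2 l0
      have a4 := mul_nonneg a2 m0
      refine ⟨?_, ?_, ?_, ?_, ?_, ?_, ?_, ?_⟩
      · show χ z ^ 2 * 1 + (0 + 0 + 0) ≤ (χ z * k1 q d z) ^ 2 + (χ z * k2 q d z) ^ 2 +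
          (χ z * k3 q d z) ^ 2 + 0
        linarith
      · show χ z ^ 2 * (lmH q d z / 6) + (0 + 0 + 0) ≤ (χ z * k1 q d z) ^ 2 * lmH q d z +
          (χ z * k2 q d z) ^ 2 * (lmH q d z / 6) + (χ z * k3 q d z) ^ 2 * (lmH q d z / 6) + 0
        rw [kκ]
        linarith
      · show χ z ^ 2 * (muH q d z / 6) + (0 + 0 + 0) ≤ (χ z * k1 q d z) ^ 2 * muH q d z +
          (χ z * k2 q d z) ^ 2 * (muH q d z / 6) + (χ z * k3 q d z) ^ 2 * (muH q d z / 6) + 0
        rw [kκ]
        linarith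
      · show χ z ^ 2 * 0 + (0 + 0 + 0) ≤ (0 : ℝ) + 0 + 0 + 0
        linarith
      · show χ z ^ 2 * (MiH q d).w₁ z + (4 * lmH q d z * d.sx.Γ (fun z => χ z * k1 q d z)
            (fun z => χ z * k1 q d z) z + cw d.sx (d.W q) (fun z => χ z * k2 q d z) (lmH q d) z +
            cw d.sx (d.W q) (fun z => χ z * k3 q d z) (lmH q d) z) ≤
          (χ z * k1 q d z) ^ 2 * (lmH q d z * d.sx.F (d.W q) z +
            2 * (lmH q d z * d.sx.Λ (d.W q) z + d.sx.Γ (lmH q d) (d.W q) z) - e₁ z) +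
          (χ z * k2 q d z) ^ 2 * (lmH q d z * d.sx.F (d.W q) z / 2 +
            2 / 3 * (lmH q d z * d.sx.Λ (d.W q) z + d.sx.Γ (lmH q d) (d.W q) z) - 3 * e₂ z) +
          (χ z * k3 q d z) ^ 2 * (lmH q d z * d.sx.F (d.W q) z / 2 +
            2 / 3 * (lmH q d z * d.sx.Λ (d.W q) z + d.sx.Γ (lmH q d) (d.W q) z) - 3 * e₃ z) +
          cH d.sx (d.W q) χ (lmH q d) z
        linarith
      · show χ z ^ 2 * (MiH q d).w₂ z + (4 * muH q d z * d.sy.Γ (fun z => χ z * k1 q d z)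
            (fun z => χ z * k1 q d z) z + cw d.sy (d.W q) (fun z => χ z * k2 q d z) (muH q d) z +
            cw d.sy (d.W q) (fun z => χ z * k3 q d z) (muH q d) z) ≤
          (χ z * k1 q d z) ^ 2 * (muH q d z * d.sy.F (d.W q) z +
            2 * (muH q d z * d.sy.Λ (d.W q) z + d.sy.Γ (muH q d) (d.W q) z) - r₁ z) +
          (χ z * k2 q d z) ^ 2 * (muH q d z * d.sy.F (d.W q) z / 2 +
            2 / 3 * (muH q d z * d.sy.Λ (d.W q) z + d.sy.Γ (muH q d) (d.W q) z) - 3 * r₂ z) +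
          (χ z * k3 q d z) ^ 2 * (muH q d z * d.sy.F (d.W q) z / 2 +
            2 / 3 * (muH q d z * d.sy.Λ (d.W q) z + d.sy.Γ (muH q d) (d.W q) z) - 3 * r₃ z) +
          cH d.sy (d.W q) χ (muH q d) z
        linarith
      · show χ z ^ 2 * 0 + (0 + 0 + 0) ≤ (0 : ℝ) + 0 + 0 + 0
        linarith
      · show χ z ^ 2 * 0 + (0 + 0 + 0) ≤ (0 : ℝ) + 0 + 0 + 0
        linarith
    · have z0 := h0 z hz
      have off : ∀ k : VV n → ℝ, ∀ z, z ∉ S → χ z * k z = 0 := fun k z hz => by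
        rw [h0 z hz, zero_mul]
      have q1 : ∀ (o : Sl (VV n) (Fin n)) (k : VV n → ℝ) (f : VV n → ℝ),
          o.Γ (fun z => χ z * k z) f z = 0 := fun o k f => G_off o hS (off k) hz f
      have q1' : ∀ (o : Sl (VV n) (Fin n)) (f : VV n → ℝ), o.Γ χ f z = 0 := fun o f =>
        G_off o hS h0 hz f
      have q2 : ∀ (o : Sl (VV n) (Fin n)) (k : VV n → ℝ) (i : Fin n),
          o.D i (fun z => χ z * k z) z = 0 := fun o k i => D_off o hS (off k) hz i
      have q2' : ∀ (o : Sl (VV n) (Fin n)) (i : Fin n), o.D i χ z = 0 := fun o i =>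
        D_off o hS h0 hz i
      have w1 : ∀ (o : Sl (VV n) (Fin n)) (k lam : VV n → ℝ),
          cw o (d.W q) (fun z => χ z * k z) lam z = 0 := by
        intro o k lam
        unfold cw HH
        rw [q1, q1]
        simp [q2]
      have w2 : ∀ (o : Sl (VV n) (Fin n)) (lam : VV n → ℝ), cH o (d.W q) χ lam z = 0 :=
        fun o lam => cH_off o hS h0 hz
      refine ⟨?_, ?_, ?_, ?_, ?_, ?_, ?_, ?_⟩
      · show χ z ^ 2 * 1 + (0 + 0 + 0) ≤ (χ z * k1 q d z) ^ 2 + (χ z * k2 q d z) ^ 2 +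
          (χ z * k3 q d z) ^ 2 + 0
        rw [z0]; simp
      · show χ z ^ 2 * (lmH q d z / 6) + (0 + 0 + 0) ≤ (χ z * k1 q d z) ^ 2 * lmH q d z +
          (χ z * k2 q d z) ^ 2 * (lmH q d z / 6) + (χ z * k3 q d z) ^ 2 * (lmH q d z / 6) + 0
        rw [z0]; simp
      · show χ z ^ 2 * (muH q d z / 6) + (0 + 0 + 0) ≤ (χ z * k1 q d z) ^ 2 * muH q d z +
          (χ z * k2 q d z) ^ 2 * (muH q d z / 6) + (χ z * k3 q d z) ^ 2 * (muH q d z / 6) + 0
        rw [z0]; simp
      · show χ z ^ 2 * 0 + (0 + 0 + 0) ≤ (0 : ℝ) + 0 + 0 + 0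
        linarith
      · show χ z ^ 2 * (MiH q d).w₁ z + (4 * lmH q d z * d.sx.Γ (fun z => χ z * k1 q d z)
            (fun z => χ z * k1 q d z) z + cw d.sx (d.W q) (fun z => χ z * k2 q d z) (lmH q d) z +
            cw d.sx (d.W q) (fun z => χ z * k3 q d z) (lmH q d) z) ≤
          (χ z * k1 q d z) ^ 2 * _ + (χ z * k2 q d z) ^ 2 * _ + (χ z * k3 q d z) ^ 2 * _ +
          cH d.sx (d.W q) χ (lmH q d) z
        rw [q1, w1, w1, w2, z0]; simp
      · show χ z ^ 2 * (MiH q d).w₂ z + (4 * muH q d z * d.sy.Γ (fun z => χ z * k1 q d z)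
            (fun z => χ z * k1 q d z) z + cw d.sy (d.W q) (fun z => χ z * k2 q d z) (muH q d) z +
            cw d.sy (d.W q) (fun z => χ z * k3 q d z) (muH q d) z) ≤
          (χ z * k1 q d z) ^ 2 * _ + (χ z * k2 q d z) ^ 2 * _ + (χ z * k3 q d z) ^ 2 * _ +
          cH d.sy (d.W q) χ (muH q d) z
        rw [q1, w1, w1, w2, z0]; simp
      · show χ z ^ 2 * 0 + (0 + 0 + 0) ≤ (0 : ℝ) + 0 + 0 + 0
        linarith
      · show χ z ^ 2 * 0 + (0 + 0 + 0) ≤ (0 : ℝ) + 0 + 0 + 0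
        linarith
  -- the sum
  refine H338.C.zone_comb okx oky contDiffOn_const contDiffOn_const W' (Finset.univ : Finset (Fin 3))
    (l := fun _ => 1) (fun _ _ => zero_le_one)
    (ψ := ![fun z => χ z * k1 q d z, fun z => χ z * k2 q d z, fun z => χ z * k3 q d z])
    (mg := ![mT d.sx d.sy (d.W q) (fun z => χ z * k1 q d z) (lmH q d) (muH q d) e₁ r₁,
      mS d.sx d.sy (d.W q) (fun z => χ z * k2 q d z) (lmH q d) (muH q d) e₂ r₂,
      mS d.sx d.sy (d.W q) (fun z => χ z * k3 q d z) (lmH q d) (muH q d) e₃ r₃])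
    (co := ![cT d.sx d.sy (fun z => χ z * k1 q d z) (lmH q d) (muH q d),
      cS d.sx d.sy (d.W q) (fun z => χ z * k2 q d z) (lmH q d) (muH q d),
      cS d.sx d.sy (d.W q) (fun z => χ z * k3 q d z) (lmH q d) (muH q d)])
    ?_ ?_ ?_ ?_ cM cC ?_ ?_
  · intro k _
    fin_cases k
    · exact s1.contDiffOn
    · exact s2.contDiffOn
    · exact s3.contDiffOn
  · intro z _
    rw [Fin.sum_univ_three]
    show χ z ^ 2 = 1 * (χ z * k1 q d z) ^ 2 + 1 * (χ z * k2 q d z) ^ 2 + 1 * (χ z * k3 q d z) ^ 2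
    have ks := k_sum q d z
    calc χ z ^ 2 = χ z ^ 2 * (k1 q d z ^ 2 + k2 q d z ^ 2 + k3 q d z ^ 2) := by
          rw [ks, mul_one]
      _ = _ := by ring
  · intro k _
    fin_cases k
    · exact cMT s1 ce₁ cr₁
    · exact cMS s2 ce₂ cr₂
    · exact cMS s3 ce₃ cr₃
  · intro k _
    fin_cases k
    · exact cCT s1
    · exact cCS s2
    · exact cCS s3
  · intro k _
    fin_cases k
    · exact Z1
    · exact Z2
    · exact Z3
  · intro z _ a b
    have := Q8.dens_le (σ := d.sx) (τ := d.sy) (v₁ := fun _ => 0) (v₂ := fun _ => 0) (W := d.W q)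
      (a := a) (b := b) (le z)
    simp only [Q8.dens_add] at this
    rw [Fin.sum_univ_three, Fin.sum_univ_three]
    show _ + (1 * (cT d.sx d.sy (fun z => χ z * k1 q d z) (lmH q d) (muH q d)).dens _ _ _ _ _ _ _ _ +
      1 * (cS d.sx d.sy (d.W q) (fun z => χ z * k2 q d z) (lmH q d) (muH q d)).dens _ _ _ _ _ _ _ _ +
      1 * (cS d.sx d.sy (d.W q) (fun z => χ z * k3 q d z) (lmH q d) (muH q d)).dens _ _ _ _ _ _ _ _)
      ≤ 1 * (mT d.sx d.sy (d.W q) (fun z => χ z * k1 q d z) (lmH q d) (muH q d) e₁ r₁).dens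
          _ _ _ _ _ _ _ _ +
        1 * (mS d.sx d.sy (d.W q) (fun z => χ z * k2 q d z) (lmH q d) (muH q d) e₂ r₂).dens
          _ _ _ _ _ _ _ _ +
        1 * (mS d.sx d.sy (d.W q) (fun z => χ z * k3 q d z) (lmH q d) (muH q d) e₃ r₃).dens
          _ _ _ _ _ _ _ _ + _
    linarith

end zone

end Vale.Agent.P088.R2.H404.INF
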