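import Vale.Agent.P088.R2.H404.INF.ExP
import Vale.Agent.P088.R2.H404.INF.ZH
import Vale.Agent.P088.R2.H168.INF.Spec3
import Vale.Agent.P088.R2.H380.INF.PnS

/-!
# P088, stage 3, zone INF: **the leaf iH from the rows `H1` and `H2`**

`zone_iH (hn) (h1 : RowH1 n) (h2 : RowH2 n) : ZiH n`.
-/

open Set Filter MeasureTheory
open scoped ContDiff Topology Matrix

noncomputable section

namespace Vale.Agent.P088.R2.H404.ZI

open Vale.Agent.P088.LR Vale.Agent.P088.HY Vale.Agent.P088.R2.H31.EP Vale.Agent.P088.R2.H961.GW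
open Vale.Agent.P088.R2.H168.INF Vale.Agent.P088.R2.H960.W Vale.Agent.P088.R2.H551.E
open Vale.Agent.P088.R2.H404.INF (InfC evInf k1 k2 k3 k1_sm k2_sm k3_sm k_sum k1_ne k2_ne k3_ne kT
  kT_ne exX exY exX_le exY_le ExA ev_exA cH costX costY high_supp cl D_prod xk1 xk2 xk3 yk1 yk2 yk3
  lm_ge zc zs zc_lo zs_lo px py qM lM k_closed)

variable {n : ℕ} {q : Cst} {d : Pk n} {z : VV n} {χ : VV n → ℝ}

theorem eN (q : Cst) (d : Pk n) : H404.INF.NP q d = hN q d := rfl

theorem el (q : Cst) (d : Pk n) : H404.INF.lmH q d = lmH q d := rfl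

theorem em (q : Cst) (d : Pk n) : H404.INF.muH q d = muH q d := rfl

/-- Smoothness of the slopes. -/
theorem hN_sm (h : PkOk q d) : ContDiff ℝ ∞ (hN q d) :=
  h.Φ's.comp ((h.lev.sm.comp (h.ret.sm.comp contDiff_fst)).add
    (h.lev.sm.comp (h.ret.sm.comp contDiff_snd)))

theorem Θ's (h : PkOk q d) : ContDiff ℝ ∞ (deriv d.Θ) := (contDiff_infty_iff_deriv.1 h.Θs).2

theorem hX_sm (h : PkOk q d) : ContDiff ℝ ∞ (hX q d) :=
  (hN_sm h).add ((Θ's h).comp (h.lev.sm.comp contDiff_fst))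

theorem hY_sm (h : PkOk q d) : ContDiff ℝ ∞ (hY q d) :=
  (hN_sm h).add ((Θ's h).comp (h.lev.sm.comp contDiff_snd))

/-- **The sum of the costs, first slot.** -/
theorem cX (h : PkOk q d) (hχ : ContDiff ℝ ∞ χ) (hR : 0 < q.R) (l0 : 0 ≤ lmH q d z)
    (s0 : ∀ A : Fin n → ℝ, 0 ≤ ss d.sx A z)
    (hp : z ∈ S2a q d ∪ S2b q d → ∀ A : Fin n → ℝ, 0 ≤ HH d.sx (d.W q) z A) :
    4 * lmH q d z * d.sx.Γ (fun z => χ z * k1 q d z) (fun z => χ z * k1 q d z) z +
      cw d.sx (d.W q) (fun z => χ z * k2 q d z) (lmH q d) z +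
      cw d.sx (d.W q) (fun z => χ z * k3 q d z) (lmH q d) z ≤
    kH d.sx (d.W q) χ (lmH q d) z + χ z ^ 2 * exX q d z := by
  by_cases hz : z ∈ S2a q d ∪ S2b q d
  · have CX := costX h hχ hR z
    have HX := hp hz
    simp only [el] at CX
    have sx0 : ∀ ψ : VV n → ℝ, 0 ≤ lmH q d z * d.sx.Γ ψ ψ z := fun ψ =>
      mul_nonneg l0 (s0 fun i => d.sx.D i ψ z)
    have X1 : 4 * lmH q d z * d.sx.Γ (fun z => χ z * k1 q d z) (fun z => χ z * k1 q d z) z ≤
        cH d.sx (d.W q) (fun z => χ z * k1 q d z) (lmH q d) z := by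
      unfold cH
      have := HX fun i => d.sx.D i (fun z => χ z * k1 q d z) z
      have h3 := abs_nonneg (χ z * k1 q d z * d.sx.Γ (fun z => χ z * k1 q d z)
        (d.sx.Λ (d.W q)) z)
      beta_reduce
      linarith
    have X2 : ∀ ψ : VV n → ℝ, cw d.sx (d.W q) ψ (lmH q d) z ≤
        cH d.sx (d.W q) ψ (lmH q d) z := by
      intro ψ
      unfold cw cH
      have := sx0 ψ
      linarith
    have X3 : cH d.sx (d.W q) χ (lmH q d) z ≤ kH d.sx (d.W q) χ (lmH q d) z := by
      unfold cH kH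
      have := le_abs_self (HH d.sx (d.W q) z fun i => d.sx.D i χ z)
      have := abs_nonneg (HH d.sx (d.W q) z fun i => d.sx.D i χ z)
      linarith
    have X22 := X2 fun z => χ z * k2 q d z
    have X23 := X2 fun z => χ z * k3 q d z
    linarith
  · have hz1 : ¬ (d.l₀ q + 57 / 20 * q.R < d.l z.1) := fun c => hz (Or.inl (by
      show d.l₀ q + 285 / 100 * q.R ≤ d.l z.1
      linarith))
    have hk : kT q d z.1 = 0 := by
      by_contra c
      exact hz1 (kT_ne hR c).1
    have k2z : k2 q d z = 0 := by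
      by_contra c
      exact hz1 (k2_ne hR c)
    have k3z : k3 q d z = 0 := by
      by_contra c
      refine hz (Or.inr ?_)
      have := (k3_ne hR c).2
      show d.l₀ q + 285 / 100 * q.R ≤ d.l z.2
      linarith
    have k1z : k1 q d z ^ 2 = 1 := by
      have := k_sum q d z
      rw [k2z, k3z] at this
      linarith
    have D1 : ∀ i, d.sx.D i (fun z => χ z * k1 q d z) z = d.sx.D i χ z * k1 q d z := fun i => by
      rw [D_prod d.sx hχ (k1_sm h), xk1 h, hk]; ring
    have D2 : ∀ i, d.sx.D i (fun z => χ z * k2 q d z) z = 0 := fun i => by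
      rw [D_prod d.sx hχ (k2_sm h), xk2 h, hk, k2z]; ring
    have D3 : ∀ i, d.sx.D i (fun z => χ z * k3 q d z) z = 0 := fun i => by
      rw [D_prod d.sx hχ (k3_sm h), xk3 h, hk, k3z]; ring
    have G1 : d.sx.Γ (fun z => χ z * k1 q d z) (fun z => χ z * k1 q d z) z =
        k1 q d z ^ 2 * d.sx.Γ χ χ z := by
      unfold Sl.Γ
      simp only [D1, Finset.mul_sum]
      exact Finset.sum_congr rfl fun i _ => Finset.sum_congr rfl fun j _ => by ring
    have W2 : cw d.sx (d.W q) (fun z => χ z * k2 q d z) (lmH q d) z = 0 := by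
      unfold cw HH Sl.Γ
      simp [D2]
    have W3 : cw d.sx (d.W q) (fun z => χ z * k3 q d z) (lmH q d) z = 0 := by
      unfold cw HH Sl.Γ
      simp [D3]
    have hex : exX q d z = 0 := by
      unfold exX
      rw [hk]; ring
    rw [G1, W2, W3, k1z, hex]
    unfold kH
    have := abs_nonneg (HH d.sx (d.W q) z fun i => d.sx.D i χ z)
    have := abs_nonneg (χ z * d.sx.Γ χ (d.sx.Λ (d.W q)) z)
    linarith

/-- **The sum of the costs, second slot.** -/
theorem cY (h : PkOk q d) (hχ : ContDiff ℝ ∞ χ) (hR : 0 < q.R) (l0 : 0 ≤ muH q d z)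
    (s0 : ∀ A : Fin n → ℝ, 0 ≤ ss d.sy A z)
    (hp : z ∈ S2a q d ∪ S2b q d → ∀ A : Fin n → ℝ, 0 ≤ HH d.sy (d.W q) z A) :
    4 * muH q d z * d.sy.Γ (fun z => χ z * k1 q d z) (fun z => χ z * k1 q d z) z +
      cw d.sy (d.W q) (fun z => χ z * k2 q d z) (muH q d) z +
      cw d.sy (d.W q) (fun z => χ z * k3 q d z) (muH q d) z ≤
    kH d.sy (d.W q) χ (muH q d) z + χ z ^ 2 * exY q d z := by
  by_cases hz : z ∈ S2a q d ∪ S2b q d
  · have HX := hp hz
    have c0 := sq_nonneg (χ z)
    have CX := costY h hχ hR z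
      (by
        have := mul_nonneg l0 (s0 fun i => d.sy.D i (fun z => d.l z.2) z)
        have e : d.sy.Γ (fun z => d.l z.2) (fun z => d.l z.2) z =
          ss d.sy (fun i => d.sy.D i (fun z => d.l z.2) z) z := rfl
        rw [e, mul_assoc]
        exact mul_nonneg c0 this)
      (mul_nonneg c0 (HX _))
    simp only [em] at CX
    have sx0 : ∀ ψ : VV n → ℝ, 0 ≤ muH q d z * d.sy.Γ ψ ψ z := fun ψ =>
      mul_nonneg l0 (s0 fun i => d.sy.D i ψ z)
    have X1 : 4 * muH q d z * d.sy.Γ (fun z => χ z * k1 q d z) (fun z => χ z * k1 q d z) z ≤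
        cH d.sy (d.W q) (fun z => χ z * k1 q d z) (muH q d) z := by
      unfold cH
      have := HX fun i => d.sy.D i (fun z => χ z * k1 q d z) z
      have h3 := abs_nonneg (χ z * k1 q d z * d.sy.Γ (fun z => χ z * k1 q d z)
        (d.sy.Λ (d.W q)) z)
      beta_reduce
      linarith
    have X2 : ∀ ψ : VV n → ℝ, cw d.sy (d.W q) ψ (muH q d) z ≤
        cH d.sy (d.W q) ψ (muH q d) z := by
      intro ψ
      unfold cw cH
      have := sx0 ψ
      linarith
    have X3 : cH d.sy (d.W q) χ (muH q d) z ≤ kH d.sy (d.W q) χ (muH q d) z := by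
      unfold cH kH
      have := le_abs_self (HH d.sy (d.W q) z fun i => d.sy.D i χ z)
      have := abs_nonneg (HH d.sy (d.W q) z fun i => d.sy.D i χ z)
      linarith
    have X22 := X2 fun z => χ z * k2 q d z
    have X23 := X2 fun z => χ z * k3 q d z
    linarith
  · have hz1 : ¬ (d.l₀ q + 57 / 20 * q.R < d.l z.2) := fun c => hz (Or.inr (by
      show d.l₀ q + 285 / 100 * q.R ≤ d.l z.2
      linarith))
    have hk : kT q d z.2 = 0 := by
      by_contra c
      exact hz1 (kT_ne hR c).1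
    have k2z : k2 q d z = 0 := by
      by_contra c
      refine hz (Or.inl ?_)
      have := k2_ne hR c
      show d.l₀ q + 285 / 100 * q.R ≤ d.l z.1
      linarith
    have k3z : k3 q d z = 0 := by
      by_contra c
      exact hz1 (k3_ne hR c).2
    have k1z : k1 q d z ^ 2 = 1 := by
      have := k_sum q d z
      rw [k2z, k3z] at this
      linarith
    have D1 : ∀ i, d.sy.D i (fun z => χ z * k1 q d z) z = d.sy.D i χ z * k1 q d z := fun i => by
      rw [D_prod d.sy hχ (k1_sm h), yk1 h, hk]; ring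
    have D2 : ∀ i, d.sy.D i (fun z => χ z * k2 q d z) z = 0 := fun i => by
      rw [D_prod d.sy hχ (k2_sm h), yk2 h, k2z]; ring
    have D3 : ∀ i, d.sy.D i (fun z => χ z * k3 q d z) z = 0 := fun i => by
      rw [D_prod d.sy hχ (k3_sm h), yk3 h, hk, k3z]; ring
    have G1 : d.sy.Γ (fun z => χ z * k1 q d z) (fun z => χ z * k1 q d z) z =
        k1 q d z ^ 2 * d.sy.Γ χ χ z := by
      unfold Sl.Γ
      simp only [D1, Finset.mul_sum]
      exact Finset.sum_congr rfl fun i _ => Finset.sum_congr rfl fun j _ => by ring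
    have W2 : cw d.sy (d.W q) (fun z => χ z * k2 q d z) (muH q d) z = 0 := by
      unfold cw HH Sl.Γ
      simp [D2]
    have W3 : cw d.sy (d.W q) (fun z => χ z * k3 q d z) (muH q d) z = 0 := by
      unfold cw HH Sl.Γ
      simp [D3]
    have hex : exY q d z = 0 := by
      unfold exY
      rw [hk]; ring
    rw [G1, W2, W3, k1z, hex]
    unfold kH
    have := abs_nonneg (HH d.sy (d.W q) z fun i => d.sy.D i χ z)
    have := abs_nonneg (χ z * d.sy.Γ χ (d.sy.Λ (d.W q)) z)
    linarith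

/-- The weights: `w` is below each `m k` for which the piece is alive. -/
theorem wt (q : Cst) (d : Pk n) (c : ℝ) (z : VV n) {w m1 m2 m3 : ℝ} (h1 : k1 q d z ≠ 0 → w ≤ m1)
    (h2 : k2 q d z ≠ 0 → w ≤ m2) (h3 : k3 q d z ≠ 0 → w ≤ m3) :
    c ^ 2 * w ≤ (c * k1 q d z) ^ 2 * m1 + (c * k2 q d z) ^ 2 * m2 + (c * k3 q d z) ^ 2 * m3 := by
  have kκ : c ^ 2 = (c * k1 q d z) ^ 2 + (c * k2 q d z) ^ 2 + (c * k3 q d z) ^ 2 := by
    calc c ^ 2 = c ^ 2 * (k1 q d z ^ 2 + k2 q d z ^ 2 + k3 q d z ^ 2) := by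
          rw [k_sum q d z, mul_one]
      _ = _ := by ring
  have g : ∀ k m : ℝ, (k ≠ 0 → w ≤ m) → (c * k) ^ 2 * w ≤ (c * k) ^ 2 * m := by
    intro k m hk
    by_cases hk0 : k = 0
    · rw [hk0]; simp
    · exact mul_le_mul_of_nonneg_left (hk hk0) (sq_nonneg _)
  have g1 := g _ m1 h1
  have g2 := g _ m2 h2
  have g3 := g _ m3 h3
  rw [kκ]
  linarith

/-- **The leaf iH at one choice of the constants.** -/
theorem zone_at (hn : 1 ≤ n) (a : ExA n q) (h : PkOk q d) (hχ : ContDiff ℝ ∞ χ)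
    (hs : ∀ z, z ∉ SH1 q d → χ z * k1 q d z = 0)
    (h1 : ∀ χ : VV n → ℝ, ContDiff ℝ ∞ χ → (∀ z, z ∉ SH1 q d → χ z = 0) →
      d.Zone q χ ((M1H q d).sm fun z => χ z ^ 2) (C1H χ q d))
    (h2 : ∀ χ : VV n → ℝ, ContDiff ℝ ∞ χ →
      ((∀ z, z ∉ S2a q d → χ z = 0) ∨ (∀ z, z ∉ S2b q d → χ z = 0)) →
      d.Zone q χ (mS d.sx d.sy (d.W q) χ (lmH q d) (muH q d) (fun z => eH q (hX q d z))
        fun z => eH q (hY q d z)) (cS d.sx d.sy (d.W q) χ (lmH q d) (muH q d)))
    (pw : ∀ z, z ∈ S2a q d ∪ S2b q d →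
      PW d.sx (d.W q) (lmH q d) (eH q (hX q d z)) (z ∈ S2a q d) z ∧
      PW d.sy (d.W q) (muH q d) (eH q (hY q d z)) (z ∈ S2b q d) z) :
    d.Zone q χ ((MiH q d).sm fun z => χ z ^ 2) (CiH χ q d) := by
  have hq := a.i
  have hR := hq.R0
  have mt1 : Mt q.ε q.R d.s₁ := mt₁ le_rfl hR h.rg
  have mt2 : Mt q.ε q.R d.s₂ := mt₂ le_rfl hR h.rg
  have okx : d.sx.Ok univ 1 := ok_x mt1 mt2
  have oky : d.sy.Ok univ 1 := ok_y mt1 mt2
  have hε : n * q.ε ≤ 1 / 2 := by linarith [a.ε1, mul_comm (n : ℝ) q.ε]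
  have hW : ContDiff ℝ ∞ (d.W q) := H380.INF.W_smS h hε
  have nl := hX_sm h
  have nm := hY_sm h
  have s0 : ∀ z, ∀ A : Fin n → ℝ, 0 ≤ ss d.sx A z := fun z A => mt1.s0 (px d) a.e.ε0.le a.ε1 z A
  have t0 : ∀ z, ∀ A : Fin n → ℝ, 0 ≤ ss d.sy A z := fun z A => mt2.s0 (py d) a.e.ε0.le a.ε1 z A
  have l0 : ∀ z, 0 ≤ lmH q d z := fun z => by
    refine le_trans ?_ (lm_ge a.x.M1 hq h (z := z)).1
    have := h.Θd0 hR (d.l z.1)
    have := hq.σ0
    positivity
  have m0 : ∀ z, 0 ≤ muH q d z := fun z => by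
    refine le_trans ?_ (lm_ge a.x.M1 hq h (z := z)).2
    have := h.Θd0 hR (d.l z.2)
    have := hq.σ0
    positivity
  have F0 : ∀ z, 0 ≤ d.sx.F (d.W q) z := fun z => s0 z _
  have G0 : ∀ z, 0 ≤ d.sy.F (d.W q) z := fun z => t0 z _
  have W' : Sm univ (d.W q) := hW.contDiffOn
  have χ' : Sm univ χ := hχ.contDiffOn
  have s1 : ContDiff ℝ ∞ fun z => χ z * k1 q d z := hχ.mul (k1_sm h)
  have s2 : ContDiff ℝ ∞ fun z => χ z * k2 q d z := hχ.mul (k2_sm h)
  have s3 : ContDiff ℝ ∞ fun z => χ z * k3 q d z := hχ.mul (k3_sm h)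
  have Z1 := h1 _ s1 hs
  have Z2 := h2 _ s2 (Or.inl fun z hz => by
    have : k2 q d z = 0 := by
      by_contra c
      refine hz ?_
      have := k2_ne hR c
      show d.l₀ q + 285 / 100 * q.R ≤ d.l z.1
      linarith
    rw [this, mul_zero])
  have Z3 := h2 _ s3 (Or.inr fun z hz => by
    have : k3 q d z = 0 := by
      by_contra c
      refine hz ?_
      have := (k3_ne hR c).2
      show d.l₀ q + 285 / 100 * q.R ≤ d.l z.2
      linarith
    rw [this, mul_zero])
  have Fx := okx.sF W'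
  have Fy := oky.sF W'
  have Lx := okx.sL W'
  have Ly := oky.sL W'
  have ll : Sm univ (lmH q d) := (contDiff_const.mul nl).contDiffOn
  have mm : Sm univ (muH q d) := (contDiff_const.mul nm).contDiffOn
  have ce : Continuous fun z => eH q (hX q d z) := by
    unfold eH
    exact continuous_const.mul ((continuous_const.mul nl.continuous).pow 2)
  have cr : Continuous fun z => eH q (hY q d z) := by
    unfold eH
    exact continuous_const.mul ((continuous_const.mul nm.continuous).pow 2)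
  have q2 : ContinuousOn (fun z => χ z ^ 2) univ := (χ'.pow 2).continuousOn
  -- continuity of the letters
  have cM1 : ∀ {ψ : VV n → ℝ}, ContDiff ℝ ∞ ψ → ((M1H q d).sm fun z => ψ z ^ 2).Ct univ := by
    intro ψ hψ
    have p2 : ContinuousOn (fun z => ψ z ^ 2) univ := (hψ.continuous.pow 2).continuousOn
    exact ⟨p2.mul continuousOn_const, p2.mul (ll.continuousOn.div_const 6),
      p2.mul (mm.continuousOn.div_const 6), p2.mul continuousOn_const,
      p2.mul (((ll.mul Fx).continuousOn.div_const 2).add ((ll.continuousOn.pow 2).div_const 4)),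
      p2.mul (((mm.mul Fy).continuousOn.div_const 2).add ((mm.continuousOn.pow 2).div_const 4)),
      p2.mul continuousOn_const, p2.mul continuousOn_const⟩
  have cMS : ∀ {ψ e r : VV n → ℝ}, ContDiff ℝ ∞ ψ → Continuous e → Continuous r →
      (mS d.sx d.sy (d.W q) ψ (lmH q d) (muH q d) e r).Ct univ := by
    intro ψ e r hψ he hr
    have p2 : ContinuousOn (fun z => ψ z ^ 2) univ := (hψ.continuous.pow 2).continuousOn
    exact ⟨p2, p2.mul (ll.continuousOn.div_const 6), p2.mul (mm.continuousOn.div_const 6),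
      continuousOn_const,
      p2.mul ((((ll.mul Fx).continuousOn.div_const 2).add (continuousOn_const.mul
        ((ll.mul Lx).add (okx.sG ll W')).continuousOn)).sub (continuousOn_const.mul
          he.continuousOn)),
      p2.mul ((((mm.mul Fy).continuousOn.div_const 2).add (continuousOn_const.mul
        ((mm.mul Ly).add (oky.sG mm W')).continuousOn)).sub (continuousOn_const.mul
          hr.continuousOn)),
      continuousOn_const, continuousOn_const⟩
  have cC1 : ∀ {ψ : VV n → ℝ}, ContDiff ℝ ∞ ψ → (C1H ψ q d).Ct univ := by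
    intro ψ hψ
    have p : Sm univ ψ := hψ.contDiffOn
    exact ⟨continuousOn_const, continuousOn_const, continuousOn_const, continuousOn_const,
      (continuousOn_const.mul ll.continuousOn).mul (okx.sG p p).continuousOn,
      (continuousOn_const.mul mm.continuousOn).mul (oky.sG p p).continuousOn,
      continuousOn_const, continuousOn_const⟩
  have cCS : ∀ {ψ : VV n → ℝ}, ContDiff ℝ ∞ ψ →
      (cS d.sx d.sy (d.W q) ψ (lmH q d) (muH q d)).Ct univ := by
    intro ψ hψ
    have p : Sm univ ψ := hψ.contDiffOn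
    have H1 := sHH okx W' p
    have H2 := sHH oky W' p
    exact ⟨continuousOn_const, continuousOn_const, continuousOn_const, continuousOn_const,
      (((continuousOn_const.mul ll.continuousOn).mul (okx.sG p p).continuousOn).add
        (continuousOn_const.mul H1.continuousOn)).add
        (continuousOn_const.mul (p.mul (okx.sG p Lx)).continuousOn.abs),
      (((continuousOn_const.mul mm.continuousOn).mul (oky.sG p p).continuousOn).add
        (continuousOn_const.mul H2.continuousOn)).add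
        (continuousOn_const.mul (p.mul (oky.sG p Ly)).continuousOn.abs),
      continuousOn_const, continuousOn_const⟩
  have cM : ((MiH q d).sm fun z => χ z ^ 2).Ct univ :=
    ⟨q2.mul continuousOn_const, q2.mul (ll.continuousOn.div_const 6),
      q2.mul (mm.continuousOn.div_const 6), q2.mul continuousOn_const,
      q2.mul (((ll.mul Fx).continuousOn.div_const 4).add ((ll.continuousOn.pow 2).div_const 4)),
      q2.mul (((mm.mul Fy).continuousOn.div_const 4).add ((mm.continuousOn.pow 2).div_const 4)),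
      q2.mul continuousOn_const, q2.mul continuousOn_const⟩
  have cC : (CiH χ q d).Ct univ := by
    have H1 := sHH okx W' χ'
    have H2 := sHH oky W' χ'
    exact ⟨continuousOn_const, continuousOn_const, continuousOn_const, continuousOn_const,
      (((continuousOn_const.mul ll.continuousOn).mul (okx.sG χ' χ').continuousOn).add
        (continuousOn_const.mul H1.continuousOn.abs)).add
        (continuousOn_const.mul (χ'.mul (okx.sG χ' Lx)).continuousOn.abs),
      (((continuousOn_const.mul mm.continuousOn).mul (oky.sG χ' χ').continuousOn).add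
        (continuousOn_const.mul H2.continuousOn.abs)).add
        (continuousOn_const.mul (χ'.mul (oky.sG χ' Ly)).continuousOn.abs),
      continuousOn_const, continuousOn_const⟩
  -- the pointwise comparison
  have le : ∀ z, (((MiH q d).sm fun z => χ z ^ 2) +
      (C1H (fun z => χ z * k1 q d z) q d +
        cS d.sx d.sy (d.W q) (fun z => χ z * k2 q d z) (lmH q d) (muH q d) +
        cS d.sx d.sy (d.W q) (fun z => χ z * k3 q d z) (lmH q d) (muH q d))).Le
      (((M1H q d).sm fun z => (χ z * k1 q d z) ^ 2) +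
        mS d.sx d.sy (d.W q) (fun z => χ z * k2 q d z) (lmH q d) (muH q d)
          (fun z => eH q (hX q d z)) (fun z => eH q (hY q d z)) +
        mS d.sx d.sy (d.W q) (fun z => χ z * k3 q d z) (lmH q d) (muH q d)
          (fun z => eH q (hX q d z)) (fun z => eH q (hY q d z)) +
        CiH χ q d) z := by
    intro z
    have LX := exX_le hn a h z
    have LY := exY_le hn a h z
    rw [el] at LX
    rw [em] at LY
    have lF := mul_nonneg (l0 z) (F0 z)
    have mF := mul_nonneg (m0 z) (G0 z)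
    have CX := cX h hχ hR (l0 z) (s0 z) (fun hz => (pw z hz).1.psd)
    have CY := cY h hχ hR (m0 z) (t0 z) (fun hz => (pw z hz).2.psd)
    -- the excess of a slot
    have exX0 : z ∉ S2a q d → exX q d z = 0 := by
      intro hz
      have hk : kT q d z.1 = 0 := by
        by_contra c
        refine hz ?_
        have := (kT_ne hR c).1
        show d.l₀ q + 285 / 100 * q.R ≤ d.l z.1
        linarith
      unfold exX
      rw [hk]; ring
    have exY0 : z ∉ S2b q d → exY q d z = 0 := by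
      intro hz
      have hk : kT q d z.2 = 0 := by
        by_contra c
        refine hz ?_
        have := (kT_ne hR c).1
        show d.l₀ q + 285 / 100 * q.R ≤ d.l z.2
        linarith
      unfold exY
      rw [hk]; ring
    have PX : z ∈ S2a q d ∪ S2b q d → (MiH q d).w₁ z + exX q d z ≤
        lmH q d z * d.sx.F (d.W q) z / 2 + 2 / 3 * (lmH q d z * d.sx.Λ (d.W q) z +
          d.sx.Γ (lmH q d) (d.W q) z) - 3 * eH q (hX q d z) := by
      intro hz
      have p := (pw z hz).1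
      show lmH q d z * d.sx.F (d.W q) z / 4 + lmH q d z ^ 2 / 4 + exX q d z ≤ _
      by_cases ha : z ∈ S2a q d
      · have := p.w' ha
        linarith
      · have := p.w
        rw [exX0 ha]
        linarith
    have PY : z ∈ S2a q d ∪ S2b q d → (MiH q d).w₂ z + exY q d z ≤
        muH q d z * d.sy.F (d.W q) z / 2 + 2 / 3 * (muH q d z * d.sy.Λ (d.W q) z +
          d.sy.Γ (muH q d) (d.W q) z) - 3 * eH q (hY q d z) := by
      intro hz
      have p := (pw z hz).2
      show muH q d z * d.sy.F (d.W q) z / 4 + muH q d z ^ 2 / 4 + exY q d z ≤ _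
      by_cases hb : z ∈ S2b q d
      · have := p.w' hb
        linarith
      · have := p.w
        rw [exY0 hb]
        linarith
    have A2 : k2 q d z ≠ 0 → z ∈ S2a q d ∪ S2b q d := fun c => Or.inl (by
      have := k2_ne hR c
      show d.l₀ q + 285 / 100 * q.R ≤ d.l z.1
      linarith)
    have A3 : k3 q d z ≠ 0 → z ∈ S2a q d ∪ S2b q d := fun c => Or.inr (by
      have := (k3_ne hR c).2
      show d.l₀ q + 285 / 100 * q.R ≤ d.l z.2
      linarith)
    have B1 : (MiH q d).w₁ z + exX q d z ≤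
        lmH q d z * d.sx.F (d.W q) z / 2 + lmH q d z ^ 2 / 4 := by
      show lmH q d z * d.sx.F (d.W q) z / 4 + lmH q d z ^ 2 / 4 + exX q d z ≤ _
      linarith
    have B2 : (MiH q d).w₂ z + exY q d z ≤
        muH q d z * d.sy.F (d.W q) z / 2 + muH q d z ^ 2 / 4 := by
      show muH q d z * d.sy.F (d.W q) z / 4 + muH q d z ^ 2 / 4 + exY q d z ≤ _
      linarith
    have X := wt q d (χ z) z (fun _ => B1) (fun c => PX (A2 c)) (fun c => PX (A3 c))
    have Y := wt q d (χ z) z (fun _ => B2) (fun c => PY (A2 c)) (fun c => PY (A3 c))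
    have kκ : χ z ^ 2 = (χ z * k1 q d z) ^ 2 + (χ z * k2 q d z) ^ 2 + (χ z * k3 q d z) ^ 2 := by
      calc χ z ^ 2 = χ z ^ 2 * (k1 q d z ^ 2 + k2 q d z ^ 2 + k3 q d z ^ 2) := by
            rw [k_sum q d z, mul_one]
        _ = _ := by ring
    refine ⟨?_, ?_, ?_, ?_, ?_, ?_, ?_, ?_⟩
    · show χ z ^ 2 * 1 + (0 + 0 + 0) ≤ (χ z * k1 q d z) ^ 2 * 1 + (χ z * k2 q d z) ^ 2 +
        (χ z * k3 q d z) ^ 2 + 0
      linarith
    · show χ z ^ 2 * (lmH q d z / 6) + (0 + 0 + 0) ≤ (χ z * k1 q d z) ^ 2 * (lmH q d z / 6) +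
        (χ z * k2 q d z) ^ 2 * (lmH q d z / 6) + (χ z * k3 q d z) ^ 2 * (lmH q d z / 6) + 0
      rw [kκ]
      linarith
    · show χ z ^ 2 * (muH q d z / 6) + (0 + 0 + 0) ≤ (χ z * k1 q d z) ^ 2 * (muH q d z / 6) +
        (χ z * k2 q d z) ^ 2 * (muH q d z / 6) + (χ z * k3 q d z) ^ 2 * (muH q d z / 6) + 0
      rw [kκ]
      linarith
    · show χ z ^ 2 * 0 + (0 + 0 + 0) ≤ (χ z * k1 q d z) ^ 2 * 0 + 0 + 0 + 0
      linarith
    · show χ z ^ 2 * (MiH q d).w₁ z + (4 * lmH q d z * d.sx.Γ (fun z => χ z * k1 q d z)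
          (fun z => χ z * k1 q d z) z + cw d.sx (d.W q) (fun z => χ z * k2 q d z) (lmH q d) z +
          cw d.sx (d.W q) (fun z => χ z * k3 q d z) (lmH q d) z) ≤
        (χ z * k1 q d z) ^ 2 * (lmH q d z * d.sx.F (d.W q) z / 2 + lmH q d z ^ 2 / 4) +
        (χ z * k2 q d z) ^ 2 * (lmH q d z * d.sx.F (d.W q) z / 2 +
          2 / 3 * (lmH q d z * d.sx.Λ (d.W q) z + d.sx.Γ (lmH q d) (d.W q) z) -
          3 * eH q (hX q d z)) +
        (χ z * k3 q d z) ^ 2 * (lmH q d z * d.sx.F (d.W q) z / 2 +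
          2 / 3 * (lmH q d z * d.sx.Λ (d.W q) z + d.sx.Γ (lmH q d) (d.W q) z) -
          3 * eH q (hX q d z)) +
        kH d.sx (d.W q) χ (lmH q d) z
      linarith
    · show χ z ^ 2 * (MiH q d).w₂ z + (4 * muH q d z * d.sy.Γ (fun z => χ z * k1 q d z)
          (fun z => χ z * k1 q d z) z + cw d.sy (d.W q) (fun z => χ z * k2 q d z) (muH q d) z +
          cw d.sy (d.W q) (fun z => χ z * k3 q d z) (muH q d) z) ≤
        (χ z * k1 q d z) ^ 2 * (muH q d z * d.sy.F (d.W q) z / 2 + muH q d z ^ 2 / 4) +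
        (χ z * k2 q d z) ^ 2 * (muH q d z * d.sy.F (d.W q) z / 2 +
          2 / 3 * (muH q d z * d.sy.Λ (d.W q) z + d.sy.Γ (muH q d) (d.W q) z) -
          3 * eH q (hY q d z)) +
        (χ z * k3 q d z) ^ 2 * (muH q d z * d.sy.F (d.W q) z / 2 +
          2 / 3 * (muH q d z * d.sy.Λ (d.W q) z + d.sy.Γ (muH q d) (d.W q) z) -
          3 * eH q (hY q d z)) +
        kH d.sy (d.W q) χ (muH q d) z
      linarith
    · show χ z ^ 2 * 0 + (0 + 0 + 0) ≤ (χ z * k1 q d z) ^ 2 * 0 + 0 + 0 + 0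
      linarith
    · show χ z ^ 2 * 0 + (0 + 0 + 0) ≤ (χ z * k1 q d z) ^ 2 * 0 + 0 + 0 + 0
      linarith
  -- the sum
  have z0 : Sm univ (0 : VV n → ℝ) := contDiffOn_const
  show H551.E.Zone d.sx d.sy univ 1 0 0 (d.W q) χ _ _
  refine H338.C.zone_comb okx oky z0 z0 W' (Finset.univ : Finset (Fin 3))
    (l := fun _ => 1) (fun _ _ => zero_le_one)
    (ψ := ![fun z => χ z * k1 q d z, fun z => χ z * k2 q d z, fun z => χ z * k3 q d z])
    (mg := ![(M1H q d).sm fun z => (χ z * k1 q d z) ^ 2,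
      mS d.sx d.sy (d.W q) (fun z => χ z * k2 q d z) (lmH q d) (muH q d)
        (fun z => eH q (hX q d z)) (fun z => eH q (hY q d z)),
      mS d.sx d.sy (d.W q) (fun z => χ z * k3 q d z) (lmH q d) (muH q d)
        (fun z => eH q (hX q d z)) (fun z => eH q (hY q d z))])
    (co := ![C1H (fun z => χ z * k1 q d z) q d,
      cS d.sx d.sy (d.W q) (fun z => χ z * k2 q d z) (lmH q d) (muH q d),
      cS d.sx d.sy (d.W q) (fun z => χ z * k3 q d z) (lmH q d) (muH q d)])
    ?_ ?_ ?_ ?_ cM cC ?_ ?_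
  · intro k _
    fin_cases k
    · exact s1.contDiffOn
    · exact s2.contDiffOn
    · exact s3.contDiffOn
  · intro z _
    rw [Fin.sum_univ_three]
    show χ z ^ 2 = 1 * (χ z * k1 q d z) ^ 2 + 1 * (χ z * k2 q d z) ^ 2 + 1 * (χ z * k3 q d z) ^ 2
    have ks := k_sum q d z
    calc χ z ^ 2 = χ z ^ 2 * (k1 q d z ^ 2 + k2 q d z ^ 2 + k3 q d z ^ 2) := by
          rw [ks, mul_one]
      _ = _ := by ring
  · intro k _
    fin_cases k
    · exact cM1 s1
    · exact cMS s2 ce cr
    · exact cMS s3 ce cr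
  · intro k _
    fin_cases k
    · exact cC1 s1
    · exact cCS s2
    · exact cCS s3
  · intro k _
    fin_cases k
    · exact Z1
    · exact Z2
    · exact Z3
  · intro z _ a b
    have := Q8.dens_le (σ := d.sx) (τ := d.sy) (v₁ := 0) (v₂ := 0) (W := d.W q)
      (a := a) (b := b) (le z)
    simp only [Q8.dens_add] at this
    rw [Fin.sum_univ_three, Fin.sum_univ_three]
    show _ + (1 * (C1H (fun z => χ z * k1 q d z) q d).dens _ _ _ _ _ _ _ _ +
      1 * (cS d.sx d.sy (d.W q) (fun z => χ z * k2 q d z) (lmH q d) (muH q d)).dens _ _ _ _ _ _ _ _ +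
      1 * (cS d.sx d.sy (d.W q) (fun z => χ z * k3 q d z) (lmH q d) (muH q d)).dens _ _ _ _ _ _ _ _)
      ≤ 1 * ((M1H q d).sm fun z => (χ z * k1 q d z) ^ 2).dens
          _ _ _ _ _ _ _ _ +
        1 * (mS d.sx d.sy (d.W q) (fun z => χ z * k2 q d z) (lmH q d) (muH q d)
          (fun z => eH q (hX q d z)) (fun z => eH q (hY q d z))).dens
          _ _ _ _ _ _ _ _ +
        1 * (mS d.sx d.sy (d.W q) (fun z => χ z * k3 q d z) (lmH q d) (muH q d)
          (fun z => eH q (hX q d z)) (fun z => eH q (hY q d z))).dens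
          _ _ _ _ _ _ _ _ + _
    linarith

/-- **The leaf iH from the rows `H1` and `H2`.** -/
theorem zone_iH (hn : 1 ≤ n) (h1 : RowH1 n) (h2 : RowH2 n) : ZiH n := by
  unfold RowH1 at h1
  unfold RowH2 at h2
  have e1 := h1.and h2
  have e2 := (ev_exA hn).and (EvC.litSm n)
  have e3 := e1.and e2
  unfold ZiH ZoneThm
  refine e3.mono fun q hh d h => ?_
  have r1 := hh.1.1
  have r2 := hh.1.2
  have a := hh.2.1
  have hs := hh.2.2
  have hR := a.i.R0
  show d.Zone q (d.ch q .iH) ((MiH q d).sm fun z => d.ch q .iH z ^ 2) (CiH (d.ch q .iH) q d)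
  have hc : ContDiff ℝ ∞ (d.ch q .iH) := (hs d h).ch .iH
  refine zone_at hn a h hc ?_ (r1 d h) (r2 d h).1 (r2 d h).2
  intro z hz
  by_contra hne
  have c1 : d.ch q .iH z ≠ 0 := left_ne_zero_of_mul hne
  have c2 : k1 q d z ≠ 0 := right_ne_zero_of_mul hne
  have hk := k1_ne hR c2
  refine hz ?_
  show d.l z.1 ≤ d.l₀ q + 29 / 10 * q.R ∧ d.l z.2 ≤ d.l₀ q + 29 / 10 * q.R ∧
    2 * d.l₀ q + 91 / 20 * q.R ≤ d.l z.1 + d.l z.2
  refine ⟨hk.1.le, hk.2.le, ?_⟩
  rcases high_supp a.i h (subset_tsupport _ (Function.mem_support.2 c1)) with c | c | c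
  · exact c
  · linarith [hk.1]
  · linarith [hk.2]

end Vale.Agent.P088.R2.H404.ZI
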