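import Vale.Agent.P088.R2.H404.INF.Alv

/-!
# P088, zone INF: the first derivatives of the cut variables `tinf`, `thi`, `tfs`

`en2 v = |v₁| + |v₂|` (Euclidean lengths). `dtinf`: `|D_v tinf| ≤ (56 / κ₁) / R |v|`,
`dthi`: `|D_v thi| ≤ 1000 / R |v|`, `dtfs`: `on(tfs) |D_v tfs| ≤ 1000 σ / R |v|`, at all points.
-/

open Set Filter
open scoped ContDiff Topology

noncomputable section

namespace Vale.Agent.P088.R2.H404.INF

open Vale.Agent.P088.LR Vale.Agent.P088.HY Vale.Agent.P088.R2.H475 Vale.Agent.P088.R2.H31.EP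
open Vale.Agent.P088.R2.H867.EP

variable {n : ℕ}

/-- The Euclidean lengths of the two components. -/
def en2 (v : VV n) : ℝ := √(HY.sq v.1) + √(HY.sq v.2)

theorem en2_nonneg (v : VV n) : 0 ≤ en2 v := add_nonneg (Real.sqrt_nonneg _) (Real.sqrt_nonneg _)

theorem en_sub2 (v : VV n) : √(HY.sq (v.1 - v.2)) ≤ en2 v := en_sub v.1 v.2

/-- Cauchy–Schwarz. -/
theorem cs_en (x y : V n) : |∑ i, x i * y i| ≤ √(HY.sq x) * √(HY.sq y) := by
  rw [← Real.sqrt_mul (sq0 x), ← Real.sqrt_sq_eq_abs]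
  exact Real.sqrt_le_sqrt (Finset.sum_mul_sq_le_sq_mul_sq _ _ _)

/-- The derivative of a function of `x` in coordinates. -/
theorem fderiv_pd {f : V n → ℝ} (x v : V n) : fderiv ℝ f x v = ∑ i, pd i f x * v i := by
  have h : v = ∑ i, v i • (Pi.single i (1 : ℝ) : V n) := by
    ext j
    simp [Finset.sum_apply, Pi.single_apply]
  conv_lhs => rw [h]
  rw [map_sum]
  refine Finset.sum_congr rfl fun i _ => ?_
  rw [map_smul, smul_eq_mul, mul_comm]
  rfl

theorem abs_fderiv_le {f : V n → ℝ} (x v : V n) {G : ℝ} (hG : 0 ≤ G)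
    (h : ∑ i, pd i f x ^ 2 ≤ G ^ 2) : |fderiv ℝ f x v| ≤ G * √(HY.sq v) := by
  rw [fderiv_pd]
  refine (cs_en (fun i => pd i f x) v).trans ?_
  refine mul_le_mul_of_nonneg_right ?_ (Real.sqrt_nonneg _)
  rw [Real.sqrt_le_left hG]
  exact h

variable {q : Cst} {d : Pk n} {z : VV n}

/-- The gradient of the level where the level is below `1/σ + 10`. -/
theorem dl_le (hq : InfC q) (h : PkOk q d) {x : V n}
    (h1 : H475.gg n q.σ (q.R⁻¹ • x) ≤ q.σ⁻¹ + 10) (v : V n) :
    |fderiv ℝ d.l x v| ≤ 2 * √(HY.sq v) := by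
  refine abs_fderiv_le x v (by norm_num) ?_
  rw [h.lev.lit]
  have h0 := hq.σ0
  refine (grad_levG_le h0 hq.σ1 hq.R0 x).trans (max_le (by norm_num) ?_)
  have h2 := (glv_gg (n := n) h0 hq.σ1).w_le h0 (by positivity) h1
  have h3 : q.σ * q.σ⁻¹ = 1 := mul_inv_cancel₀ h0.ne'
  have h4 := hq.σ1
  show HY.sq (wv n q.σ (q.R⁻¹ • x)) ≤ 2 ^ 2
  nlinarith

/-- If `u₀ ≤ 2 l₀ + 5 R`, both levels are below `1/σ + 10`. -/
theorem gg_le_of_u0 (hq : InfC q) (h : PkOk q d) {x y : V n}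
    (hu : d.l x + d.l y ≤ 2 * d.l₀ q + 5 * q.R) :
    H475.gg n q.σ (q.R⁻¹ • x) ≤ q.σ⁻¹ + 10 := by
  have hL := lvG hq h
  have hR := hq.R0
  have h1 := gg_bot (n := n) hq.σ0 hq.σ1 (q.R⁻¹ • y)
  have e1 := hL.eq x
  have e2 := hL.eq y
  have h2 : q.R * (H475.gg n q.σ (q.R⁻¹ • x) + H475.gg n q.σ (q.R⁻¹ • y)) ≤ q.R * 5 := by
    linarith
  have h3 := le_of_mul_le_mul_left h2 hR
  have h4 : 0 < q.σ⁻¹ := inv_pos.2 hq.σ0
  linarith

theorem fd_l1 (h : PkOk q d) (v : VV n) :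
    fderiv ℝ (fun z : VV n => d.l z.1) z v = fderiv ℝ d.l z.1 v.1 := by
  have hd : DifferentiableAt ℝ d.l z.1 := (h.lev.sm.differentiable (by simp)) _
  have := hd.hasFDerivAt.comp z hasFDerivAt_fst
  have e : (d.l ∘ Prod.fst : VV n → ℝ) = fun z => d.l z.1 := rfl
  rw [e] at this
  rw [this.fderiv]
  rfl

theorem fd_l2 (h : PkOk q d) (v : VV n) :
    fderiv ℝ (fun z : VV n => d.l z.2) z v = fderiv ℝ d.l z.2 v.2 := by
  have hd : DifferentiableAt ℝ d.l z.2 := (h.lev.sm.differentiable (by simp)) _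
  have := hd.hasFDerivAt.comp z hasFDerivAt_snd
  have e : (d.l ∘ Prod.snd : VV n → ℝ) = fun z => d.l z.2 := rfl
  rw [e] at this
  rw [this.fderiv]
  rfl

theorem df_l1 (h : PkOk q d) : DifferentiableAt ℝ (fun z : VV n => d.l z.1) z :=
  ((h.lev.sm.differentiable (by simp)) _).comp z differentiableAt_fst

theorem df_l2 (h : PkOk q d) : DifferentiableAt ℝ (fun z : VV n => d.l z.2) z :=
  ((h.lev.sm.differentiable (by simp)) _).comp z differentiableAt_snd

/-- The derivative of `u₀` where `u₀ ≤ 2 l₀ + 5 R`. -/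
theorem fd_u0 (hq : InfC q) (h : PkOk q d) (hu : d.l z.1 + d.l z.2 ≤ 2 * d.l₀ q + 5 * q.R)
    (v : VV n) : |fderiv ℝ (fun z : VV n => d.l z.1 + d.l z.2) z v| ≤ 2 * en2 v := by
  rw [fderiv_fun_add (df_l1 h) (df_l2 h)]
  simp only [add_apply]
  rw [fd_l1 h, fd_l2 h]
  have a1 := dl_le hq h (gg_le_of_u0 hq h hu) v.1
  have a2 := dl_le hq h (gg_le_of_u0 hq h (x := z.2) (y := z.1) (by linarith)) v.2
  unfold en2
  exact (abs_add_le _ _).trans (by linarith)

/-- The derivative of `|q|²`. -/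
theorem fd_sq : HasFDerivAt (fun z : VV n => HY.sq (z.1 - z.2))
    (∑ i, (2 * (z.1 i - z.2 i)) • ((ContinuousLinearMap.proj i : V n →L[ℝ] ℝ).comp
      (ContinuousLinearMap.fst ℝ (V n) (V n)) - (ContinuousLinearMap.proj i : V n →L[ℝ] ℝ).comp
      (ContinuousLinearMap.snd ℝ (V n) (V n)))) z := by
  have h1 : ∀ i, HasFDerivAt (fun z : VV n => (z.1 i - z.2 i) ^ 2)
      ((2 * (z.1 i - z.2 i)) • ((ContinuousLinearMap.proj i : V n →L[ℝ] ℝ).comp
      (ContinuousLinearMap.fst ℝ (V n) (V n)) - (ContinuousLinearMap.proj i : V n →L[ℝ] ℝ).comp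
      (ContinuousLinearMap.snd ℝ (V n) (V n)))) z := by
    intro i
    have a1 : HasFDerivAt (fun z : VV n => z.1 i) ((ContinuousLinearMap.proj i :
      V n →L[ℝ] ℝ).comp (ContinuousLinearMap.fst ℝ (V n) (V n))) z :=
      ((ContinuousLinearMap.proj i : V n →L[ℝ] ℝ).comp
        (ContinuousLinearMap.fst ℝ (V n) (V n))).hasFDerivAt
    have a2 : HasFDerivAt (fun z : VV n => z.2 i) ((ContinuousLinearMap.proj i :
      V n →L[ℝ] ℝ).comp (ContinuousLinearMap.snd ℝ (V n) (V n))) z :=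
      ((ContinuousLinearMap.proj i : V n →L[ℝ] ℝ).comp
        (ContinuousLinearMap.snd ℝ (V n) (V n))).hasFDerivAt
    have a3 := (a1.sub a2).pow 2
    refine a3.congr_fderiv ?_
    simp
  exact HasFDerivAt.fun_sum fun i _ => h1 i

theorem fd_sq_le (v : VV n) : |fderiv ℝ (fun z : VV n => HY.sq (z.1 - z.2)) z v| ≤
    2 * √(HY.sq (z.1 - z.2)) * en2 v := by
  rw [(fd_sq (z := z)).fderiv]
  have e : (∑ i, (2 * (z.1 i - z.2 i)) • ((ContinuousLinearMap.proj i : V n →L[ℝ] ℝ).comp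
      (ContinuousLinearMap.fst ℝ (V n) (V n)) - (ContinuousLinearMap.proj i : V n →L[ℝ] ℝ).comp
      (ContinuousLinearMap.snd ℝ (V n) (V n)))) v =
      2 * ∑ i, (z.1 - z.2) i * (v.1 - v.2) i := by
    simp only [sum_apply, smul_apply, smul_eq_mul, sub_apply, Finset.mul_sum]
    refine Finset.sum_congr rfl fun i _ => ?_
    simp only [ContinuousLinearMap.comp_apply, ContinuousLinearMap.proj_apply,
      ContinuousLinearMap.coe_fst', ContinuousLinearMap.coe_snd', Pi.sub_apply]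
    ring
  rw [e, abs_mul, abs_two, mul_assoc]
  refine mul_le_mul_of_nonneg_left ?_ (by norm_num)
  exact (cs_en _ _).trans (mul_le_mul_of_nonneg_left (en_sub2 v) (Real.sqrt_nonneg _))

theorem deriv_st0 {x : ℝ} (h : x ≤ 0 ∨ 1 ≤ x) : deriv Real.smoothTransition x = 0 := by
  rcases h with h | h
  · refine IsLocalMin.deriv_eq_zero (Eventually.of_forall fun y => ?_)
    rw [Real.smoothTransition.zero_of_nonpos h]
    exact Real.smoothTransition.nonneg y
  · refine IsLocalMax.deriv_eq_zero (Eventually.of_forall fun y => ?_)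
    rw [Real.smoothTransition.one_of_one_le h]
    exact Real.smoothTransition.le_one y

theorem df_st {g : VV n → ℝ} (hg : DifferentiableAt ℝ g z) :
    DifferentiableAt ℝ (fun z => Real.smoothTransition (g z)) z := by
  have : Differentiable ℝ Real.smoothTransition :=
    (Real.smoothTransition.contDiff (n := (⊤ : ℕ∞))).differentiable (by simp)
  exact (this _).comp z hg

/-- The chain rule for the transition function. -/
theorem st_comp {g : VV n → ℝ} (hg : DifferentiableAt ℝ g z) (v : VV n) {B : ℝ} (hB0 : 0 ≤ B)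
    (hB : 0 < g z → g z < 1 → |fderiv ℝ g z v| ≤ B) :
    |fderiv ℝ (fun z => Real.smoothTransition (g z)) z v| ≤ 5 * B := by
  have hd : Differentiable ℝ Real.smoothTransition :=
    (Real.smoothTransition.contDiff (n := (⊤ : ℕ∞))).differentiable (by simp)
  have e : fderiv ℝ (fun z => Real.smoothTransition (g z)) z v =
      deriv Real.smoothTransition (g z) * fderiv ℝ g z v := by
    have := (hd (g z)).hasDerivAt.comp_hasFDerivAt z hg.hasFDerivAt
    have e2 : (Real.smoothTransition ∘ g) = fun z => Real.smoothTransition (g z) := rfl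
    rw [e2] at this
    rw [this.fderiv]
    simp
  rw [e]
  by_cases h : 0 < g z ∧ g z < 1
  · rw [abs_mul, abs_of_nonneg (deriv_st _).1]
    exact mul_le_mul (deriv_st _).2 (hB h.1 h.2) (abs_nonneg _) (by norm_num)
  · have h2 : g z ≤ 0 ∨ 1 ≤ g z := by
      by_contra hc
      push Not at hc
      exact h hc
    rw [deriv_st0 h2, zero_mul, abs_zero]
    positivity

theorem fd_st3 {f g h : VV n → ℝ} (hf : DifferentiableAt ℝ f z) (hg : DifferentiableAt ℝ g z)
    (hh : DifferentiableAt ℝ h z) (v : VV n) :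
    fderiv ℝ (fun z => Real.smoothTransition (f z) + Real.smoothTransition (g z) +
      Real.smoothTransition (h z)) z v =
    fderiv ℝ (fun z => Real.smoothTransition (f z)) z v +
    fderiv ℝ (fun z => Real.smoothTransition (g z)) z v +
    fderiv ℝ (fun z => Real.smoothTransition (h z)) z v := by
  have a := ((df_st hf).hasFDerivAt.add (df_st hg).hasFDerivAt).add (df_st hh).hasFDerivAt
  have b : HasFDerivAt (fun z => Real.smoothTransition (f z) + Real.smoothTransition (g z) +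
      Real.smoothTransition (h z)) _ z := a
  rw [b.fderiv]
  simp only [add_apply]

theorem abs_add3 {a b c A B C : ℝ} (ha : |a| ≤ A) (hb : |b| ≤ B) (hc : |c| ≤ C) :
    |a + b + c| ≤ A + B + C :=
  (abs_add_le _ _).trans (add_le_add ((abs_add_le _ _).trans (add_le_add ha hb)) hc)

/-- **The derivative of `tinf`.** -/
theorem dtinf (hq : InfC q) (h : PkOk q d) (v : VV n) :
    |fderiv ℝ (d.tinf q) z v| ≤ 300 / (q.κ₁ * q.R) * en2 v := by
  have hR := hq.R0
  have h0 := hq.σ0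
  have hk := hq.κ0
  have hv := en2_nonneg v
  have hs : DifferentiableAt ℝ (fun z : VV n => HY.sq (z.1 - z.2)) z := fd_sq.differentiableAt
  have hu : DifferentiableAt ℝ (fun z : VV n => d.l z.1 + d.l z.2) z := (df_l1 h).add (df_l2 h)
  have g1 : DifferentiableAt ℝ
      (fun z : VV n => 4 * HY.sq (z.1 - z.2) / (q.κ₁ * q.R) ^ 2 - 1) z := by
    have a := (hs.const_mul (4 / (q.κ₁ * q.R) ^ 2)).sub_const 1
    refine a.congr_of_eventuallyEq (Filter.Eventually.of_forall fun w => ?_)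
    show 4 * HY.sq (w.1 - w.2) / (q.κ₁ * q.R) ^ 2 - 1 =
      4 / (q.κ₁ * q.R) ^ 2 * HY.sq (w.1 - w.2) - 1
    ring
  have g2 : DifferentiableAt ℝ
      (fun z : VV n => 10 * (-(q.σ / q.R) * (d.l z.1 + d.l z.2) - 3 / 2)) z :=
    ((hu.const_mul _).sub_const _).const_mul _
  have g3 : DifferentiableAt ℝ
      (fun z : VV n => 20 * (d.l z.1 + d.l z.2 - 2 * d.l₀ q) / q.R - 92) z := by
    have a := (hu.const_mul (20 / q.R)).sub_const (20 / q.R * (2 * d.l₀ q) + 92)
    refine a.congr_of_eventuallyEq (Filter.Eventually.of_forall fun w => ?_)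
    show 20 * (d.l w.1 + d.l w.2 - 2 * d.l₀ q) / q.R - 92 =
      20 / q.R * (d.l w.1 + d.l w.2) - (20 / q.R * (2 * d.l₀ q) + 92)
    ring
  have e : d.tinf q = fun z =>
      (Real.smoothTransition (4 * HY.sq (z.1 - z.2) / (q.κ₁ * q.R) ^ 2 - 1) +
      Real.smoothTransition (10 * (-(q.σ / q.R) * (d.l z.1 + d.l z.2) - 3 / 2))) +
      Real.smoothTransition (20 * (d.l z.1 + d.l z.2 - 2 * d.l₀ q) / q.R - 92) := by
    rw [tinf_eq]; rfl
  rw [e, fd_st3 g1 g2 g3]
  have b1 : |fderiv ℝ (fun z : VV n => Real.smoothTransition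
      (4 * HY.sq (z.1 - z.2) / (q.κ₁ * q.R) ^ 2 - 1)) z v| ≤
      5 * (8 / (q.κ₁ * q.R) * en2 v) := by
    refine st_comp g1 v (by positivity) fun _ hlt => ?_
    have c1 : HY.sq (z.1 - z.2) ≤ (q.κ₁ * q.R) ^ 2 := by
      have : 4 * HY.sq (z.1 - z.2) / (q.κ₁ * q.R) ^ 2 < 2 := by linarith
      rw [div_lt_iff₀ (by positivity)] at this
      nlinarith [sq_nonneg (q.κ₁ * q.R)]
    have c2 : √(HY.sq (z.1 - z.2)) ≤ q.κ₁ * q.R := by
      rw [Real.sqrt_le_left (by positivity)]; exact c1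
    have c3 : fderiv ℝ (fun z : VV n => 4 * HY.sq (z.1 - z.2) / (q.κ₁ * q.R) ^ 2 - 1) z v =
        4 / (q.κ₁ * q.R) ^ 2 * fderiv ℝ (fun z : VV n => HY.sq (z.1 - z.2)) z v := by
      have c4 : (fun z : VV n => 4 * HY.sq (z.1 - z.2) / (q.κ₁ * q.R) ^ 2 - 1) =
          fun z : VV n => 4 / (q.κ₁ * q.R) ^ 2 * HY.sq (z.1 - z.2) - 1 := by
        funext w; ring
      rw [c4, fderiv_sub_const, fderiv_const_mul hs]
      simp
    rw [c3, abs_mul, abs_of_pos (by positivity)]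
    have c5 := fd_sq_le (z := z) v
    have c6 : 2 * √(HY.sq (z.1 - z.2)) * en2 v ≤ 2 * (q.κ₁ * q.R) * en2 v := by gcongr
    calc _ ≤ 4 / (q.κ₁ * q.R) ^ 2 * (2 * (q.κ₁ * q.R) * en2 v) :=
          mul_le_mul_of_nonneg_left (c5.trans c6) (by positivity)
      _ = _ := by field_simp; ring
  have b2 : |fderiv ℝ (fun z : VV n => Real.smoothTransition
      (10 * (-(q.σ / q.R) * (d.l z.1 + d.l z.2) - 3 / 2))) z v| ≤
      5 * (20 * q.σ / q.R * en2 v) := by
    refine st_comp g2 v (by positivity) fun hlt _ => ?_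
    have c1 : d.l z.1 + d.l z.2 ≤ 2 * d.l₀ q + 5 * q.R := by
      have a1 : -(q.σ / q.R) * (d.l z.1 + d.l z.2) > 3 / 2 := by linarith
      have a2 : 0 < q.σ / q.R := by positivity
      have a3 := l₀_nonneg hq h
      by_contra hc
      have a4 : 0 < d.l z.1 + d.l z.2 := by linarith [not_le.1 hc]
      nlinarith [mul_pos a2 a4]
    have c2 := fd_u0 hq h c1 v
    have c3 : fderiv ℝ (fun z : VV n => 10 * (-(q.σ / q.R) * (d.l z.1 + d.l z.2) - 3 / 2)) z v =
        -(10 * q.σ / q.R) * fderiv ℝ (fun z : VV n => d.l z.1 + d.l z.2) z v := by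
      have c4 : (fun z : VV n => 10 * (-(q.σ / q.R) * (d.l z.1 + d.l z.2) - 3 / 2)) =
          fun z : VV n => -(10 * q.σ / q.R) * (d.l z.1 + d.l z.2) - 15 := by
        funext w; ring
      rw [c4, fderiv_sub_const, fderiv_const_mul hu]
      simp
    rw [c3, abs_mul, abs_neg, abs_of_pos (by positivity)]
    calc _ ≤ 10 * q.σ / q.R * (2 * en2 v) := mul_le_mul_of_nonneg_left c2 (by positivity)
      _ = _ := by ring
  have b3 : |fderiv ℝ (fun z : VV n => Real.smoothTransition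
      (20 * (d.l z.1 + d.l z.2 - 2 * d.l₀ q) / q.R - 92)) z v| ≤
      5 * (40 / q.R * en2 v) := by
    refine st_comp g3 v (by positivity) fun _ hlt => ?_
    have c1 : d.l z.1 + d.l z.2 ≤ 2 * d.l₀ q + 5 * q.R := by
      have a1 : 20 * (d.l z.1 + d.l z.2 - 2 * d.l₀ q) / q.R < 93 := by linarith
      rw [div_lt_iff₀ hR] at a1
      linarith
    have c2 := fd_u0 hq h c1 v
    have c3 : fderiv ℝ (fun z : VV n => 20 * (d.l z.1 + d.l z.2 - 2 * d.l₀ q) / q.R - 92) z v =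
        20 / q.R * fderiv ℝ (fun z : VV n => d.l z.1 + d.l z.2) z v := by
      have c4 : (fun z : VV n => 20 * (d.l z.1 + d.l z.2 - 2 * d.l₀ q) / q.R - 92) =
          fun z : VV n => 20 / q.R * (d.l z.1 + d.l z.2) - (40 * d.l₀ q / q.R + 92) := by
        funext w; ring
      rw [c4, fderiv_sub_const, fderiv_const_mul hu]
      simp
    rw [c3, abs_mul, abs_of_pos (by positivity)]
    calc _ ≤ 20 / q.R * (2 * en2 v) := mul_le_mul_of_nonneg_left c2 (by positivity)
      _ = _ := by ring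
  refine (abs_add3 b1 b2 b3).trans ?_
  have k1 : 1 ≤ 1 / q.κ₁ := by
    rw [le_div_iff₀ hk]; linarith [hq.κ1]
  have k2 : q.σ ≤ 1 := by linarith [hq.σ1]
  have e1 : 300 / (q.κ₁ * q.R) * en2 v = 300 * (1 / q.κ₁) * (en2 v / q.R) := by
    field_simp
  have e2 : 5 * (8 / (q.κ₁ * q.R) * en2 v) + 5 * (20 * q.σ / q.R * en2 v) +
      5 * (40 / q.R * en2 v) = (40 * (1 / q.κ₁) + 100 * q.σ + 200) * (en2 v / q.R) := by
    field_simp
    ring
  rw [e1, e2]
  refine mul_le_mul_of_nonneg_right ?_ (by positivity)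
  have k3 : 50 ≤ 1 / q.κ₁ := by
    rw [le_div_iff₀ hk]; linarith [hq.κ1]
  linarith

/-- **The derivative of `thi`.** -/
theorem dthi (hq : InfC q) (h : PkOk q d) (v : VV n) :
    |fderiv ℝ (d.thi q) z v| ≤ 400 / q.R * en2 v := by
  have hR := hq.R0
  have hv := en2_nonneg v
  have hu : DifferentiableAt ℝ (fun z : VV n => d.l z.1 + d.l z.2) z := (df_l1 h).add (df_l2 h)
  have g1 : DifferentiableAt ℝ
      (fun z : VV n => 20 * (d.l z.1 + d.l z.2 - 2 * d.l₀ q) / q.R - 91) z := by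
    have a := (hu.const_mul (20 / q.R)).sub_const (20 / q.R * (2 * d.l₀ q) + 91)
    refine a.congr_of_eventuallyEq (Filter.Eventually.of_forall fun w => ?_)
    show 20 * (d.l w.1 + d.l w.2 - 2 * d.l₀ q) / q.R - 91 =
      20 / q.R * (d.l w.1 + d.l w.2) - (20 / q.R * (2 * d.l₀ q) + 91)
    ring
  have g2 : DifferentiableAt ℝ (fun z : VV n => 20 * ((d.l z.1 - d.l₀ q) / q.R) - 58) z := by
    have a := ((df_l1 (z := z) h).const_mul (20 / q.R)).sub_const (20 / q.R * d.l₀ q + 58)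
    refine a.congr_of_eventuallyEq (Filter.Eventually.of_forall fun w => ?_)
    show 20 * ((d.l w.1 - d.l₀ q) / q.R) - 58 = 20 / q.R * d.l w.1 - (20 / q.R * d.l₀ q + 58)
    ring
  have g3 : DifferentiableAt ℝ (fun z : VV n => 20 * ((d.l z.2 - d.l₀ q) / q.R) - 58) z := by
    have a := ((df_l2 (z := z) h).const_mul (20 / q.R)).sub_const (20 / q.R * d.l₀ q + 58)
    refine a.congr_of_eventuallyEq (Filter.Eventually.of_forall fun w => ?_)
    show 20 * ((d.l w.2 - d.l₀ q) / q.R) - 58 = 20 / q.R * d.l w.2 - (20 / q.R * d.l₀ q + 58)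
    ring
  have e : d.thi q = fun z =>
      (Real.smoothTransition (20 * (d.l z.1 + d.l z.2 - 2 * d.l₀ q) / q.R - 91) +
      Real.smoothTransition (20 * ((d.l z.1 - d.l₀ q) / q.R) - 58)) +
      Real.smoothTransition (20 * ((d.l z.2 - d.l₀ q) / q.R) - 58) := rfl
  rw [e, fd_st3 g1 g2 g3]
  have b1 : |fderiv ℝ (fun z : VV n => Real.smoothTransition
      (20 * (d.l z.1 + d.l z.2 - 2 * d.l₀ q) / q.R - 91)) z v| ≤
      5 * (40 / q.R * en2 v) := by
    refine st_comp g1 v (by positivity) fun _ hlt => ?_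
    have c1 : d.l z.1 + d.l z.2 ≤ 2 * d.l₀ q + 5 * q.R := by
      have a1 : 20 * (d.l z.1 + d.l z.2 - 2 * d.l₀ q) / q.R < 92 := by linarith
      rw [div_lt_iff₀ hR] at a1
      linarith
    have c2 := fd_u0 hq h c1 v
    have c3 : fderiv ℝ (fun z : VV n => 20 * (d.l z.1 + d.l z.2 - 2 * d.l₀ q) / q.R - 91) z v =
        20 / q.R * fderiv ℝ (fun z : VV n => d.l z.1 + d.l z.2) z v := by
      have c4 : (fun z : VV n => 20 * (d.l z.1 + d.l z.2 - 2 * d.l₀ q) / q.R - 91) =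
          fun z : VV n => 20 / q.R * (d.l z.1 + d.l z.2) - (40 * d.l₀ q / q.R + 91) := by
        funext w; ring
      rw [c4, fderiv_sub_const, fderiv_const_mul hu]
      simp
    rw [c3, abs_mul, abs_of_pos (by positivity)]
    calc _ ≤ 20 / q.R * (2 * en2 v) := mul_le_mul_of_nonneg_left c2 (by positivity)
      _ = _ := by ring
  have hg : ∀ x : V n, 20 * ((d.l x - d.l₀ q) / q.R) - 58 < 1 →
      H475.gg n q.σ (q.R⁻¹ • x) ≤ q.σ⁻¹ + 10 := by
    intro x hx
    rw [(lvG hq h).gl]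
    have : 0 < q.σ⁻¹ := inv_pos.2 hq.σ0
    linarith
  have b2 : |fderiv ℝ (fun z : VV n => Real.smoothTransition
      (20 * ((d.l z.1 - d.l₀ q) / q.R) - 58)) z v| ≤ 5 * (40 / q.R * √(HY.sq v.1)) := by
    refine st_comp g2 v (by positivity) fun _ hlt => ?_
    have c2 := dl_le hq h (hg _ hlt) v.1
    have c3 : fderiv ℝ (fun z : VV n => 20 * ((d.l z.1 - d.l₀ q) / q.R) - 58) z v =
        20 / q.R * fderiv ℝ d.l z.1 v.1 := by
      have c4 : (fun z : VV n => 20 * ((d.l z.1 - d.l₀ q) / q.R) - 58) =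
          fun z : VV n => 20 / q.R * d.l z.1 - (20 * d.l₀ q / q.R + 58) := by
        funext w; ring
      rw [c4, fderiv_sub_const, fderiv_const_mul (df_l1 h)]
      simp only [smul_apply, smul_eq_mul]
      rw [fd_l1 h]
    rw [c3, abs_mul, abs_of_pos (by positivity)]
    calc _ ≤ 20 / q.R * (2 * √(HY.sq v.1)) := mul_le_mul_of_nonneg_left c2 (by positivity)
      _ = _ := by ring
  have b3 : |fderiv ℝ (fun z : VV n => Real.smoothTransition
      (20 * ((d.l z.2 - d.l₀ q) / q.R) - 58)) z v| ≤ 5 * (40 / q.R * √(HY.sq v.2)) := by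
    refine st_comp g3 v (by positivity) fun _ hlt => ?_
    have c2 := dl_le hq h (hg _ hlt) v.2
    have c3 : fderiv ℝ (fun z : VV n => 20 * ((d.l z.2 - d.l₀ q) / q.R) - 58) z v =
        20 / q.R * fderiv ℝ d.l z.2 v.2 := by
      have c4 : (fun z : VV n => 20 * ((d.l z.2 - d.l₀ q) / q.R) - 58) =
          fun z : VV n => 20 / q.R * d.l z.2 - (20 * d.l₀ q / q.R + 58) := by
        funext w; ring
      rw [c4, fderiv_sub_const, fderiv_const_mul (df_l2 h)]
      simp only [smul_apply, smul_eq_mul]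
      rw [fd_l2 h]
    rw [c3, abs_mul, abs_of_pos (by positivity)]
    calc _ ≤ 20 / q.R * (2 * √(HY.sq v.2)) := mul_le_mul_of_nonneg_left c2 (by positivity)
      _ = _ := by ring
  refine (abs_add3 b1 b2 b3).trans (le_of_eq ?_)
  unfold en2
  ring

/-- **The derivative of `tfs`.** -/
theorem dtfs (hq : InfC q) (h : PkOk q d) (v : VV n) (hz : d.tfs q z < 1) :
    |fderiv ℝ (d.tfs q) z v| ≤ 1000 * q.σ / q.R * en2 v := by
  have hR := hq.R0
  have h0 := hq.σ0
  have hv := en2_nonneg v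
  have hu : DifferentiableAt ℝ (fun z : VV n => d.l z.1 + d.l z.2) z := (df_l1 h).add (df_l2 h)
  have hp : 0 < q.R ^ 2 + HY.sq (z.1 - z.2) := by
    have := sq0 (z.1 - z.2); positivity
  have hr : HasFDerivAt (fun z : VV n => √(q.R ^ 2 + HY.sq (z.1 - z.2)))
      ((1 / (2 * √(q.R ^ 2 + HY.sq (z.1 - z.2)))) •
        fderiv ℝ (fun z : VV n => HY.sq (z.1 - z.2)) z) z := by
    have := ((fd_sq (z := z)).differentiableAt.hasFDerivAt.const_add (q.R ^ 2)).sqrt hp.ne'
    exact this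
  have c0 : |fderiv ℝ (fun z : VV n => √(q.R ^ 2 + HY.sq (z.1 - z.2))) z v| ≤ en2 v := by
    rw [hr.fderiv]
    simp only [smul_apply, smul_eq_mul]
    rw [abs_mul, abs_of_pos (by positivity)]
    have h1 := fd_sq_le (z := z) v
    have h2 := le_rt (R := q.R) (HY.sq (z.1 - z.2))
    have h3 : 0 < √(q.R ^ 2 + HY.sq (z.1 - z.2)) := Real.sqrt_pos.2 hp
    calc _ ≤ 1 / (2 * √(q.R ^ 2 + HY.sq (z.1 - z.2))) *
          (2 * √(q.R ^ 2 + HY.sq (z.1 - z.2)) * en2 v) := by
          refine mul_le_mul_of_nonneg_left (h1.trans ?_) (by positivity)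
          gcongr
      _ = _ := by field_simp
  have c1 : d.l z.1 + d.l z.2 ≤ 2 * d.l₀ q + 5 * q.R := by
    have a1 := mul_back' h0 hR (tfs_lt (σ := q.σ) (R := q.R) (l := d.l) hz)
    have a2 : 0 ≤ √(q.R ^ 2 + HY.sq (z.1 - z.2)) := Real.sqrt_nonneg _
    have a3 := l₀_nonneg hq h
    have a4 : 0 < q.R / q.σ := by positivity
    linarith
  have c2 := fd_u0 hq h c1 v
  have e : d.tfs q = fun z => 1000 / 3 * q.σ / q.R * (d.l z.1 + d.l z.2) +
      1000 / 3 * q.σ / q.R * (4 / 5) * √(q.R ^ 2 + HY.sq (z.1 - z.2)) + 3 := by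
    funext w
    rw [tfs_eq]
    unfold tfs
    ring
  rw [e, fderiv_add_const, fderiv_fun_add (hu.const_mul _) (hr.differentiableAt.const_mul _),
    fderiv_const_mul hu, fderiv_const_mul hr.differentiableAt]
  simp only [add_apply, smul_apply, smul_eq_mul]
  refine (abs_add_le _ _).trans ?_
  rw [abs_mul, abs_mul (1000 / 3 * q.σ / q.R * (4 / 5)),
    abs_of_pos (show 0 < 1000 / 3 * q.σ / q.R by positivity),
    abs_of_pos (show 0 < 1000 / 3 * q.σ / q.R * (4 / 5) by positivity)]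
  have k1 : 1000 / 3 * q.σ / q.R * |fderiv ℝ (fun z : VV n => d.l z.1 + d.l z.2) z v| ≤
      1000 / 3 * q.σ / q.R * (2 * en2 v) := mul_le_mul_of_nonneg_left c2 (by positivity)
  have k2 : 1000 / 3 * q.σ / q.R * (4 / 5) *
      |fderiv ℝ (fun z : VV n => √(q.R ^ 2 + HY.sq (z.1 - z.2))) z v| ≤
      1000 / 3 * q.σ / q.R * (4 / 5) * en2 v := mul_le_mul_of_nonneg_left c0 (by positivity)
  have k3 : 0 ≤ q.σ / q.R * en2 v := by positivity
  calc _ ≤ 1000 / 3 * q.σ / q.R * (2 * en2 v) + 1000 / 3 * q.σ / q.R * (4 / 5) * en2 v :=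
        add_le_add k1 k2
    _ = 2800 / 3 * (q.σ / q.R * en2 v) := by ring
    _ ≤ 1000 * (q.σ / q.R * en2 v) := by linarith
    _ = _ := by ring

/-- The derivatives on the three layers, one constant. -/
theorem on_dt (hq : InfC q) (h : PkOk q d) (v : VV n) {i : Cut} (hi : i = .inf ∨ i = .hi ∨ i = .fs) :
    on (d.cv q i z) * |fderiv ℝ (d.cv q i) z v| ≤ 300 / (q.κ₁ * q.R) * en2 v := by
  have hR := hq.R0
  have hk := hq.κ0
  have hv := en2_nonneg v
  have k3 : 50 ≤ 1 / q.κ₁ := by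
    rw [le_div_iff₀ hk]; linarith [hq.κ1]
  have hle : ∀ a : ℝ, a ≤ 300 / (q.κ₁ * q.R) * en2 v → ∀ t : ℝ, 0 ≤ a → on t * a ≤
      300 / (q.κ₁ * q.R) * en2 v := fun a ha t h0 =>
    (mul_le_of_le_one_left h0 (on_le t)).trans ha
  have e1 : 300 / (q.κ₁ * q.R) * en2 v = 300 * (1 / q.κ₁) * (en2 v / q.R) := by
    field_simp
  rcases hi with rfl | rfl | rfl
  · exact hle _ (dtinf hq h v) _ (abs_nonneg _)
  · refine hle _ ((dthi hq h v).trans ?_) _ (abs_nonneg _)
    rw [e1]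
    calc 400 / q.R * en2 v = 400 * (en2 v / q.R) := by ring
      _ ≤ _ := mul_le_mul_of_nonneg_right (by linarith) (by positivity)
  · by_cases ht : 0 < d.cv q .fs z ∧ d.cv q .fs z < 1
    · refine hle _ ((dtfs hq h v ht.2).trans ?_) _ (abs_nonneg _)
      rw [e1]
      have := hq.σ1
      calc 1000 * q.σ / q.R * en2 v = 1000 * q.σ * (en2 v / q.R) := by ring
        _ ≤ _ := mul_le_mul_of_nonneg_right (by linarith) (by positivity)
    · rw [on_zero ht, zero_mul]
      positivity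

end Vale.Agent.P088.R2.H404.INF
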