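import Vale.Agent.P088.R2.H404.INF.ZH
import Vale.Agent.P088.R2.H380.INF.Sbp
import Vale.Agent.P088.R2.H168.INF.Half
import Vale.Agent.P088.R2.H493.INF.RowC

/-!
# P088, stage 3, zone INF: the error of the splitting of the leaf iH
-/

open Set Filter MeasureTheory
open scoped ContDiff Topology Matrix

noncomputable section

namespace Vale.Agent.P088.R2.H404.INF

open Vale.Agent.P088.LR Vale.Agent.P088.HY Vale.Agent.P088.R2.H31.EP Vale.Agent.P088.R2.H961.GW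
open Vale.Agent.P088.R2.H168.INF Vale.Agent.P088.R2.H960.W Vale.Agent.P088.R2.H551.E
open Vale.Agent.P088.R2.H475 Vale.Agent.P088.R2.H644

variable {n : ℕ}

section slot

variable {E : Type*} [NormedAddCommGroup E] [NormedSpace ℝ E] {σ : Sl E (Fin n)} {π : E → V n}
  {s : MF n} {g f : E → ℝ} {T T₁ T₂ T₃ T₄ : ℝ → ℝ} {z : E} {ε R sg kap Gs b₁ b₂ b₃ : ℝ}

/-- The data of one slot at a flat point: `W = g + (T ∘ l + f)`, `f` a function of the other
variable. -/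
structure Tp (σ : Sl E (Fin n)) (π : E → V n) (s : MF n) (ε R sg kap Gs : ℝ) (g f : E → ℝ)
    (T T₁ T₂ T₃ T₄ : ℝ → ℝ) (b₁ b₂ b₃ : ℝ) (z : E) : Prop where
  p : Pj σ π s
  m : Mt ε R s
  ok : σ.Ok univ 1
  hn : 1 ≤ n
  h0 : 0 < sg
  h1 : sg ≤ 1 / 5000
  hR : 1 ≤ R
  hz : z ∈ Fl π sg R kap Gs
  q2 : HY.sq (wR n sg R (π z)) ≤ 2
  c0 : Ch.Cp univ (fun z => levG n sg R kap Gs (π z)) T T₁ T₂
  c1 : Ch.Cp univ (fun z => levG n sg R kap Gs (π z)) T₁ T₂ T₃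
  c2 : Ch.Cp univ (fun z => levG n sg R kap Gs (π z)) T₂ T₃ T₄
  gs : Sm univ g
  fs : Sm univ f
  f0 : ∀ i z, σ.D i f z = 0
  B1 : 0 ≤ b₁
  B2 : 0 ≤ b₂
  B3 : 0 ≤ b₃
  d1 : ∀ i, |σ.D i g z| ≤ b₁
  d2 : ∀ i j, |σ.D i (σ.D j g) z| ≤ b₂
  d3 : ∀ i, |σ.D i (σ.Λ g) z| ≤ b₃

variable (t : Tp σ π s ε R sg kap Gs g f T T₁ T₂ T₃ T₄ b₁ b₂ b₃ z)
include t

theorem Tp.R0 : 0 < R := by linarith [t.hR]

theorem Tp.sL : Sm univ fun z => levG n sg R kap Gs (π z) := t.c0.su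

theorem Tp.wi (i : Fin n) : |wR n sg R (π z) i| ≤ 2 := by
  have h1 : wR n sg R (π z) i ^ 2 ≤ HY.sq (wR n sg R (π z)) :=
    Finset.single_le_sum (f := fun i => wR n sg R (π z) i ^ 2) (fun _ _ => sq_nonneg _)
      (Finset.mem_univ i)
  have := t.q2
  refine abs_le_of_sq_le_sq ?_ (by norm_num)
  linarith

theorem Tp.D (i : Fin n) (w : E) : σ.D i (fun z => g z + (T (levG n sg R kap Gs (π z)) + f z)) w =
    σ.D i g w + T₁ (levG n sg R kap Gs (π w)) * σ.D i (fun z => levG n sg R kap Gs (π z)) w := by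
  rw [D_add σ isOpen_univ t.gs (t.c0.s0.add t.fs) i (mem_univ w),
    D_add σ isOpen_univ t.c0.s0 t.fs i (mem_univ w), t.f0, Ch.D_comp isOpen_univ t.c0 i (mem_univ w)]
  ring

/-- The gain. -/
theorem Tp.F_ge : T₁ (levG n sg R kap Gs (π z)) ^ 2 / 2 - n * b₁ ^ 2 ≤
    σ.F (fun z => g z + (T (levG n sg R kap Gs (π z)) + f z)) z := by
  have hR := t.R0
  have e : σ.F (fun z => g z + (T (levG n sg R kap Gs (π z)) + f z)) z =
      ∑ i, (σ.D i g z + T₁ (levG n sg R kap Gs (π z)) * wR n sg R (π z) i) ^ 2 := by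
    have e1 : σ.F (fun z => g z + (T (levG n sg R kap Gs (π z)) + f z)) z =
        σ.Γ (fun z => g z + (T (levG n sg R kap Gs (π z)) + f z))
          (fun z => g z + (T (levG n sg R kap Gs (π z)) + f z)) z := rfl
    rw [e1, Fl_G t.p t.m t.hn t.h0 t.h1 hR t.hz]
    refine Finset.sum_congr rfl fun i _ => ?_
    rw [t.D, Fl_D t.p t.m t.hn t.h0 t.h1 hR t.hz]; ring
  rw [e]
  have h1 : ∀ i, T₁ (levG n sg R kap Gs (π z)) ^ 2 / 2 * wR n sg R (π z) i ^ 2 - b₁ ^ 2 ≤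
      (σ.D i g z + T₁ (levG n sg R kap Gs (π z)) * wR n sg R (π z) i) ^ 2 := by
    intro i
    have h2 : σ.D i g z ^ 2 ≤ b₁ ^ 2 := by
      rw [← sq_abs]
      exact pow_le_pow_left₀ (abs_nonneg _) (t.d1 i) 2
    nlinarith [sq_nonneg (2 * σ.D i g z + T₁ (levG n sg R kap Gs (π z)) * wR n sg R (π z) i)]
  have h2 := Finset.sum_le_sum fun i (_ : i ∈ Finset.univ) => h1 i
  rw [Finset.sum_sub_distrib, ← Finset.mul_sum, Finset.sum_const, Finset.card_univ,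
    Fintype.card_fin, nsmul_eq_mul] at h2
  have h3 : ∑ i, wR n sg R (π z) i ^ 2 = HY.sq (wR n sg R (π z)) := rfl
  rw [h3] at h2
  have h4 := Fl_q t.p t.m t.hn t.h0 t.h1 hR t.hz
  have h5 := mul_le_mul_of_nonneg_left h4
    (by positivity : 0 ≤ T₁ (levG n sg R kap Gs (π z)) ^ 2 / 2)
  linarith

omit t in
theorem HH_le_flat' (p : Pj σ π s) (m : Mt ε R s) (hn : 1 ≤ n) (h0 : 0 < sg)
    (h1 : sg ≤ 1 / 5000) (hR : 0 < R) (hz : z ∈ Fl π sg R kap Gs) {b : ℝ}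
    (hb : ∀ i j, |σ.D i (σ.D j f) z| ≤ b) (A : Fin n → ℝ) :
    |HH σ f z A| ≤ b * (n * ∑ i, A i ^ 2) := by
  rw [Fl_HH p m hn h0 h1 hR hz]
  have b0 : 0 ≤ b := (abs_nonneg _).trans (hb ⟨0, by omega⟩ ⟨0, by omega⟩)
  refine (quad_le b (fun i j => ?_) A).trans (mul_le_mul_of_nonneg_left (a1_sq A) b0)
  rw [abs_mul, abs_of_pos (by norm_num : (0 : ℝ) < 1 / 2)]
  have := abs_add_le (σ.D i (σ.D j f) z) (σ.D j (σ.D i f) z)
  have h2 := hb i j
  have h3 := hb j i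
  linarith

omit t in
theorem HH_zero' (hf : ∀ i z, σ.D i f z = 0) (A : Fin n → ℝ) : HH σ f z A = 0 := by
  have e : ∀ j k, σ.D j (σ.D k f) z = 0 := fun j k => by
    have : σ.D k f = fun _ => 0 := funext fun w => hf k w
    rw [this, D_const]
  unfold HH Sl.Hc
  simp only [e, hf]
  simp

/-- The Hessian form on the gradient of the level. -/
theorem Tp.HHw : |HH σ (fun z => g z + (T (levG n sg R kap Gs (π z)) + f z)) z
    (fun i => σ.D i (fun z => levG n sg R kap Gs (π z)) z)| ≤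
    2 * (n * b₂) + 2 * |T₁ (levG n sg R kap Gs (π z))| + 4 * |T₂ (levG n sg R kap Gs (π z))| := by
  have hR := t.R0
  have eD : (fun i => σ.D i (fun z => levG n sg R kap Gs (π z)) z) =
      fun i => wR n sg R (π z) i :=
    funext fun i => Fl_D t.p t.m t.hn t.h0 t.h1 hR t.hz i
  have eq0 : ∑ i, (fun i => wR n sg R (π z) i) i ^ 2 = HY.sq (wR n sg R (π z)) := rfl
  have eS : ∑ i, σ.D i (fun z => levG n sg R kap Gs (π z)) z ^ 2 = HY.sq (wR n sg R (π z)) := by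
    unfold HY.sq
    exact Finset.sum_congr rfl fun i _ => by rw [Fl_D t.p t.m t.hn t.h0 t.h1 hR t.hz i]
  rw [HH_eq_add t.ok t.gs (t.c0.s0.add t.fs) (mem_univ z), HH_eq_add t.ok t.c0.s0 t.fs (mem_univ z),
    HH_zero' t.f0, HH_comp t.ok t.c0 (mem_univ z), gA_DW, Fl_GL t.p t.m t.hn t.h0 t.h1 hR t.hz,
    Fl_HL t.p t.m t.hn t.h0 t.h1 hR t.hz, Fl_ss t.p t.m t.hn t.h0 t.h1 hR t.hz, eS, eD]
  have h1 := HH_le_flat' t.p t.m t.hn t.h0 t.h1 hR t.hz t.d2 fun i => wR n sg R (π z) i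
  rw [eq0] at h1
  have q0 : 0 ≤ HY.sq (wR n sg R (π z)) := sq0 _
  have q2 := t.q2
  have hb := t.B2
  have hn0 : (0 : ℝ) ≤ n := Nat.cast_nonneg n
  have s1 : 0 ≤ sg / R := div_nonneg t.h0.le hR.le
  have s2 : sg / R ≤ 1 := by
    rw [div_le_one hR]
    linarith [t.h1, t.hR]
  have k1 : |HH σ g z fun i => wR n sg R (π z) i| ≤ 2 * (n * b₂) := by
    refine h1.trans ?_
    have := mul_le_mul_of_nonneg_left q2 (mul_nonneg hn0 hb)
    linarith
  have k2 : |T₁ (levG n sg R kap Gs (π z)) * (sg / R * HY.sq (wR n sg R (π z)))| ≤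
      2 * |T₁ (levG n sg R kap Gs (π z))| := by
    rw [abs_mul, abs_of_nonneg (mul_nonneg s1 q0)]
    have : sg / R * HY.sq (wR n sg R (π z)) ≤ 2 := by nlinarith
    have := mul_le_mul_of_nonneg_left this (abs_nonneg (T₁ (levG n sg R kap Gs (π z))))
    linarith
  have k3 : |T₂ (levG n sg R kap Gs (π z)) * HY.sq (wR n sg R (π z)) ^ 2| ≤
      4 * |T₂ (levG n sg R kap Gs (π z))| := by
    rw [abs_mul, abs_of_nonneg (sq_nonneg (HY.sq (wR n sg R (π z))))]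
    have : HY.sq (wR n sg R (π z)) ^ 2 ≤ 4 := by nlinarith
    have := mul_le_mul_of_nonneg_left this (abs_nonneg (T₂ (levG n sg R kap Gs (π z))))
    linarith
  have k4 := abs_add3 k1 k2 k3
  rw [add_zero, ← add_assoc]
  exact k4

/-- `Γ(l, Λ W)`. -/
theorem Tp.GL : |σ.Γ (fun z => levG n sg R kap Gs (π z))
    (σ.Λ fun z => g z + (T (levG n sg R kap Gs (π z)) + f z)) z| ≤
    2 * (n * b₃) + (2 * n + 4) * |T₂ (levG n sg R kap Gs (π z))| +
      4 * |T₃ (levG n sg R kap Gs (π z))| := by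
  have hR := t.R0
  have L0 : ∀ w, σ.Λ f w = 0 := by
    intro w
    have e : ∀ j k, σ.D j (σ.D k f) w = 0 := fun j k => by
      have : σ.D k f = fun _ => 0 := funext fun w => t.f0 k w
      rw [this, D_const]
    unfold Sl.Λ
    simp only [e, t.f0]
    simp
  have eΛ : (σ.Λ fun z => g z + (T (levG n sg R kap Gs (π z)) + f z)) =
      fun w => σ.Λ g w + (T₁ (levG n sg R kap Gs (π w)) *
        σ.Λ (fun z => levG n sg R kap Gs (π z)) w + T₂ (levG n sg R kap Gs (π w)) *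
        σ.Γ (fun z => levG n sg R kap Gs (π z)) (fun z => levG n sg R kap Gs (π z)) w) := by
    funext w
    rw [L_add t.ok t.gs (t.c0.s0.add t.fs) (mem_univ w), L_add t.ok t.c0.s0 t.fs (mem_univ w), L0,
      Ch.L_comp t.ok t.c0 (mem_univ w), add_zero]
  have sLL := t.ok.sL t.sL
  have sGG := t.ok.sG t.sL t.sL
  rw [eΛ, G_add t.ok _ (t.ok.sL t.gs) ((t.c0.s1.mul sLL).add (t.c1.s1.mul sGG)) (mem_univ z),
    G_add t.ok _ (t.c0.s1.mul sLL) (t.c1.s1.mul sGG) (mem_univ z),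
    G_mul t.ok _ t.c0.s1 sLL (mem_univ z), G_mul t.ok _ t.c1.s1 sGG (mem_univ z),
    Ch.G_comp t.ok _ t.c1 (mem_univ z), Ch.G_comp t.ok _ t.c2 (mem_univ z),
    Fl_GLL t.p t.m t.hn t.h0 t.h1 hR t.hz, Fl_GG t.p t.m t.hn t.h0 t.h1 hR t.hz,
    Fl_GL t.p t.m t.hn t.h0 t.h1 hR t.hz, Fl_LL t.p t.m t.hn t.h0 t.h1 hR t.hz]
  have q0 : 0 ≤ HY.sq (wR n sg R (π z)) := sq0 _
  have q2 := t.q2
  have hb := t.B3
  have hn0 : (0 : ℝ) ≤ n := Nat.cast_nonneg n
  have s1 : 0 ≤ sg / R := div_nonneg t.h0.le hR.le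
  have s2 : sg / R ≤ 1 := by
    rw [div_le_one hR]
    linarith [t.h1, t.hR]
  have k1 : |σ.Γ (fun z => levG n sg R kap Gs (π z)) (σ.Λ g) z| ≤ 2 * (n * b₃) := by
    rw [Fl_G t.p t.m t.hn t.h0 t.h1 hR t.hz]
    simp only [Fl_D t.p t.m t.hn t.h0 t.h1 hR t.hz]
    have : |∑ i, wR n sg R (π z) i * σ.D i (σ.Λ g) z| ≤ n * (2 * b₃) := by
      refine H464.Cu.sum_le1 fun i => ?_
      rw [abs_mul]
      exact mul_le_mul (t.wi i) (t.d3 i) (abs_nonneg _) (by norm_num)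
    linarith
  have e : T₁ (levG n sg R kap Gs (π z)) * 0 + n * (sg / R) * (T₂ (levG n sg R kap Gs (π z)) *
      HY.sq (wR n sg R (π z))) + (T₂ (levG n sg R kap Gs (π z)) *
      (2 * (sg / R) * HY.sq (wR n sg R (π z))) + HY.sq (wR n sg R (π z)) *
      (T₃ (levG n sg R kap Gs (π z)) * HY.sq (wR n sg R (π z)))) =
      T₂ (levG n sg R kap Gs (π z)) * ((n + 2) * (sg / R * HY.sq (wR n sg R (π z)))) +
      T₃ (levG n sg R kap Gs (π z)) * HY.sq (wR n sg R (π z)) ^ 2 := by ring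
  rw [e]
  have k0 : sg / R * HY.sq (wR n sg R (π z)) ≤ 2 := by nlinarith
  have k2 : |T₂ (levG n sg R kap Gs (π z)) * ((n + 2) * (sg / R * HY.sq (wR n sg R (π z))))| ≤
      (2 * n + 4) * |T₂ (levG n sg R kap Gs (π z))| := by
    rw [abs_mul, abs_of_nonneg (mul_nonneg (by positivity : (0 : ℝ) ≤ (n : ℝ) + 2)
      (mul_nonneg s1 q0))]
    have h1 := mul_le_mul_of_nonneg_left k0 (by positivity : (0 : ℝ) ≤ (n : ℝ) + 2)
    have := mul_le_mul_of_nonneg_left h1 (abs_nonneg (T₂ (levG n sg R kap Gs (π z))))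
    linarith
  have k3 : |T₃ (levG n sg R kap Gs (π z)) * HY.sq (wR n sg R (π z)) ^ 2| ≤
      4 * |T₃ (levG n sg R kap Gs (π z))| := by
    rw [abs_mul, abs_of_nonneg (sq_nonneg (HY.sq (wR n sg R (π z))))]
    have : HY.sq (wR n sg R (π z)) ^ 2 ≤ 4 := by nlinarith
    have := mul_le_mul_of_nonneg_left this (abs_nonneg (T₃ (levG n sg R kap Gs (π z))))
    linarith
  have k4 := abs_add3 k1 k2 k3
  rw [← add_assoc]
  exact k4

/-- **The error of the splitting is absorbed by the gain.** -/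
theorem Tp.ex {k lam A : ℝ} (k0 : 0 ≤ k) (k1 : k ≤ 160 / R)
    (T1 : A / 4 ≤ T₁ (levG n sg R kap Gs (π z))) (A0 : 100000 ≤ A)
    (hl : 1 / 100 * (sg / R) * T₁ (levG n sg R kap Gs (π z)) ≤ lam) (hb : n * b₁ ^ 2 ≤ A ^ 2 / 64)
    (hB : 10000000 * ((n + 1) * (b₂ + b₃ + |T₁ (levG n sg R kap Gs (π z))| +
      |T₂ (levG n sg R kap Gs (π z))| + |T₃ (levG n sg R kap Gs (π z))|)) ≤
      sg / R * A ^ 3 / 1100000) :
    k ^ 2 * (4 * lam * σ.Γ (fun z => levG n sg R kap Gs (π z))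
        (fun z => levG n sg R kap Gs (π z)) z +
      32 * HH σ (fun z => g z + (T (levG n sg R kap Gs (π z)) + f z)) z
        (fun i => σ.D i (fun z => levG n sg R kap Gs (π z)) z)) +
      16 * (k * |σ.Γ (fun z => levG n sg R kap Gs (π z))
        (σ.Λ fun z => g z + (T (levG n sg R kap Gs (π z)) + f z)) z|) ≤
    lam * σ.F (fun z => g z + (T (levG n sg R kap Gs (π z)) + f z)) z / 20 := by
  have hR := t.R0
  have F := t.F_ge
  have H := (abs_le.1 t.HHw).2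
  have G := t.GL
  have e := Fl_GL t.p t.m t.hn t.h0 t.h1 hR t.hz
  rw [e]
  set FW := σ.F (fun z => g z + (T (levG n sg R kap Gs (π z)) + f z)) z
  set HW := HH σ (fun z => g z + (T (levG n sg R kap Gs (π z)) + f z)) z
        (fun i => σ.D i (fun z => levG n sg R kap Gs (π z)) z)
  set GW := |σ.Γ (fun z => levG n sg R kap Gs (π z))
        (σ.Λ fun z => g z + (T (levG n sg R kap Gs (π z)) + f z)) z|
  set t1 := T₁ (levG n sg R kap Gs (π z))
  set t2 := T₂ (levG n sg R kap Gs (π z))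
  set t3 := T₃ (levG n sg R kap Gs (π z))
  set q := HY.sq (wR n sg R (π z))
  have q0 : 0 ≤ q := sq0 _
  have q2 : q ≤ 2 := t.q2
  have hb2 := t.B2
  have hb3 := t.B3
  have hn0 : (0 : ℝ) ≤ n := Nat.cast_nonneg n
  have A00 : 0 < A := by linarith
  have t10 : 0 < t1 := by linarith
  have s1 : 0 < sg / R := div_pos t.h0 hR
  have lam0 : 0 < lam := lt_of_lt_of_le (by positivity) hl
  have kk : k ≤ 160 := k1.trans (by rw [div_le_iff₀ hR]; linarith [t.hR])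
  have kk2 : k ^ 2 ≤ 25600 := by
    calc k ^ 2 ≤ 160 ^ 2 := pow_le_pow_left₀ k0 kk 2
      _ = 25600 := by norm_num
  -- the gain
  have F1 : t1 ^ 2 / 4 ≤ FW := by
    have : A ^ 2 / 64 ≤ t1 ^ 2 / 4 := by
      have := pow_le_pow_left₀ (by positivity) T1 2
      linarith [show (A / 4) ^ 2 = A ^ 2 / 16 by ring]
    linarith
  have F2 : A ^ 2 / 64 ≤ FW := by
    have := pow_le_pow_left₀ (by positivity) T1 2
    linarith [show (A / 4) ^ 2 = A ^ 2 / 16 by ring]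
  have F3 : 8192000 ≤ FW := by
    have : (100000 : ℝ) ^ 2 ≤ A ^ 2 := pow_le_pow_left₀ (by norm_num) A0 2
    linarith
  have m1 : 4 * lam * q * k ^ 2 ≤ lam * FW / 40 := by
    have a1 : 4 * lam * q * k ^ 2 ≤ 4 * lam * 2 * 25600 := by gcongr
    have a2 := mul_le_mul_of_nonneg_left F3 lam0.le
    linarith
  have m2 : sg / R * A ^ 3 / 1100000 ≤ lam * FW / 40 := by
    have a1 : 1 / 100 * (sg / R) * (A / 4) ≤ lam :=
      (mul_le_mul_of_nonneg_left T1 (by positivity)).trans hl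
    have a2 : 1 / 100 * (sg / R) * (A / 4) * (A ^ 2 / 64) ≤ lam * FW :=
      mul_le_mul a1 F2 (by positivity) lam0.le
    have a3 : 0 ≤ sg / R * A ^ 3 := by positivity
    linarith [show 1 / 100 * (sg / R) * (A / 4) * (A ^ 2 / 64) = sg / R * A ^ 3 / 25600 by ring]
  have m3 : k ^ 2 * (32 * HW) ≤ 25600 * 32 * (2 * (n * b₂) + 2 * |t1| + 4 * |t2|) := by
    have a1 : k ^ 2 * (32 * HW) ≤ k ^ 2 * (32 * (2 * (n * b₂) + 2 * |t1| + 4 * |t2|)) := by gcongr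
    have a2 : k ^ 2 * (32 * (2 * (n * b₂) + 2 * |t1| + 4 * |t2|)) ≤
        25600 * (32 * (2 * (n * b₂) + 2 * |t1| + 4 * |t2|)) := by gcongr
    linarith
  have m4 : 16 * (k * GW) ≤ 2560 * (2 * (n * b₃) + (2 * n + 4) * |t2| + 4 * |t3|) := by
    have g0 : 0 ≤ 2 * (n * b₃) + (2 * n + 4) * |t2| + 4 * |t3| := by positivity
    have a1 : k * GW ≤ 160 * (2 * (n * b₃) + (2 * n + 4) * |t2| + 4 * |t3|) :=
      mul_le_mul kk G (abs_nonneg _) (by norm_num)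
    linarith
  have m5 : 25600 * 32 * (2 * (n * b₂) + 2 * |t1| + 4 * |t2|) +
      2560 * (2 * (n * b₃) + (2 * n + 4) * |t2| + 4 * |t3|) ≤
      10000000 * ((n + 1) * (b₂ + b₃ + |t1| + |t2| + |t3|)) := by
    have c1 := mul_nonneg hn0 hb2
    have c2 := mul_nonneg hn0 hb3
    have c3 := mul_nonneg hn0 (abs_nonneg t1)
    have c4 := mul_nonneg hn0 (abs_nonneg t2)
    have c5 := mul_nonneg hn0 (abs_nonneg t3)
    have c6 := abs_nonneg t1
    have c7 := abs_nonneg t2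
    have c8 := abs_nonneg t3
    linarith
  linarith

end slot

end Vale.Agent.P088.R2.H404.INF
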