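import Vale.Agent.P088.R2.H404.INF.Ex
import Vale.Agent.P088.R2.H404.INF.RowL

/-!
# P088, stage 3, zone INF: the error of the splitting of the leaf iH, on the package
-/

open Set Filter MeasureTheory
open scoped ContDiff Topology Matrix

noncomputable section

namespace Vale.Agent.P088.R2.H404.INF

open Vale.Agent.P088.LR Vale.Agent.P088.HY Vale.Agent.P088.R2.H31.EP Vale.Agent.P088.R2.H961.GW
open Vale.Agent.P088.R2.H168.INF Vale.Agent.P088.R2.H960.W Vale.Agent.P088.R2.H551.E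
open Vale.Agent.P088.R2.H475 Vale.Agent.P088.R2.H644 Vale.Agent.P088.R2.H380.INF
open Vale.Agent.P088.R2.H493.INF

variable {n : ℕ} {q : Cst} {d : Pk n} {z : VV n}

/-- The part of the weight without `Θ`. -/
def gH (q : Cst) (d : Pk n) (z : VV n) : ℝ := W0 q d (d.P z.1, d.P z.2)

theorem W_gx (h : PkOk q d) : d.W q = fun z => gH q d z +
    (d.Θ (levG n q.σ q.R d.kap d.Gs z.1) + d.Θ (d.l z.2)) := by
  have hl := h.lev.lit
  funext z
  rw [← hl]
  rfl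

theorem W_gy (h : PkOk q d) : d.W q = fun z => gH q d z +
    (d.Θ (levG n q.σ q.R d.kap d.Gs z.2) + d.Θ (d.l z.1)) := by
  have hl := h.lev.lit
  funext z
  rw [← hl]
  show gH q d z + (d.Θ (d.l z.1) + d.Θ (d.l z.2)) = _
  ring

theorem gH_sm (s : SN n q) (h : PkOk q d) : ContDiff ℝ ∞ (gH q d) := by
  have e : gH q d = fun z => W0 q d (d.P z.1, d.P z.2) := rfl
  rw [e]
  exact (s.W0_sm h).comp ((h.ret.sm.comp contDiff_fst).prodMk (h.ret.sm.comp contDiff_snd))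

/-- The tensors satisfy the bounds of `sb_pt`. -/
theorem s_b {s : MF n} {ε R : ℝ} (hR : 1 ≤ R) (hε : ε ≤ 1)
    (hc : ∀ i j, ∀ m ≤ 3, ∀ x, ‖iteratedFDeriv ℝ m (fun x => s x i j -
      (1 : Matrix (Fin n) (Fin n) ℝ) i j) x‖ ≤ ε * R⁻¹ ^ m) (i j : Fin n) (m : ℕ) (hm : m ≤ 3)
    (x : V n) : ‖iteratedFDeriv ℝ m (fun x => s x i j) x‖ ≤ 2 * R⁻¹ ^ m := by
  have hi : 0 ≤ R⁻¹ := inv_nonneg.2 (by linarith)
  rcases Nat.eq_zero_or_pos m with rfl | h1
  · have h2 := hc i j 0 hm x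
    rw [norm_iteratedFDeriv_zero, pow_zero, mul_one, Real.norm_eq_abs] at h2
    rw [norm_iteratedFDeriv_zero, pow_zero, mul_one, Real.norm_eq_abs]
    have h3 : |(1 : Matrix (Fin n) (Fin n) ℝ) i j| ≤ 1 := by
      rw [Matrix.one_apply]
      split_ifs <;> simp
    have h4 := abs_add_le (s x i j - (1 : Matrix (Fin n) (Fin n) ℝ) i j)
      ((1 : Matrix (Fin n) (Fin n) ℝ) i j)
    rw [sub_add_cancel] at h4
    linarith
  · have h2 := hc i j m hm x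
    rw [it_sub_const _ _ h1] at h2
    exact h2.trans (mul_le_mul_of_nonneg_right (by linarith) (pow_nonneg hi _))

theorem bsH (hq : InfC q) (he : EpsC n q) (s : SN n q) (h : PkOk q d) :
    Bs q.R d.s₁ d.s₂ (gH q d) := by
  have hε : q.ε ≤ 1 := by
    have h1 := he.ε1
    have h2 : 1 ≤ cL n := by
      unfold cL
      have : (1 : ℝ) ≤ ((n : ℝ) + 1) ^ 4 := one_le_pow₀ (by
        have := Nat.cast_nonneg (α := ℝ) n
        linarith)
      linarith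
    have h3 := mul_le_mul_of_nonneg_right h2 he.ε0.le
    linarith [hq.σ1]
  exact ⟨hq.R1, h.rg.sm₁, h.rg.sm₂, fun x i j => ((h.rg.sy₁ x).apply i j).symm,
    fun x i j => ((h.rg.sy₂ x).apply i j).symm,
    fun i j m hm x => s_b hq.R1 hε (fun i j m hm x => h.rg.cl₁ i j m (hm.trans (by norm_num)) x)
      i j m hm x,
    fun i j m hm x => s_b hq.R1 hε (fun i j m hm x => h.rg.cl₂ i j m (hm.trans (by norm_num)) x)
      i j m hm x, gH_sm s h⟩

/-- A function of the second variable. -/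
theorem Dxy0 {f : V n → ℝ} (hf : ContDiff ℝ ∞ f) (i : Fin n) (z : VV n) :
    d.sx.D i (fun z => f z.2) z = 0 := by
  rw [show d.sx.D i (fun z : VV n => f z.2) z = fderiv ℝ (fun z : VV n => f z.2) z
    (Pi.single i 1, 0) from H464.Cu.Dx1 i _ z]
  have h1 : HasFDerivAt (fun z : VV n => f z.2) _ z :=
    ((hf.differentiable (by simp)) z.2).hasFDerivAt.comp z hasFDerivAt_snd
  rw [h1.fderiv]
  simp

/-- A function of the first variable. -/
theorem Dyx0 {f : V n → ℝ} (hf : ContDiff ℝ ∞ f) (i : Fin n) (z : VV n) :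
    d.sy.D i (fun z => f z.1) z = 0 := by
  rw [show d.sy.D i (fun z : VV n => f z.1) z = fderiv ℝ (fun z : VV n => f z.1) z
    (0, Pi.single i 1) from H464.Cu.Dy1 i _ z]
  have h1 : HasFDerivAt (fun z : VV n => f z.1) _ z :=
    ((hf.differentiable (by simp)) z.1).hasFDerivAt.comp z hasFDerivAt_fst
  rw [h1.fderiv]
  simp

/-- The derivatives of a smooth function of one variable. -/
theorem cp_of {E : Type*} [NormedAddCommGroup E] [NormedSpace ℝ E] {u : E → ℝ} {T : ℝ → ℝ}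
    (hu : Sm univ u) (hT : ContDiff ℝ ∞ T) :
    Ch.Cp univ u T (deriv T) (deriv (deriv T)) := by
  have h1 : ContDiff ℝ ∞ (deriv T) := by
    have := hT.iterate_deriv 1
    simpa using this
  exact Ch.Cp.of hu hT h1 (fun t => ((hT.differentiable (by simp)) t).hasDerivAt)
    fun t => ((h1.differentiable (by simp)) t).hasDerivAt

theorem cd_dT {T : ℝ → ℝ} (hT : ContDiff ℝ ∞ T) : ContDiff ℝ ∞ (deriv T) := by
  have := hT.iterate_deriv 1
  simpa using this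

/-- The constant. -/
def KE (n : ℕ) (C : ℝ) (q : Cst) : ℝ :=
  11 * 10 ^ 12 * ((n + 1) * (5 * C + 2 + thC 1 * (q.L₄ + 1) + thC 2 * (q.L₄ ^ 2 + 1))) / q.σ

/-- The conditions. -/
structure ExC (n : ℕ) (C : ℝ) (q : Cst) : Prop where
  a1 : 100000 ≤ q.A₄
  a2 : q.R ^ 4 ≤ q.A₄
  a3 : 64 * n * C ^ 2 ≤ q.A₄
  a4 : KE n C q * q.R ≤ q.A₄
  C1 : 1 ≤ q.C₄
  M1 : 1 ≤ q.M₀

theorem ev_exC (n : ℕ) (C : ℝ) : EvC (ExC n C) := by
  have te : Tendsto Real.exp atTop atTop := Real.tendsto_exp_atTop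
  have h1 : EvC fun q => 100000 ≤ Real.exp q.R :=
    EvC.at_R (fun _ t => 100000 ≤ Real.exp t) fun _ => te.eventually_ge_atTop _
  have h2 : EvC fun q => q.R ^ 4 ≤ Real.exp q.R := by
    refine EvC.at_R (fun _ t => t ^ 4 ≤ Real.exp t) fun _ => ?_
    have := Real.isLittleO_pow_exp_atTop (n := 4)
    filter_upwards [this.bound (c := 1) one_pos, eventually_ge_atTop 0] with t ht h0
    rw [one_mul, Real.norm_eq_abs, Real.norm_eq_abs, abs_of_nonneg (by positivity),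
      abs_of_pos (Real.exp_pos _)] at ht
    exact ht
  have h3 : EvC fun q => 64 * n * C ^ 2 ≤ Real.exp q.R :=
    EvC.at_R (fun _ t => 64 * n * C ^ 2 ≤ Real.exp t) fun _ => te.eventually_ge_atTop _
  have h4 : EvC fun q => KE n C q * q.R ≤ Real.exp q.R := by
    refine EvC.at_R (fun q t => KE n C q * t ≤ Real.exp t) fun q => ?_
    have := (Real.isLittleO_pow_exp_atTop (n := 1)).const_mul_left (KE n C q)
    filter_upwards [this.bound (c := 1) one_pos, eventually_ge_atTop 0] with t ht h0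
    rw [one_mul, Real.norm_eq_abs, Real.norm_eq_abs, abs_of_pos (Real.exp_pos _), pow_one] at ht
    exact (le_abs_self _).trans ht
  refine ((EvC.pos.and (evInf.and (h1.and h2))).and (h3.and h4)).mono ?_
  rintro q ⟨⟨⟨-, ⟨-, -, -, -, -, -, c1⟩, c2, -⟩, i, a1, a2⟩, a3, a4⟩
  have hA : Real.exp q.R ≤ q.A₄ := by
    unfold Cst.A₄
    refine Real.exp_le_exp.2 ?_
    rw [le_div_iff₀ i.σ0]
    have h1 : q.R * q.σ ≤ q.R * 1 := mul_le_mul_of_nonneg_left (by linarith [i.σ1]) i.R0.le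
    have h2 : 1 * q.R ≤ q.C₄ * q.R := mul_le_mul_of_nonneg_right c1 i.R0.le
    linarith
  exact ⟨a1.trans hA, a2.trans hA, a3.trans hA, a4.trans hA, c1, c2⟩

theorem ExC.L0 {C : ℝ} (e : ExC n C q) (hq : InfC q) : 0 < q.L₄ := by
  unfold Cst.L₄
  have := e.C1
  have := hq.σ0
  positivity

theorem ExC.A0 {C : ℝ} (e : ExC n C q) : 0 < q.A₄ := by linarith [e.a1]

/-- The crude size of the weight. -/
def eH (q : Cst) : ℝ := Real.exp (q.C₄ * (q.R / q.σ) / 100)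

theorem eH_sq (hq : InfC q) (hC : 1 ≤ q.C₄) : eH q ^ 2 ≤ q.A₄ := by
  unfold eH Cst.A₄
  rw [← Real.exp_nat_mul]
  refine Real.exp_le_exp.2 ?_
  have h1 : 0 ≤ q.C₄ * (q.R / q.σ) :=
    mul_nonneg (by linarith) (div_nonneg hq.R0.le hq.σ0.le)
  have h2 : q.C₄ * q.R / q.σ = q.C₄ * (q.R / q.σ) := by ring
  rw [h2]
  push_cast
  linarith

theorem eH_one (hq : InfC q) (hC : 1 ≤ q.C₄) : 1 ≤ eH q := by
  unfold eH
  refine Real.one_le_exp ?_
  have h1 : 0 ≤ q.C₄ * (q.R / q.σ) :=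
    mul_nonneg (by linarith) (div_nonneg hq.R0.le hq.σ0.le)
  linarith

/-- The slot data, abstract slot. -/
theorem tp_of {σ' : Sl (VV n) (Fin n)} {π : VV n → V n} {s : MF n} {C : ℝ} {τ' : Sl (VV n) (Fin n)}
    {f : VV n → ℝ}
    (hn : 1 ≤ n) (hq : InfC q) (hs : SN n q) (h : PkOk q d)
    (hcr : ∀ j, 1 ≤ j → j ≤ 4 → ‖iteratedFDeriv ℝ j (gH q d) z‖ ≤ eH q) (C0 : 0 ≤ C)
    (p : Pj σ' π s) (m : Mt q.ε q.R s) (ok : σ'.Ok univ 1)
    (sb : H269.INF.Sb4 σ' τ' (gH q d) C (fun j => gm q.R (gH q d) j z) z)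
    (fs : Sm univ f) (f0 : ∀ i z, σ'.D i f z = 0)
    (h1 : d.l₀ q + 57 / 20 * q.R < d.l (π z)) (h2 : d.l (π z) < d.l₀ q + 29 / 10 * q.R) :
    Tp σ' π s q.ε q.R q.σ d.kap d.Gs (gH q d) f d.Θ (deriv d.Θ) (deriv (deriv d.Θ))
      (deriv (deriv (deriv d.Θ))) (deriv (deriv (deriv (deriv d.Θ)))) (C * eH q) (C * (2 * eH q))
      (C * (3 * eH q)) z := by
  have e0 : 0 ≤ eH q := (Real.exp_pos _).le
  have hl := h.lev.lit
  have hR := hq.R0
  have hl0 : d.l₀ q = lam0 q.R d.kap d.Gs := rfl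
  have g1 : gm q.R (gH q d) 0 z ≤ eH q := by
    have := gm_le hq.R1 (f := gH q d) (z := z) (k := 3) e0 (fun i h1 h2 => hcr i h1 h2)
      (j := 0) (by norm_num)
    simpa using this
  have g2 : gm q.R (gH q d) 1 z ≤ 2 * eH q := by
    have := gm_le hq.R1 (f := gH q d) (z := z) (k := 3) e0 (fun i h1 h2 => hcr i h1 h2)
      (j := 1) (by norm_num)
    refine this.trans (le_of_eq ?_)
    push_cast; ring
  have g3 : gm q.R (gH q d) 2 z ≤ 3 * eH q := by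
    have := gm_le hq.R1 (f := gH q d) (z := z) (k := 3) e0 (fun i h1 h2 => hcr i h1 h2)
      (j := 2) (by norm_num)
    refine this.trans (le_of_eq ?_)
    push_cast; ring
  have hz : z ∈ Fl π q.σ q.R d.kap d.Gs := by
    show lam0 q.R d.kap d.Gs + 21 / 20 * q.R < levG n q.σ q.R d.kap d.Gs (π z)
    rw [← hl, ← hl0]
    linarith
  have su : Sm univ fun z => levG n q.σ q.R d.kap d.Gs (π z) := by
    rw [← hl]
    exact (h.lev.sm.comp p.cπ).contDiffOn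
  have T0 := h.Θs
  have T1 := cd_dT T0
  have T2 := cd_dT T1
  refine ⟨p, m, ok, hn, hq.σ0, hq.σ1, hq.R1, hz, ?_, cp_of su T0, cp_of su T1, cp_of su T2,
    (gH_sm hs h).contDiffOn, fs, f0, by positivity, by positivity, by positivity,
    fun i => (sb.d1 i).trans (mul_le_mul_of_nonneg_left g1 C0),
    fun i j => (sb.d2 i j).trans (mul_le_mul_of_nonneg_left g2 C0),
    fun i => (sb.l1 i).trans (mul_le_mul_of_nonneg_left g3 C0)⟩
  have h3 := levG_lit (kap := d.kap) (Gs := d.Gs) hq.σ0 hq.σ1 (Fl_th hq.σ0 hq.σ1 hR hz)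
  rw [hl, h3, hl0] at h2
  by_contra hc
  have h4 := not_le.1 hc
  have h5 : q.R / (2 * q.σ) * 1 ≤ q.R / (2 * q.σ) * (HY.sq (wR n q.σ q.R (π z)) - 1) :=
    mul_le_mul_of_nonneg_left (by linarith) (by have := hq.σ0; positivity)
  have h6 : 2500 * q.R ≤ q.R / (2 * q.σ) := by
    rw [le_div_iff₀ (by linarith [hq.σ0])]
    nlinarith [hq.σ1, hq.σ0]
  linarith

/-- The bounds of `Θ` and the final comparison. -/
theorem num_of {C : ℝ} (hq : InfC q) (he : ExC n C q) (h : PkOk q d) (C0 : 0 ≤ C) (t : ℝ) :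
    n * (C * eH q) ^ 2 ≤ q.A₄ ^ 2 / 64 ∧
    10000000 * ((n + 1) * (C * (2 * eH q) + C * (3 * eH q) + |deriv d.Θ t| +
      |deriv (deriv d.Θ) t| + |deriv (deriv (deriv d.Θ)) t|)) ≤
      q.σ / q.R * q.A₄ ^ 3 / 1100000 := by
  have hR := hq.R0
  have hR1 := hq.R1
  have h0 := hq.σ0
  have hn0 : (0 : ℝ) ≤ n := Nat.cast_nonneg n
  have A0 := he.A0
  have A1 : 1 ≤ q.A₄ := by linarith [he.a1]
  have e2 := eH_sq hq he.C1
  have e1 := eH_one hq he.C1
  have eA : eH q ≤ q.A₄ := by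
    have : eH q * 1 ≤ eH q * eH q := mul_le_mul_of_nonneg_left e1 (by linarith)
    linarith [show eH q * eH q = eH q ^ 2 by ring]
  constructor
  · have h1 : n * (C * eH q) ^ 2 = n * C ^ 2 * eH q ^ 2 := by ring
    rw [h1]
    have h2 : n * C ^ 2 * eH q ^ 2 ≤ n * C ^ 2 * q.A₄ := mul_le_mul_of_nonneg_left e2 (by positivity)
    have h3 : 64 * n * C ^ 2 * q.A₄ ≤ q.A₄ * q.A₄ := mul_le_mul_of_nonneg_right he.a3 A0.le
    linarith [show q.A₄ * q.A₄ = q.A₄ ^ 2 by ring]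
  · have t1 : |deriv d.Θ t| ≤ 2 * q.A₄ := by
      rw [abs_of_nonneg (h.Θd0 hR t)]
      have := h.Θd1 hR t
      linarith [he.a2]
    have hs : 1 ≤ √q.R := Real.one_le_sqrt.2 hR1
    have hi : (√q.R)⁻¹ ≤ 1 := inv_le_one_of_one_le₀ hs
    have hi0 : 0 ≤ (√q.R)⁻¹ := inv_nonneg.2 (by linarith)
    have L0 := he.L0 hq
    have t2 : |deriv (deriv d.Θ) t| ≤ thC 1 * (q.L₄ + 1) * q.A₄ := by
      have := h.Θbd hR 1 t
      have e : iteratedDeriv (1 + 1) d.Θ t = deriv (deriv d.Θ) t := by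
        simp only [iteratedDeriv_succ, iteratedDeriv_zero]
      rw [e, pow_one, pow_one] at this
      refine this.trans ?_
      have h1 : (√q.R)⁻¹ * q.R ^ 4 ≤ 1 * q.A₄ := mul_le_mul hi he.a2 (by positivity) one_pos.le
      have h2 := thC_nonneg 1
      calc thC 1 * (q.L₄ * q.A₄ + (√q.R)⁻¹ * q.R ^ 4) ≤ thC 1 * (q.L₄ * q.A₄ + 1 * q.A₄) := by gcongr
        _ = _ := by ring
    have t3 : |deriv (deriv (deriv d.Θ)) t| ≤ thC 2 * (q.L₄ ^ 2 + 1) * q.A₄ := by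
      have := h.Θbd hR 2 t
      have e : iteratedDeriv (2 + 1) d.Θ t = deriv (deriv (deriv d.Θ)) t := by
        simp only [iteratedDeriv_succ, iteratedDeriv_zero]
      rw [e] at this
      refine this.trans ?_
      have h0 : (√q.R)⁻¹ ^ 2 ≤ 1 := pow_le_one₀ hi0 hi
      have h1 : (√q.R)⁻¹ ^ 2 * q.R ^ 4 ≤ 1 * q.A₄ := mul_le_mul h0 he.a2 (by positivity) one_pos.le
      have h2 := thC_nonneg 2
      calc thC 2 * (q.L₄ ^ 2 * q.A₄ + (√q.R)⁻¹ ^ 2 * q.R ^ 4) ≤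
            thC 2 * (q.L₄ ^ 2 * q.A₄ + 1 * q.A₄) := by gcongr
        _ = _ := by ring
    have hB : C * (2 * eH q) + C * (3 * eH q) + |deriv d.Θ t| + |deriv (deriv d.Θ) t| +
        |deriv (deriv (deriv d.Θ)) t| ≤
        (5 * C + 2 + thC 1 * (q.L₄ + 1) + thC 2 * (q.L₄ ^ 2 + 1)) * q.A₄ := by
      have : C * eH q ≤ C * q.A₄ := mul_le_mul_of_nonneg_left eA C0
      linarith
    have a4 := he.a4
    set K := 5 * C + 2 + thC 1 * (q.L₄ + 1) + thC 2 * (q.L₄ ^ 2 + 1) with hK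
    have K0 : 0 ≤ K := by
      have := thC_nonneg 1
      have := thC_nonneg 2
      positivity
    have a5 : 11 * 10 ^ 12 * ((n + 1) * K) * q.R ≤ q.σ * q.A₄ := by
      have e : KE n C q = 11 * 10 ^ 12 * ((n + 1) * K) / q.σ := rfl
      rw [e, div_mul_eq_mul_div, div_le_iff₀ h0] at a4
      linarith
    have a6 : 11 * 10 ^ 12 * ((n + 1) * K) * q.R * q.A₄ ≤ q.σ * q.A₄ ^ 3 := by
      have h1 := mul_le_mul_of_nonneg_right a5 A0.le
      have h2 : q.σ * q.A₄ * q.A₄ * 1 ≤ q.σ * q.A₄ * q.A₄ * q.A₄ :=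
        mul_le_mul_of_nonneg_left A1 (by positivity)
      linarith [show q.σ * q.A₄ * q.A₄ * q.A₄ = q.σ * q.A₄ ^ 3 by ring]
    have e3 : q.σ / q.R * q.A₄ ^ 3 / 1100000 = q.σ * q.A₄ ^ 3 / (1100000 * q.R) := by
      field_simp
    rw [e3, le_div_iff₀ (by positivity)]
    calc _ ≤ 10000000 * ((n + 1) * (K * q.A₄)) * (1100000 * q.R) := by gcongr
      _ = 11 * 10 ^ 12 * ((n + 1) * K) * q.R * q.A₄ := by ring
      _ ≤ _ := a6

theorem ex_of {σ' τ' : Sl (VV n) (Fin n)} {π : VV n → V n} {s : MF n} {C lam : ℝ}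
    {f : VV n → ℝ} (hn : 1 ≤ n) (hq : InfC q) (he : ExC n C q) (hs : SN n q) (h : PkOk q d)
    (hcr : ∀ j, 1 ≤ j → j ≤ 4 → ‖iteratedFDeriv ℝ j (gH q d) z‖ ≤ eH q) (C0 : 0 ≤ C)
    (p : Pj σ' π s) (m : Mt q.ε q.R s) (ok : σ'.Ok univ 1)
    (sb : H269.INF.Sb4 σ' τ' (gH q d) C (fun j => gm q.R (gH q d) j z) z)
    (fs : Sm univ f) (f0 : ∀ i z, σ'.D i f z = 0)
    (ε0 : 0 ≤ q.ε) (ε1 : q.ε * n ≤ 1 / 2)
    (hl : 1 / 100 * (q.σ / q.R) * deriv d.Θ (levG n q.σ q.R d.kap d.Gs (π z)) ≤ lam) :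
    kT q d (π z) ^ 2 * (4 * lam * σ'.Γ (fun z => levG n q.σ q.R d.kap d.Gs (π z))
        (fun z => levG n q.σ q.R d.kap d.Gs (π z)) z +
      32 * HH σ' (fun z => gH q d z + (d.Θ (levG n q.σ q.R d.kap d.Gs (π z)) + f z)) z
        (fun i => σ'.D i (fun z => levG n q.σ q.R d.kap d.Gs (π z)) z)) +
      16 * (kT q d (π z) * |σ'.Γ (fun z => levG n q.σ q.R d.kap d.Gs (π z))
        (σ'.Λ fun z => gH q d z + (d.Θ (levG n q.σ q.R d.kap d.Gs (π z)) + f z)) z|) ≤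
    lam * σ'.F (fun z => gH q d z + (d.Θ (levG n q.σ q.R d.kap d.Gs (π z)) + f z)) z / 20 := by
  by_cases hk : kT q d (π z) = 0
  · have lam0 : 0 ≤ lam := by
      refine le_trans ?_ hl
      have := h.Θd0 hq.R0 (levG n q.σ q.R d.kap d.Gs (π z))
      have := hq.σ0
      have := hq.R0
      positivity
    have F0 : 0 ≤ σ'.F (fun z => gH q d z + (d.Θ (levG n q.σ q.R d.kap d.Gs (π z)) + f z)) z :=
      m.s0 p ε0 ε1 z _
    rw [hk]
    have := mul_nonneg lam0 F0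
    linarith
  · obtain ⟨h1, h2⟩ := kT_ne hq.R0 hk
    have t := tp_of hn hq hs h hcr C0 p m ok sb fs f0 h1 h2
    have kk := kT_le (d := d) hq.R0 (π z)
    obtain ⟨n1, n2⟩ := num_of hq he h C0 (levG n q.σ q.R d.kap d.Gs (π z))
    refine t.ex kk.1 kk.2 ?_ he.a1 hl n1 n2
    rw [← h.lev.lit]
    exact Θ_top h hq.R0 (he.L0 hq) he.A0.le h1.le

theorem lm_ge (hM : 1 ≤ q.M₀) (hq : InfC q) (h : PkOk q d) :
    1 / 100 * (q.σ / q.R) * deriv d.Θ (d.l z.1) ≤ lmH q d z ∧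
    1 / 100 * (q.σ / q.R) * deriv d.Θ (d.l z.2) ≤ muH q d z := by
  have hN : 0 ≤ NP q d z := by
    have : q.M₀ ≤ NP q d z := (h.ph.isΦ.n1 _).trans (h.top.l1 _)
    linarith
  have hs : 0 ≤ 1 / 100 * (q.σ / q.R) := by
    have := hq.σ0
    have := hq.R0
    positivity
  unfold lmH muH nPx nPy
  constructor
  · exact mul_le_mul_of_nonneg_left (by linarith) hs
  · exact mul_le_mul_of_nonneg_left (by linarith) hs

/-- All conditions. -/
structure ExA (n : ℕ) (q : Cst) : Prop where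
  i : InfC q
  e : EpsC n q
  s : SN n q
  x : ExC n (sb_pt n).choose q
  cr : ∀ d : Pk n, PkOk q d → ∀ z : VV n, ∀ j, 1 ≤ j → j ≤ 4 →
    ‖iteratedFDeriv ℝ j (gH q d) z‖ ≤ eH q

theorem ev_exA (hn : 1 ≤ n) : EvC (ExA n) :=
  ((evInf.and (evEps n)).and ((ev_SN hn).and ((ev_exC n _).and (rowCr n)))).mono fun _ h =>
    ⟨h.1.1, h.1.2, h.2.1, h.2.2.1, fun d ok z j h1 h2 => h.2.2.2 d ok z j h1 h2⟩

theorem ExA.ε1 (a : ExA n q) : q.ε * n ≤ 1 / 2 := by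
  have h1 := a.e.ε1
  have h0 := a.e.ε0
  have hn0 : (0 : ℝ) ≤ n := Nat.cast_nonneg n
  have h2 : (n : ℝ) ≤ cL n := by
    unfold cL
    have h3 : (n : ℝ) + 1 ≤ ((n : ℝ) + 1) ^ 4 := by
      calc (n : ℝ) + 1 = ((n : ℝ) + 1) ^ 1 := (pow_one _).symm
        _ ≤ ((n : ℝ) + 1) ^ 4 := pow_le_pow_right₀ (by linarith) (by norm_num)
    nlinarith
  have h3 := mul_le_mul_of_nonneg_right h2 h0.le
  linarith [a.i.σ1]

/-- **The error of the splitting, first slot.** -/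
theorem exX_le (hn : 1 ≤ n) (a : ExA n q) (h : PkOk q d) (z : VV n) :
    exX q d z ≤ lmH q d z * d.sx.F (d.W q) z / 20 := by
  have hl := h.lev.lit
  have m₁ : Mt q.ε q.R d.s₁ := mt₁ le_rfl a.i.R0 h.rg
  have m₂ : Mt q.ε q.R d.s₂ := mt₂ le_rfl a.i.R0 h.rg
  have sb := ((sb_pt n).choose_spec.2 q.R d.s₁ d.s₂ (gH q d) (bsH a.i a.e a.s h) z).1
  have := ex_of (σ' := d.sx) (π := Prod.fst) (s := d.s₁) (f := fun z => d.Θ (d.l z.2))
    (lam := lmH q d z) hn a.i a.x a.s h (a.cr d h z) (sb_pt n).choose_spec.1 (px d) m₁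
    (ok_x m₁ m₂) sb ((h.Θs.comp (h.lev.sm.comp contDiff_snd)).contDiffOn)
    (fun i z => Dxy0 (f := fun y => d.Θ (d.l y)) (h.Θs.comp h.lev.sm) i z) a.e.ε0.le a.ε1
    (by rw [← hl]; exact (lm_ge a.x.M1 a.i h).1)
  have eL : (fun z : VV n => d.l z.1) =
      fun z => levG n q.σ q.R d.kap d.Gs (Prod.fst z) := by rw [hl]
  unfold exX
  rw [eL, W_gx h]
  exact this

/-- **The error of the splitting, second slot.** -/
theorem exY_le (hn : 1 ≤ n) (a : ExA n q) (h : PkOk q d) (z : VV n) :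
    exY q d z ≤ muH q d z * d.sy.F (d.W q) z / 20 := by
  have hl := h.lev.lit
  have m₁ : Mt q.ε q.R d.s₁ := mt₁ le_rfl a.i.R0 h.rg
  have m₂ : Mt q.ε q.R d.s₂ := mt₂ le_rfl a.i.R0 h.rg
  have sb := ((sb_pt n).choose_spec.2 q.R d.s₁ d.s₂ (gH q d) (bsH a.i a.e a.s h) z).2
  have := ex_of (σ' := d.sy) (π := Prod.snd) (s := d.s₂) (f := fun z => d.Θ (d.l z.1))
    (lam := muH q d z) hn a.i a.x a.s h (a.cr d h z) (sb_pt n).choose_spec.1 (py d) m₂
    (ok_y m₁ m₂) sb ((h.Θs.comp (h.lev.sm.comp contDiff_fst)).contDiffOn)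
    (fun i z => Dyx0 (f := fun y => d.Θ (d.l y)) (h.Θs.comp h.lev.sm) i z) a.e.ε0.le a.ε1
    (by rw [← hl]; exact (lm_ge a.x.M1 a.i h).2)
  have eL : (fun z : VV n => d.l z.2) =
      fun z => levG n q.σ q.R d.kap d.Gs (Prod.snd z) := by rw [hl]
  unfold exY
  rw [eL, W_gy h]
  exact this

end Vale.Agent.P088.R2.H404.INF
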