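import Vale.Agent.P088.R2.H475.INF.Lev

/-!
# P088, zone INF: the global level, facts for the partition

`Glv σ gg`: the properties of the global level function (unit chart) which are used for the cuts:
it is a Lipschitz function near the sphere and inside, it is `(|w|² - 1) / (2σ)` for `|w| ≥ 1`, and
at most `-(9/10) / σ` for `|w| ≤ 2/25`.
-/

open Set Filter
open scoped ContDiff Topology

noncomputable section

namespace Vale.Agent.P088.R2.H404.INF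

open Vale.Agent.P088.LR Vale.Agent.P088.HY Vale.Agent.P088.R2.H475

variable {n : ℕ} {σ : ℝ} {gg : V n → ℝ}

/-- The facts on the global level. -/
structure Glv (σ : ℝ) (gg : V n → ℝ) : Prop where
  sm : ContDiff ℝ ∞ gg
  lip : ∀ x y, √(HY.sq (wv n σ x)) ≤ 101 / 100 → √(HY.sq (wv n σ y)) ≤ 101 / 100 →
    |gg x - gg y| ≤ 101 / 100 * √(HY.sq (x - y))
  lit : ∀ y, 1 ≤ HY.sq (wv n σ y) → gg y = (HY.sq (wv n σ y) - 1) / (2 * σ)
  deep : ∀ y, √(HY.sq (wv n σ y)) ≤ 2 / 25 → gg y ≤ -(9 / 10) * σ⁻¹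

/-- An upper bound of the level bounds `|w|²`. -/
theorem Glv.w_le (h : Glv σ gg) (h0 : 0 < σ) {y : V n} {a : ℝ} (ha : 0 ≤ a) (hy : gg y ≤ a) :
    HY.sq (wv n σ y) ≤ 1 + 2 * σ * a := by
  by_cases h1 : 1 ≤ HY.sq (wv n σ y)
  · have h2 := h.lit y h1
    rw [h2, div_le_iff₀ (by positivity)] at hy
    linarith
  · have : 0 ≤ 2 * σ * a := by positivity
    linarith [not_le.1 h1]

theorem Glv.t_le (h : Glv σ gg) (h0 : 0 < σ) {y : V n} {a : ℝ} (ha : 0 ≤ a) (hy : gg y ≤ a) :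
    √(HY.sq (wv n σ y)) ≤ 1 + σ * a := by
  have h1 := h.w_le h0 ha hy
  rw [Real.sqrt_le_left (by positivity)]
  nlinarith [sq_nonneg (σ * a)]

/-- Conversely. -/
theorem Glv.le_of_t (h : Glv σ gg) (h0 : 0 < σ) {y : V n} {a : ℝ}
    (hσ : σ * a ^ 2 ≤ 1 / 50)
    (hy : √(HY.sq (wv n σ y)) ≤ 1 + σ * a) (h1 : 1 ≤ HY.sq (wv n σ y)) : gg y ≤ a + 1 / 100 := by
  rw [h.lit y h1, div_le_iff₀ (by positivity)]
  have h3 : HY.sq (wv n σ y) ≤ (1 + σ * a) ^ 2 := by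
    rw [← Real.sq_sqrt (sq0 (wv n σ y))]
    exact pow_le_pow_left₀ (Real.sqrt_nonneg _) hy 2
  nlinarith

/-- The level along a ray is Lipschitz. -/
theorem Ga_lip (h0 : 0 < σ) (h1 : σ ≤ 1 / 5000) {s t : ℝ} (hs : 0 ≤ s) (hs' : s ≤ 101 / 100)
    (ht : 0 ≤ t) (ht' : t ≤ 101 / 100) :
    |Ga σ (s ^ 2) - Ga σ (t ^ 2)| ≤ 101 / 100 * |s - t| := by
  have hd : ∀ x ∈ Icc (0 : ℝ) (101 / 100),
      HasDerivWithinAt (fun t => Ga σ (t ^ 2)) (x * pp σ (x ^ 2)) (Icc 0 (101 / 100)) x := by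
    intro x hx
    have h2 := (hasDerivAt_Ga h0 h1 (θ := x ^ 2) (by positivity)).comp x (hasDerivAt_pow 2 x)
    have h3 : HasDerivAt (fun t => Ga σ (t ^ 2)) (x * pp σ (x ^ 2)) x := by
      refine h2.congr_deriv ?_
      push_cast
      ring
    exact h3.hasDerivWithinAt
  have hb : ∀ x ∈ Icc (0 : ℝ) (101 / 100), ‖x * pp σ (x ^ 2)‖ ≤ 101 / 100 := by
    intro x hx
    have h2 := t_pp_le h0 h1 hx.1
    have h3 : 0 ≤ x * pp σ (x ^ 2) := mul_nonneg hx.1 (by linarith [pp_pos h0 h1 (sq_nonneg x)])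
    rw [Real.norm_eq_abs, abs_of_nonneg h3]
    exact h2.trans (max_le (by norm_num) hx.2)
  have h := (convex_Icc (0 : ℝ) (101 / 100)).norm_image_sub_le_of_norm_hasDerivWithin_le hd hb
    ⟨ht, ht'⟩ ⟨hs, hs'⟩
  simpa [Real.norm_eq_abs] using h

/-- Lengths of `w` and distances. -/
theorem abs_t_sub (h0 : 0 < σ) (x y : V n) :
    |√(HY.sq (wv n σ x)) - √(HY.sq (wv n σ y))| ≤ σ * √(HY.sq (x - y)) := by
  have h1 := en_wv_le (n := n) h0 x y
  have h2 := en_wv_le (n := n) h0 y x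
  have h3 : HY.sq (y - x) = HY.sq (x - y) := by
    unfold HY.sq
    refine Finset.sum_congr rfl fun i _ => ?_
    simp only [Pi.sub_apply]
    ring
  rw [h3] at h2
  rw [abs_le]
  constructor <;> linarith

/-- **The global level of helper475 has all the properties.** -/
theorem glv_gg (h0 : 0 < σ) (h1 : σ ≤ 1 / 5000) : Glv (n := n) σ (H475.gg n σ) where
  sm := gg_smooth h0 h1
  lip x y hx hy := by
    have h2 := Ga_lip h0 h1 (Real.sqrt_nonneg _) hx (Real.sqrt_nonneg _) hy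
    rw [Real.sq_sqrt (sq0 _), Real.sq_sqrt (sq0 _)] at h2
    have h3 := abs_t_sub (n := n) h0 x y
    have h4 : H475.gg n σ x - H475.gg n σ y =
        σ⁻¹ * (Ga σ (HY.sq (wv n σ x)) - Ga σ (HY.sq (wv n σ y))) := by
      unfold H475.gg; ring
    rw [h4, abs_mul, abs_of_pos (inv_pos.2 h0), inv_mul_le_iff₀ h0]
    calc _ ≤ _ := h2
      _ ≤ 101 / 100 * (σ * √(HY.sq (x - y))) := by gcongr
      _ = _ := by ring
  lit y hy := gg_lit h0 h1 ((th1_lt h0 h1).le.trans hy)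
  deep y hy := gg_deep h0 h1 hy

end Vale.Agent.P088.R2.H404.INF
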