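import Vale.Agent.P088.R2.H404.INF.Dc
import Vale.Agent.P088.R2.H168.INF.Lvp
import Vale.Agent.P088.R2.H31.EP.Thx
import Mathlib.Analysis.SpecialFunctions.Trigonometric.Deriv

/-!
# P088, stage 3, leaf iH: the cut-offs between the levels `2.85` and `2.9`

`zc`, `zs`: smooth, `zc² + zs² = 1`, `zc = 1`, `zs = 0` for `t ≤ 2.85`, `zc = 0`, `zs = 1` for
`t ≥ 2.9`. `cl f q d π z = f ((l (π z) - l₀) / R)`; the three pieces `k1 = zc(x) zc(y)`,
`k2 = zs(x)`, `k3 = zc(x) zs(y)`.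
-/

open Set Filter
open scoped ContDiff Topology

noncomputable section

namespace Vale.Agent.P088.R2.H404.INF

open Vale.Agent.P088.LR Vale.Agent.P088.HY Vale.Agent.P088.R2.H475 Vale.Agent.P088.R2.H31.EP
open Vale.Agent.P088.R2.H961.GW Vale.Agent.P088.R2.H960.W Vale.Agent.P088.R2.H168.INF

/-- The angle. -/
def zt (t : ℝ) : ℝ := Real.pi / 2 * Real.smoothTransition (20 * t - 57)

/-- The cosine cut-off. -/
def zc (t : ℝ) : ℝ := Real.cos (zt t)

/-- The sine cut-off. -/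
def zs (t : ℝ) : ℝ := Real.sin (zt t)

theorem st_cd : ContDiff ℝ ∞ Real.smoothTransition :=
  Real.smoothTransition.contDiff (n := (⊤ : ℕ∞))

theorem zt_sm : ContDiff ℝ ∞ zt :=
  contDiff_const.mul (st_cd.comp ((contDiff_const.mul contDiff_id).sub contDiff_const))

theorem zc_sm : ContDiff ℝ ∞ zc := Real.contDiff_cos.comp zt_sm

theorem zs_sm : ContDiff ℝ ∞ zs := Real.contDiff_sin.comp zt_sm

theorem z_one (t : ℝ) : zc t ^ 2 + zs t ^ 2 = 1 := Real.cos_sq_add_sin_sq _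

theorem zt_lo {t : ℝ} (h : t ≤ 57 / 20) : zt t = 0 := by
  unfold zt
  rw [Real.smoothTransition.zero_of_nonpos (by linarith), mul_zero]

theorem zt_hi {t : ℝ} (h : 29 / 10 ≤ t) : zt t = Real.pi / 2 := by
  unfold zt
  rw [Real.smoothTransition.one_of_one_le (by linarith), mul_one]

theorem zc_lo {t : ℝ} (h : t ≤ 57 / 20) : zc t = 1 := by
  unfold zc
  rw [zt_lo h, Real.cos_zero]

theorem zs_lo {t : ℝ} (h : t ≤ 57 / 20) : zs t = 0 := by
  unfold zs
  rw [zt_lo h, Real.sin_zero]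

theorem zc_hi {t : ℝ} (h : 29 / 10 ≤ t) : zc t = 0 := by
  unfold zc
  rw [zt_hi h, Real.cos_pi_div_two]

theorem zs_hi {t : ℝ} (h : 29 / 10 ≤ t) : zs t = 1 := by
  unfold zs
  rw [zt_hi h, Real.sin_pi_div_two]

theorem zt_mem (t : ℝ) : 0 ≤ zt t ∧ zt t ≤ Real.pi / 2 := by
  have h1 := Real.smoothTransition.nonneg (20 * t - 57)
  have h2 := Real.smoothTransition.le_one (20 * t - 57)
  have h3 := Real.pi_pos
  unfold zt
  constructor
  · positivity
  · calc _ ≤ Real.pi / 2 * 1 := mul_le_mul_of_nonneg_left h2 (by positivity)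
      _ = _ := mul_one _

theorem zc_mem (t : ℝ) : 0 ≤ zc t ∧ zc t ≤ 1 := by
  have h := zt_mem t
  refine ⟨Real.cos_nonneg_of_mem_Icc ⟨?_, h.2⟩, Real.cos_le_one _⟩
  linarith [Real.pi_pos]

theorem zs_mem (t : ℝ) : 0 ≤ zs t ∧ zs t ≤ 1 := by
  have h := zt_mem t
  refine ⟨Real.sin_nonneg_of_mem_Icc ⟨h.1, ?_⟩, Real.sin_le_one _⟩
  linarith [Real.pi_pos]

theorem zt_deriv (t : ℝ) : deriv zt t =
    Real.pi / 2 * (deriv Real.smoothTransition (20 * t - 57) * 20) := by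
  have hd : Differentiable ℝ Real.smoothTransition := st_cd.differentiable (by simp)
  have h1 : HasDerivAt (fun t : ℝ => 20 * t - 57) 20 t := by
    have := ((hasDerivAt_id t).const_mul (20 : ℝ)).sub_const (57 : ℝ)
    simpa using this
  exact (((hd (20 * t - 57)).hasDerivAt.comp t h1).const_mul (Real.pi / 2)).deriv

theorem zt_d (t : ℝ) : 0 ≤ deriv zt t ∧ deriv zt t ≤ 160 := by
  have h1 := deriv_st (20 * t - 57)
  have h2 := Real.pi_pos
  have h3 := Real.pi_lt_d2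
  rw [zt_deriv]
  have h4 := h1.1
  have h5 := h1.2
  constructor
  · positivity
  · nlinarith

theorem zt_d0 {t : ℝ} (h : t ≤ 57 / 20 ∨ 29 / 10 ≤ t) : deriv zt t = 0 := by
  have h2 : 20 * t - 57 ≤ 0 ∨ 1 ≤ 20 * t - 57 := by
    rcases h with h | h
    · left; linarith
    · right; linarith
  rw [zt_deriv, deriv_st0 h2]
  ring

theorem zt_df (t : ℝ) : DifferentiableAt ℝ zt t := (zt_sm.differentiable (by simp)) t

theorem zc_deriv (t : ℝ) : deriv zc t = -(zs t * deriv zt t) := by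
  have h := ((Real.hasDerivAt_cos (zt t)).comp t (zt_df t).hasDerivAt).deriv
  have e : deriv zc t = -Real.sin (zt t) * deriv zt t := h
  rw [e]
  unfold zs
  ring

theorem zs_deriv (t : ℝ) : deriv zs t = zc t * deriv zt t :=
  ((Real.hasDerivAt_sin (zt t)).comp t (zt_df t).hasDerivAt).deriv

theorem z_d2 (t : ℝ) : deriv zc t ^ 2 + deriv zs t ^ 2 = deriv zt t ^ 2 := by
  rw [zc_deriv, zs_deriv]
  have := z_one t
  calc _ = (zc t ^ 2 + zs t ^ 2) * deriv zt t ^ 2 := by ring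
    _ = _ := by rw [this, one_mul]

theorem zc_d (t : ℝ) : |deriv zc t| ≤ 160 := by
  have h1 := zt_d t
  have h2 := zs_mem t
  rw [zc_deriv, abs_neg, abs_mul, abs_of_nonneg h1.1, abs_of_nonneg h2.1]
  calc _ ≤ 1 * deriv zt t := mul_le_mul_of_nonneg_right h2.2 h1.1
    _ ≤ _ := by linarith [h1.2]

theorem zs_d (t : ℝ) : |deriv zs t| ≤ 160 := by
  have h1 := zt_d t
  have h2 := zc_mem t
  rw [zs_deriv, abs_mul, abs_of_nonneg h1.1, abs_of_nonneg h2.1]
  calc _ ≤ 1 * deriv zt t := mul_le_mul_of_nonneg_right h2.2 h1.1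
    _ ≤ _ := by linarith [h1.2]

theorem zc_d0 {t : ℝ} (h : t ≤ 57 / 20 ∨ 29 / 10 ≤ t) : deriv zc t = 0 := by
  rw [zc_deriv, zt_d0 h, mul_zero, neg_zero]

theorem zs_d0 {t : ℝ} (h : t ≤ 57 / 20 ∨ 29 / 10 ≤ t) : deriv zs t = 0 := by
  rw [zs_deriv, zt_d0 h, mul_zero]

/-! ### On the package -/

variable {n : ℕ} {q : Cst} {d : Pk n} {z : VV n} {E : Type*} [NormedAddCommGroup E]
  [NormedSpace ℝ E] {σ : Sl E (Fin n)} {π : E → V n} {s : MF n}

/-- `f` of the normalized level at the point `π z`. -/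
def cl (f : ℝ → ℝ) (q : Cst) (d : Pk n) (π : E → V n) (z : E) : ℝ :=
  f ((d.l (π z) - d.l₀ q) / q.R)

theorem cl_sm {f : ℝ → ℝ} (hf : ContDiff ℝ ∞ f) (h : PkOk q d) (hπ : ContDiff ℝ ∞ π) :
    ContDiff ℝ ∞ (cl f q d π) :=
  hf.comp (((h.lev.sm.comp hπ).sub contDiff_const).div_const _)

omit [NormedAddCommGroup E] [NormedSpace ℝ E] in
theorem cl_fun {f : ℝ → ℝ} : cl f q d π = fun z => (fun x => f ((d.l x - d.l₀ q) / q.R)) (π z) := rfl

theorem pd_cl {f : ℝ → ℝ} (hf : ContDiff ℝ ∞ f) (h : PkOk q d) (i : Fin n) (x : V n) :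
    pd i (fun x => f ((d.l x - d.l₀ q) / q.R)) x =
      deriv f ((d.l x - d.l₀ q) / q.R) / q.R * pd i d.l x := by
  have h1 : HasFDerivAt d.l (fderiv ℝ d.l x) x :=
    ((h.lev.sm.differentiable (by simp)) x).hasFDerivAt
  have h2 : HasDerivAt f (deriv f ((d.l x - d.l₀ q) / q.R)) ((d.l x - d.l₀ q) / q.R) :=
    ((hf.differentiable (by simp)) _).hasDerivAt
  have h3 : HasFDerivAt (fun x => (d.l x - d.l₀ q) / q.R) (q.R⁻¹ • fderiv ℝ d.l x) x := by
    have h4 := (h1.sub_const (d.l₀ q)).const_mul q.R⁻¹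
    have e : (fun x => (d.l x - d.l₀ q) / q.R) = fun x => q.R⁻¹ * (d.l x - d.l₀ q) :=
      funext fun y => by ring
    rw [e]
    exact h4
  have h5 := (h2.comp_hasFDerivAt x h3).fderiv
  have e : (f ∘ fun x => (d.l x - d.l₀ q) / q.R) = fun x => f ((d.l x - d.l₀ q) / q.R) := rfl
  rw [e] at h5
  unfold pd
  rw [h5]
  simp only [_root_.smul_apply, smul_eq_mul]
  ring

/-- The derivative in the slot which sees `π`. -/
theorem cl_D {f : ℝ → ℝ} (p : Pj σ π s) (hf : ContDiff ℝ ∞ f) (h : PkOk q d) (i : Fin n) (z : E) :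
    σ.D i (cl f q d π) z = deriv f ((d.l (π z) - d.l₀ q) / q.R) / q.R * pd i d.l (π z) := by
  have hc : ContDiff ℝ ∞ fun x : V n => f ((d.l x - d.l₀ q) / q.R) :=
    hf.comp ((h.lev.sm.sub contDiff_const).div_const _)
  rw [cl_fun, p.D i _ z ((hc.differentiable (by simp)) _), pd_cl hf h]

/-- The derivative is `f'(gl) / R` times the derivative of the level. -/
theorem cl_DL {f : ℝ → ℝ} (p : Pj σ π s) (hf : ContDiff ℝ ∞ f) (h : PkOk q d) (i : Fin n) (z : E) :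
    σ.D i (cl f q d π) z =
      deriv f ((d.l (π z) - d.l₀ q) / q.R) / q.R * σ.D i (fun z => d.l (π z)) z := by
  rw [cl_D p hf h, p.D i _ z ((h.lev.sm.differentiable (by simp)) _)]

/-- The derivative in the other slot. -/
theorem cl_xy {f : ℝ → ℝ} (h : PkOk q d) (hf : ContDiff ℝ ∞ f) (i : Fin n) (z : VV n) :
    d.sx.D i (cl f q d Prod.snd) z = 0 := by
  have hc : ContDiff ℝ ∞ fun x : V n => f ((d.l x - d.l₀ q) / q.R) :=
    hf.comp ((h.lev.sm.sub contDiff_const).div_const _)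
  rw [show d.sx.D i (cl f q d Prod.snd) z = fderiv ℝ (cl f q d Prod.snd) z (Pi.single i 1, 0) from
    H464.Cu.Dx1 i _ z]
  have e : cl f q d (Prod.snd : VV n → V n) = (fun x : V n => f ((d.l x - d.l₀ q) / q.R)) ∘
    Prod.snd := rfl
  have h1 : HasFDerivAt (cl f q d (Prod.snd : VV n → V n)) _ z :=
    ((hc.differentiable (by simp)) z.2).hasFDerivAt.comp z hasFDerivAt_snd
  rw [h1.fderiv]
  simp

theorem cl_yx {f : ℝ → ℝ} (h : PkOk q d) (hf : ContDiff ℝ ∞ f) (i : Fin n) (z : VV n) :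
    d.sy.D i (cl f q d Prod.fst) z = 0 := by
  have hc : ContDiff ℝ ∞ fun x : V n => f ((d.l x - d.l₀ q) / q.R) :=
    hf.comp ((h.lev.sm.sub contDiff_const).div_const _)
  rw [show d.sy.D i (cl f q d Prod.fst) z = fderiv ℝ (cl f q d Prod.fst) z (0, Pi.single i 1) from
    H464.Cu.Dy1 i _ z]
  have h1 : HasFDerivAt (cl f q d (Prod.fst : VV n → V n)) _ z :=
    ((hc.differentiable (by simp)) z.1).hasFDerivAt.comp z hasFDerivAt_fst
  rw [h1.fderiv]
  simp

/-! ### The three pieces -/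

/-- Both points below the level `2.9`. -/
def k1 (q : Cst) (d : Pk n) (z : VV n) : ℝ := cl zc q d Prod.fst z * cl zc q d Prod.snd z

/-- The first point above the level `2.85`. -/
def k2 (q : Cst) (d : Pk n) (z : VV n) : ℝ := cl zs q d Prod.fst z

/-- The second point above the level `2.85`. -/
def k3 (q : Cst) (d : Pk n) (z : VV n) : ℝ := cl zc q d Prod.fst z * cl zs q d Prod.snd z

theorem k1_sm (h : PkOk q d) : ContDiff ℝ ∞ (k1 q d) :=
  (cl_sm zc_sm h contDiff_fst).mul (cl_sm zc_sm h contDiff_snd)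

theorem k2_sm (h : PkOk q d) : ContDiff ℝ ∞ (k2 q d) := cl_sm zs_sm h contDiff_fst

theorem k3_sm (h : PkOk q d) : ContDiff ℝ ∞ (k3 q d) :=
  (cl_sm zc_sm h contDiff_fst).mul (cl_sm zs_sm h contDiff_snd)

theorem k_sum (q : Cst) (d : Pk n) (z : VV n) : k1 q d z ^ 2 + k2 q d z ^ 2 + k3 q d z ^ 2 = 1 := by
  unfold k1 k2 k3 cl
  have h1 := z_one ((d.l z.1 - d.l₀ q) / q.R)
  have h2 := z_one ((d.l z.2 - d.l₀ q) / q.R)
  calc _ = zc ((d.l z.1 - d.l₀ q) / q.R) ^ 2 * (zc ((d.l z.2 - d.l₀ q) / q.R) ^ 2 +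
        zs ((d.l z.2 - d.l₀ q) / q.R) ^ 2) + zs ((d.l z.1 - d.l₀ q) / q.R) ^ 2 := by ring
    _ = _ := by rw [h2, mul_one, h1]

theorem k1_le (q : Cst) (d : Pk n) (z : VV n) : 0 ≤ k1 q d z ∧ k1 q d z ≤ 1 :=
  ⟨mul_nonneg (zc_mem _).1 (zc_mem _).1,
    mul_le_one₀ (zc_mem _).2 (zc_mem _).1 (zc_mem _).2⟩

theorem k2_le (q : Cst) (d : Pk n) (z : VV n) : 0 ≤ k2 q d z ∧ k2 q d z ≤ 1 := zs_mem _

theorem k3_le (q : Cst) (d : Pk n) (z : VV n) : 0 ≤ k3 q d z ∧ k3 q d z ≤ 1 :=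
  ⟨mul_nonneg (zc_mem _).1 (zs_mem _).1,
    mul_le_one₀ (zc_mem _).2 (zs_mem _).1 (zs_mem _).2⟩

theorem k1_ne (hR : 0 < q.R) (h : k1 q d z ≠ 0) :
    d.l z.1 < d.l₀ q + 29 / 10 * q.R ∧ d.l z.2 < d.l₀ q + 29 / 10 * q.R := by
  constructor
  · by_contra hc
    refine h ?_
    have : 29 / 10 ≤ (d.l z.1 - d.l₀ q) / q.R := by
      rw [le_div_iff₀ hR]; linarith [not_lt.1 hc]
    unfold k1 cl
    rw [zc_hi this, zero_mul]
  · by_contra hc
    refine h ?_
    have : 29 / 10 ≤ (d.l z.2 - d.l₀ q) / q.R := by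
      rw [le_div_iff₀ hR]; linarith [not_lt.1 hc]
    unfold k1 cl
    rw [zc_hi this, mul_zero]

theorem k2_ne (hR : 0 < q.R) (h : k2 q d z ≠ 0) : d.l₀ q + 57 / 20 * q.R < d.l z.1 := by
  by_contra hc
  refine h ?_
  have : (d.l z.1 - d.l₀ q) / q.R ≤ 57 / 20 := by
    rw [div_le_iff₀ hR]; linarith [not_lt.1 hc]
  unfold k2 cl
  rw [zs_lo this]

theorem k3_ne (hR : 0 < q.R) (h : k3 q d z ≠ 0) :
    d.l z.1 < d.l₀ q + 29 / 10 * q.R ∧ d.l₀ q + 57 / 20 * q.R < d.l z.2 := by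
  constructor
  · by_contra hc
    refine h ?_
    have : 29 / 10 ≤ (d.l z.1 - d.l₀ q) / q.R := by
      rw [le_div_iff₀ hR]; linarith [not_lt.1 hc]
    unfold k3 cl
    rw [zc_hi this, zero_mul]
  · by_contra hc
    refine h ?_
    have : (d.l z.2 - d.l₀ q) / q.R ≤ 57 / 20 := by
      rw [div_le_iff₀ hR]; linarith [not_lt.1 hc]
    unfold k3 cl
    rw [zs_lo this, mul_zero]

/-- The closed sets of the pieces. -/
theorem k_closed (h : PkOk q d) (a : ℝ) :
    IsClosed {z : VV n | d.l z.1 ≤ a} ∧ IsClosed {z : VV n | d.l z.2 ≤ a} ∧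
    IsClosed {z : VV n | a ≤ d.l z.1} ∧ IsClosed {z : VV n | a ≤ d.l z.2} := by
  have hl := h.lev.sm.continuous
  exact ⟨isClosed_le (hl.comp continuous_fst) continuous_const,
    isClosed_le (hl.comp continuous_snd) continuous_const,
    isClosed_le continuous_const (hl.comp continuous_fst),
    isClosed_le continuous_const (hl.comp continuous_snd)⟩

/-- **The slope of `Θ` above the level `2.85`.** -/
theorem Θ_top (h : PkOk q d) (hR : 0 < q.R) (hL : 0 < q.L₄) (hA : 0 ≤ q.A₄) {t : ℝ}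
    (ht : d.l₀ q + 57 / 20 * q.R ≤ t) : q.A₄ / 4 ≤ deriv d.Θ t := by
  rcases le_total (d.l₀ q + 29 / 10 * q.R) t with h1 | h1
  · have := h.Θtop hR t h1
    linarith
  · rw [h.Θd hR]
    have h2 := h.ts.d0 (t / √q.R)
    have h3 := h.th.top (d.l₀ q + 29 / 10 * q.R) (by linarith)
    have hd : ContDiff ℝ ∞ (deriv d.ΘL) := by
      have := h.th.sm.iterate_deriv 1
      simpa using this
    have hdf : Differentiable ℝ (deriv d.ΘL) := hd.differentiable (by simp)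
    have h4 : deriv d.ΘL (d.l₀ q + 29 / 10 * q.R) - deriv d.ΘL t ≤
        q.L₄ * (q.A₄ * Real.exp (-(q.L₄ * (1 / 10 * q.R)))) *
          (d.l₀ q + 29 / 10 * q.R - t) := by
      refine (convex_Icc t (d.l₀ q + 29 / 10 * q.R)).image_sub_le_mul_sub_of_deriv_le
        hdf.continuous.continuousOn (hdf.differentiableOn) (fun s hs => ?_) t
        (left_mem_Icc.2 h1) _ (right_mem_Icc.2 h1) h1
      rw [interior_Icc] at hs
      refine (h.th.dn s).trans ?_
      have h5 : -(q.L₄ * (s - (d.l₀ q + 26 / 10 * q.R + 3 / 10 * q.R / 2))) ≤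
          -(q.L₄ * (1 / 10 * q.R)) := by
        have : 1 / 10 * q.R ≤ s - (d.l₀ q + 26 / 10 * q.R + 3 / 10 * q.R / 2) := by
          linarith [hs.1]
        have := mul_le_mul_of_nonneg_left this hL.le
        linarith
      have h6 := Real.exp_le_exp.2 h5
      exact mul_le_mul_of_nonneg_left (mul_le_mul_of_nonneg_left h6 hA) hL.le
    have h7 : d.l₀ q + 29 / 10 * q.R - t ≤ 1 / 20 * q.R := by linarith
    set x := q.L₄ * (1 / 20 * q.R) with hx
    have hx0 : 0 < x := by positivity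
    have h8 : q.L₄ * (q.A₄ * Real.exp (-(q.L₄ * (1 / 10 * q.R)))) *
          (d.l₀ q + 29 / 10 * q.R - t) ≤ q.A₄ * (x * Real.exp (-(2 * x))) := by
      have e : -(q.L₄ * (1 / 10 * q.R)) = -(2 * x) := by rw [hx]; ring
      rw [e]
      calc _ ≤ q.L₄ * (q.A₄ * Real.exp (-(2 * x))) * (1 / 20 * q.R) :=
            mul_le_mul_of_nonneg_left h7 (by positivity)
        _ = _ := by rw [hx]; ring
    have h9 : x * Real.exp (-(2 * x)) ≤ 1 / 4 := by
      rw [Real.exp_neg, ← div_eq_mul_inv, div_le_iff₀ (Real.exp_pos _)]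
      have h10 := Real.quadratic_le_exp_of_nonneg (x := 2 * x) (by positivity)
      nlinarith [sq_nonneg (x - 1)]
    have h11 := mul_le_mul_of_nonneg_left h9 hA
    linarith

/-! ### The derivatives of the pieces in the slots -/

/-- The derivative of the angle at the level `a`, divided by `R`. -/
def kT (q : Cst) (d : Pk n) (x : V n) : ℝ := deriv zt ((d.l x - d.l₀ q) / q.R) / q.R

theorem kT_le (hR : 0 < q.R) (x : V n) : 0 ≤ kT q d x ∧ kT q d x ≤ 160 / q.R := by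
  have h := zt_d ((d.l x - d.l₀ q) / q.R)
  unfold kT
  exact ⟨div_nonneg h.1 hR.le, div_le_div_of_nonneg_right h.2 hR.le⟩

/-- The derivative of the angle vanishes off the levels `(2.85, 2.9)`. -/
theorem kT_ne (hR : 0 < q.R) {x : V n} (h : kT q d x ≠ 0) :
    d.l₀ q + 57 / 20 * q.R < d.l x ∧ d.l x < d.l₀ q + 29 / 10 * q.R := by
  have h2 : ¬ ((d.l x - d.l₀ q) / q.R ≤ 57 / 20 ∨ 29 / 10 ≤ (d.l x - d.l₀ q) / q.R) := by
    intro hc
    refine h ?_
    unfold kT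
    rw [zt_d0 hc, zero_div]
  push Not at h2
  rw [lt_div_iff₀ hR, div_lt_iff₀ hR] at h2
  exact ⟨by linarith [h2.1], by linarith [h2.2]⟩

theorem D_prod (o : Sl (VV n) (Fin n)) {f g : VV n → ℝ}
    (hf : ContDiff ℝ ∞ f) (hg : ContDiff ℝ ∞ g) (i : Fin n) (z : VV n) :
    o.D i (fun z => f z * g z) z = o.D i f z * g z + f z * o.D i g z :=
  D_mul o isOpen_univ hf.contDiffOn hg.contDiffOn i (mem_univ z)

theorem px (d : Pk n) : Pj d.sx Prod.fst d.s₁ := pj_x d.s₁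

theorem py (d : Pk n) : Pj d.sy Prod.snd d.s₂ := pj_y d.s₂

section x

variable (h : PkOk q d) (i : Fin n) (z : VV n)
include h

theorem xk1 : d.sx.D i (k1 q d) z = -(cl zs q d Prod.fst z * cl zc q d Prod.snd z *
    kT q d z.1 * d.sx.D i (fun z => d.l z.1) z) := by
  have e : k1 q d = fun z => cl zc q d Prod.fst z * cl zc q d Prod.snd z := rfl
  rw [e, D_prod d.sx (cl_sm zc_sm h contDiff_fst) (cl_sm zc_sm h contDiff_snd), cl_xy h zc_sm,
    cl_DL (px d) zc_sm h, zc_deriv]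
  unfold kT cl
  ring

theorem xk2 : d.sx.D i (k2 q d) z = cl zc q d Prod.fst z *
    kT q d z.1 * d.sx.D i (fun z => d.l z.1) z := by
  have e : k2 q d = cl zs q d Prod.fst := rfl
  rw [e, cl_DL (px d) zs_sm h, zs_deriv]
  unfold kT cl
  ring

theorem xk3 : d.sx.D i (k3 q d) z = -(cl zs q d Prod.fst z * cl zs q d Prod.snd z *
    kT q d z.1 * d.sx.D i (fun z => d.l z.1) z) := by
  have e : k3 q d = fun z => cl zc q d Prod.fst z * cl zs q d Prod.snd z := rfl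
  rw [e, D_prod d.sx (cl_sm zc_sm h contDiff_fst) (cl_sm zs_sm h contDiff_snd), cl_xy h zs_sm,
    cl_DL (px d) zc_sm h, zc_deriv]
  unfold kT cl
  ring

theorem yk1 : d.sy.D i (k1 q d) z = -(cl zc q d Prod.fst z * cl zs q d Prod.snd z *
    kT q d z.2 * d.sy.D i (fun z => d.l z.2) z) := by
  have e : k1 q d = fun z => cl zc q d Prod.fst z * cl zc q d Prod.snd z := rfl
  rw [e, D_prod d.sy (cl_sm zc_sm h contDiff_fst) (cl_sm zc_sm h contDiff_snd), cl_yx h zc_sm,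
    cl_DL (py d) zc_sm h, zc_deriv]
  unfold kT cl
  ring

theorem yk2 : d.sy.D i (k2 q d) z = 0 := cl_yx h zs_sm i z

theorem yk3 : d.sy.D i (k3 q d) z = cl zc q d Prod.fst z * cl zc q d Prod.snd z *
    kT q d z.2 * d.sy.D i (fun z => d.l z.2) z := by
  have e : k3 q d = fun z => cl zc q d Prod.fst z * cl zs q d Prod.snd z := rfl
  rw [e, D_prod d.sy (cl_sm zc_sm h contDiff_fst) (cl_sm zs_sm h contDiff_snd), cl_yx h zc_sm,
    cl_DL (py d) zs_sm h, zs_deriv]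
  unfold kT cl
  ring

end x

/-- A quadratic form. -/
def qM (M : Fin n → Fin n → ℝ) (A : Fin n → ℝ) : ℝ := ∑ i, ∑ j, M i j * A i * A j

/-- **First slot**: the sum over the pieces of a quadratic form of `D (χ k)`. -/
theorem x_qM (h : PkOk q d) {χ : VV n → ℝ} (hχ : ContDiff ℝ ∞ χ) (z : VV n)
    (M : Fin n → Fin n → ℝ) :
    qM M (fun i => d.sx.D i (fun z => χ z * k1 q d z) z) +
      qM M (fun i => d.sx.D i (fun z => χ z * k2 q d z) z) +
      qM M (fun i => d.sx.D i (fun z => χ z * k3 q d z) z) =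
    qM M (fun i => d.sx.D i χ z) +
      (χ z * kT q d z.1) ^ 2 * qM M (fun i => d.sx.D i (fun z => d.l z.1) z) := by
  unfold qM
  simp only [Finset.mul_sum, ← Finset.sum_add_distrib]
  refine Finset.sum_congr rfl fun i _ => Finset.sum_congr rfl fun j _ => ?_
  simp only [D_prod d.sx hχ (k1_sm h), D_prod d.sx hχ (k2_sm h), D_prod d.sx hχ (k3_sm h),
    xk1 h, xk2 h, xk3 h]
  have p1 := z_one ((d.l z.1 - d.l₀ q) / q.R)
  have p2 := z_one ((d.l z.2 - d.l₀ q) / q.R)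
  unfold k1 k2 k3 cl
  generalize zc ((d.l z.1 - d.l₀ q) / q.R) = C at *
  generalize zs ((d.l z.1 - d.l₀ q) / q.R) = S at *
  generalize zc ((d.l z.2 - d.l₀ q) / q.R) = C' at *
  generalize zs ((d.l z.2 - d.l₀ q) / q.R) = S' at *
  generalize kT q d z.1 = T
  generalize d.sx.D i χ z = a
  generalize d.sx.D j χ z = b
  generalize d.sx.D i (fun z => d.l z.1) z = u
  generalize d.sx.D j (fun z => d.l z.1) z = v
  have e1 : S' ^ 2 = 1 - C' ^ 2 := by linarith
  have e2 : S ^ 2 = 1 - C ^ 2 := by linarith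
  linear_combination (M i j) * (a * b) * p1 + (M i j) * (a * b * C ^ 2 -
    (a * v + b * u) * χ z * T * S * C + χ z ^ 2 * T ^ 2 * u * v * S ^ 2) * p2 +
    (M i j) * (χ z ^ 2 * T ^ 2 * u * v) * p1

/-- **Second slot.** -/
theorem y_qM (h : PkOk q d) {χ : VV n → ℝ} (hχ : ContDiff ℝ ∞ χ) (z : VV n)
    (M : Fin n → Fin n → ℝ) :
    qM M (fun i => d.sy.D i (fun z => χ z * k1 q d z) z) +
      qM M (fun i => d.sy.D i (fun z => χ z * k2 q d z) z) +
      qM M (fun i => d.sy.D i (fun z => χ z * k3 q d z) z) =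
    qM M (fun i => d.sy.D i χ z) +
      (χ z * cl zc q d Prod.fst z * kT q d z.2) ^ 2 *
        qM M (fun i => d.sy.D i (fun z => d.l z.2) z) := by
  unfold qM
  simp only [Finset.mul_sum, ← Finset.sum_add_distrib]
  refine Finset.sum_congr rfl fun i _ => Finset.sum_congr rfl fun j _ => ?_
  simp only [D_prod d.sy hχ (k1_sm h), D_prod d.sy hχ (k2_sm h), D_prod d.sy hχ (k3_sm h),
    yk1 h, yk2 h, yk3 h]
  have p1 := z_one ((d.l z.1 - d.l₀ q) / q.R)
  have p2 := z_one ((d.l z.2 - d.l₀ q) / q.R)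
  unfold k1 k2 k3 cl
  generalize zc ((d.l z.1 - d.l₀ q) / q.R) = C at *
  generalize zs ((d.l z.1 - d.l₀ q) / q.R) = S at *
  generalize zc ((d.l z.2 - d.l₀ q) / q.R) = C' at *
  generalize zs ((d.l z.2 - d.l₀ q) / q.R) = S' at *
  generalize kT q d z.2 = T
  generalize d.sy.D i χ z = a
  generalize d.sy.D j χ z = b
  generalize d.sy.D i (fun z => d.l z.2) z = u
  generalize d.sy.D j (fun z => d.l z.2) z = v
  linear_combination (M i j) * (a * b) * p1 + (M i j) * (a * b * C ^ 2 +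
    χ z ^ 2 * C ^ 2 * T ^ 2 * u * v) * p2

/-- A linear form. -/
def lM (g : Fin n → ℝ) (A : Fin n → ℝ) : ℝ := ∑ i, g i * A i

theorem lM_comb (g A B : Fin n → ℝ) (a b : ℝ) :
    lM g (fun i => A i * a + b * B i) = a * lM g A + b * lM g B := by
  unfold lM
  rw [Finset.mul_sum, Finset.mul_sum, ← Finset.sum_add_distrib]
  exact Finset.sum_congr rfl fun i _ => by ring

/-- **First slot**: linear forms. -/
theorem x_lM (h : PkOk q d) {χ : VV n → ℝ} (hχ : ContDiff ℝ ∞ χ) (hR : 0 < q.R) (z : VV n)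
    (g : Fin n → ℝ) :
    |χ z * k1 q d z * lM g (fun i => d.sx.D i (fun z => χ z * k1 q d z) z)| +
      |χ z * k2 q d z * lM g (fun i => d.sx.D i (fun z => χ z * k2 q d z) z)| +
      |χ z * k3 q d z * lM g (fun i => d.sx.D i (fun z => χ z * k3 q d z) z)| ≤
    |χ z * lM g (fun i => d.sx.D i χ z)| +
      2 * (χ z ^ 2 * (kT q d z.1 * |lM g (fun i => d.sx.D i (fun z => d.l z.1) z)|)) := by
  have T0 := (kT_le (d := d) hR z.1).1
  have c1 := zc_mem ((d.l z.1 - d.l₀ q) / q.R)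
  have c2 := zs_mem ((d.l z.1 - d.l₀ q) / q.R)
  have c3 := zc_mem ((d.l z.2 - d.l₀ q) / q.R)
  have c4 := zs_mem ((d.l z.2 - d.l₀ q) / q.R)
  have p1 := z_one ((d.l z.1 - d.l₀ q) / q.R)
  have p2 := z_one ((d.l z.2 - d.l₀ q) / q.R)
  set a := lM g (fun i => d.sx.D i χ z) with ha
  set u := lM g (fun i => d.sx.D i (fun z => d.l z.1) z) with hu
  have e1 : lM g (fun i => d.sx.D i (fun z => χ z * k1 q d z) z) =
      k1 q d z * a + χ z * (-(cl zs q d Prod.fst z * cl zc q d Prod.snd z * kT q d z.1)) * u := by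
    rw [ha, hu, ← lM_comb]
    unfold lM
    refine Finset.sum_congr rfl fun i _ => ?_
    beta_reduce
    rw [D_prod d.sx hχ (k1_sm h), xk1 h]; ring
  have e2 : lM g (fun i => d.sx.D i (fun z => χ z * k2 q d z) z) =
      k2 q d z * a + χ z * (cl zc q d Prod.fst z * kT q d z.1) * u := by
    rw [ha, hu, ← lM_comb]
    unfold lM
    refine Finset.sum_congr rfl fun i _ => ?_
    beta_reduce
    rw [D_prod d.sx hχ (k2_sm h), xk2 h]; ring
  have e3 : lM g (fun i => d.sx.D i (fun z => χ z * k3 q d z) z) =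
      k3 q d z * a + χ z * (-(cl zs q d Prod.fst z * cl zs q d Prod.snd z * kT q d z.1)) * u := by
    rw [ha, hu, ← lM_comb]
    unfold lM
    refine Finset.sum_congr rfl fun i _ => ?_
    beta_reduce
    rw [D_prod d.sx hχ (k3_sm h), xk3 h]; ring
  rw [e1, e2, e3]
  unfold k1 k2 k3 cl
  generalize zc ((d.l z.1 - d.l₀ q) / q.R) = C at *
  generalize zs ((d.l z.1 - d.l₀ q) / q.R) = S at *
  generalize zc ((d.l z.2 - d.l₀ q) / q.R) = C' at *
  generalize zs ((d.l z.2 - d.l₀ q) / q.R) = S' at *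
  generalize kT q d z.1 = T at *
  generalize χ z = X
  have hCS : C * S ≤ 1 := mul_le_one₀ c1.2 c2.1 c2.2
  have hCS0 : 0 ≤ C * S := mul_nonneg c1.1 c2.1
  have f : ∀ k m w : ℝ, 0 ≤ k → |X * k * (k * a + X * m * u)| ≤
      k ^ 2 * |X * a| + X ^ 2 * (k * |m|) * |u| := by
    intro k m w hk
    have e : X * k * (k * a + X * m * u) = k ^ 2 * (X * a) + X ^ 2 * (k * m) * u := by ring
    rw [e]
    refine (abs_add_le _ _).trans (le_of_eq ?_)
    rw [abs_mul, abs_mul (X ^ 2 * (k * m)), abs_mul (X ^ 2), abs_mul k, abs_of_nonneg hk,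
      abs_of_nonneg (sq_nonneg k), abs_of_nonneg (sq_nonneg X)]
  have g1 := f (C * C') (-(S * C' * T)) 0 (mul_nonneg c1.1 c3.1)
  have g2 := f S (C * T) 0 c2.1
  have g3 := f (C * S') (-(S * S' * T)) 0 (mul_nonneg c1.1 c4.1)
  rw [abs_neg, abs_of_nonneg (mul_nonneg (mul_nonneg c2.1 c3.1) T0)] at g1
  rw [abs_of_nonneg (mul_nonneg c1.1 T0)] at g2
  rw [abs_neg, abs_of_nonneg (mul_nonneg (mul_nonneg c2.1 c4.1) T0)] at g3
  refine (add_le_add (add_le_add g1 g2) g3).trans ?_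
  have e4 : (C * C') ^ 2 * |X * a| + X ^ 2 * (C * C' * (S * C' * T)) * |u| +
      (S ^ 2 * |X * a| + X ^ 2 * (S * (C * T)) * |u|) +
      ((C * S') ^ 2 * |X * a| + X ^ 2 * (C * S' * (S * S' * T)) * |u|) =
      |X * a| + 2 * (X ^ 2 * (T * |u|)) * (C * S) := by
    linear_combination (|X * a|) * p1 + (C ^ 2 * |X * a| + X ^ 2 * T * |u| * C * S) * p2
  rw [e4]
  have h5 : 0 ≤ 2 * (X ^ 2 * (T * |u|)) := by positivity
  have := mul_le_mul_of_nonneg_left hCS h5
  linarith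

/-- **Second slot**: linear forms. -/
theorem y_lM (h : PkOk q d) {χ : VV n → ℝ} (hχ : ContDiff ℝ ∞ χ) (hR : 0 < q.R) (z : VV n)
    (g : Fin n → ℝ) :
    |χ z * k1 q d z * lM g (fun i => d.sy.D i (fun z => χ z * k1 q d z) z)| +
      |χ z * k2 q d z * lM g (fun i => d.sy.D i (fun z => χ z * k2 q d z) z)| +
      |χ z * k3 q d z * lM g (fun i => d.sy.D i (fun z => χ z * k3 q d z) z)| ≤
    |χ z * lM g (fun i => d.sy.D i χ z)| +
      2 * (χ z ^ 2 * (kT q d z.2 * |lM g (fun i => d.sy.D i (fun z => d.l z.2) z)|)) := by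
  have T0 := (kT_le (d := d) hR z.2).1
  have c1 := zc_mem ((d.l z.1 - d.l₀ q) / q.R)
  have c2 := zs_mem ((d.l z.1 - d.l₀ q) / q.R)
  have c3 := zc_mem ((d.l z.2 - d.l₀ q) / q.R)
  have c4 := zs_mem ((d.l z.2 - d.l₀ q) / q.R)
  have p1 := z_one ((d.l z.1 - d.l₀ q) / q.R)
  have p2 := z_one ((d.l z.2 - d.l₀ q) / q.R)
  set a := lM g (fun i => d.sy.D i χ z) with ha
  set u := lM g (fun i => d.sy.D i (fun z => d.l z.2) z) with hu
  have e1 : lM g (fun i => d.sy.D i (fun z => χ z * k1 q d z) z) =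
      k1 q d z * a + χ z * (-(cl zc q d Prod.fst z * cl zs q d Prod.snd z * kT q d z.2)) * u := by
    rw [ha, hu, ← lM_comb]
    unfold lM
    refine Finset.sum_congr rfl fun i _ => ?_
    beta_reduce
    rw [D_prod d.sy hχ (k1_sm h), yk1 h]; ring
  have e2 : lM g (fun i => d.sy.D i (fun z => χ z * k2 q d z) z) =
      k2 q d z * a + χ z * 0 * u := by
    rw [ha, hu, ← lM_comb]
    unfold lM
    refine Finset.sum_congr rfl fun i _ => ?_
    beta_reduce
    rw [D_prod d.sy hχ (k2_sm h), yk2 h]; ring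
  have e3 : lM g (fun i => d.sy.D i (fun z => χ z * k3 q d z) z) =
      k3 q d z * a + χ z * (cl zc q d Prod.fst z * cl zc q d Prod.snd z * kT q d z.2) * u := by
    rw [ha, hu, ← lM_comb]
    unfold lM
    refine Finset.sum_congr rfl fun i _ => ?_
    beta_reduce
    rw [D_prod d.sy hχ (k3_sm h), yk3 h]; ring
  rw [e1, e2, e3]
  unfold k1 k2 k3 cl
  generalize zc ((d.l z.1 - d.l₀ q) / q.R) = C at *
  generalize zs ((d.l z.1 - d.l₀ q) / q.R) = S at *
  generalize zc ((d.l z.2 - d.l₀ q) / q.R) = C' at *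
  generalize zs ((d.l z.2 - d.l₀ q) / q.R) = S' at *
  generalize kT q d z.2 = T at *
  generalize χ z = X
  have hCS : C' * S' ≤ 1 := mul_le_one₀ c3.2 c4.1 c4.2
  have hC : C ^ 2 * (C' * S') ≤ 1 :=
    mul_le_one₀ (pow_le_one₀ c1.1 c1.2) (mul_nonneg c3.1 c4.1) hCS
  have f : ∀ k m w : ℝ, 0 ≤ k → |X * k * (k * a + X * m * u)| ≤
      k ^ 2 * |X * a| + X ^ 2 * (k * |m|) * |u| := by
    intro k m w hk
    have e : X * k * (k * a + X * m * u) = k ^ 2 * (X * a) + X ^ 2 * (k * m) * u := by ring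
    rw [e]
    refine (abs_add_le _ _).trans (le_of_eq ?_)
    rw [abs_mul, abs_mul (X ^ 2 * (k * m)), abs_mul (X ^ 2), abs_mul k, abs_of_nonneg hk,
      abs_of_nonneg (sq_nonneg k), abs_of_nonneg (sq_nonneg X)]
  have g1 := f (C * C') (-(C * S' * T)) 0 (mul_nonneg c1.1 c3.1)
  have g2 := f S 0 0 c2.1
  have g3 := f (C * S') (C * C' * T) 0 (mul_nonneg c1.1 c4.1)
  rw [abs_neg, abs_of_nonneg (mul_nonneg (mul_nonneg c1.1 c4.1) T0)] at g1
  rw [abs_zero] at g2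
  rw [abs_of_nonneg (mul_nonneg (mul_nonneg c1.1 c3.1) T0)] at g3
  refine (add_le_add (add_le_add g1 g2) g3).trans ?_
  have e4 : (C * C') ^ 2 * |X * a| + X ^ 2 * (C * C' * (C * S' * T)) * |u| +
      (S ^ 2 * |X * a| + X ^ 2 * (S * 0) * |u|) +
      ((C * S') ^ 2 * |X * a| + X ^ 2 * (C * S' * (C * C' * T)) * |u|) =
      |X * a| + 2 * (X ^ 2 * (T * |u|)) * (C ^ 2 * (C' * S')) := by
    linear_combination (|X * a|) * p1 + (C ^ 2 * |X * a|) * p2
  rw [e4]
  have h5 : 0 ≤ 2 * (X ^ 2 * (T * |u|)) := by positivity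
  have := mul_le_mul_of_nonneg_left hC h5
  linarith

end Vale.Agent.P088.R2.H404.INF
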