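import Vale.Agent.P088.R2.H404.INF.Hc
import Vale.Agent.P088.R2.H168.INF.T
import Vale.Agent.P088.R2.H168.INF.No3

/-!
# P088, stage 3, zone INF: the letters of the leaf iH

`NP = Φ'(l(P x) + l(P y))`, `nPx = NP + Θ'(l(x))`, `lmH = s nPx / 100`, `s = σ / R`.
-/

open Set Filter MeasureTheory
open scoped ContDiff Topology Matrix

noncomputable section

namespace Vale.Agent.P088.R2.H404.INF

open Vale.Agent.P088.LR Vale.Agent.P088.HY Vale.Agent.P088.R2.H31.EP Vale.Agent.P088.R2.H961.GW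
open Vale.Agent.P088.R2.H168.INF

variable {n : ℕ}

/-- The slope at the retracted points. -/
def NP (q : Cst) (d : Pk n) (z : VV n) : ℝ := deriv d.Φ (d.l (d.P z.1) + d.l (d.P z.2))

/-- The slope of the first slot. -/
def nPx (q : Cst) (d : Pk n) (z : VV n) : ℝ := NP q d z + deriv d.Θ (d.l z.1)

/-- The slope of the second slot. -/
def nPy (q : Cst) (d : Pk n) (z : VV n) : ℝ := NP q d z + deriv d.Θ (d.l z.2)

/-- The multipliers. -/
def lmH (q : Cst) (d : Pk n) (z : VV n) : ℝ := 1 / 100 * (q.σ / q.R) * nPx q d z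
def muH (q : Cst) (d : Pk n) (z : VV n) : ℝ := 1 / 100 * (q.σ / q.R) * nPy q d z

/-- **The margin of the leaf iH** (without the factor `χ²`). -/
def MiH (q : Cst) (d : Pk n) : H551.E.Q8 (VV n) where
  κ _ := 1
  ζ₁ z := lmH q d z / 6
  ζ₂ z := muH q d z / 6
  ζy _ := 0
  w₁ z := lmH q d z * d.sx.F (d.W q) z / 4 + 1 / 10 ^ 5 * ((q.σ / q.R) * nPx q d z) ^ 2
  w₂ z := muH q d z * d.sy.F (d.W q) z / 4 + 1 / 10 ^ 5 * ((q.σ / q.R) * nPy q d z) ^ 2
  wb _ := 0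
  wc _ := 0

/-- The cost of one slot. -/
def cH (o : Sl (VV n) (Fin n)) (W χ lam : VV n → ℝ) (z : VV n) : ℝ :=
  4 * lam z * o.Γ χ χ z + 32 * HH o W z (fun i => o.D i χ z) + 8 * |χ z * o.Γ χ (o.Λ W) z|

/-- **The cost of the leaf iH** with the cut-off `χ`. -/
def CiH (χ : VV n → ℝ) (q : Cst) (d : Pk n) : H551.E.Q8 (VV n) where
  κ _ := 0
  ζ₁ _ := 0
  ζ₂ _ := 0
  ζy _ := 0
  w₁ z := cH d.sx (d.W q) χ (lmH q d) z
  w₂ z := cH d.sy (d.W q) χ (muH q d) z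
  wb _ := 0
  wc _ := 0

end Vale.Agent.P088.R2.H404.INF
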